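import Mathlib

/-!
Two-sided ideal facts for the Kirchberg-Rordam character question: finite witnesses, products of
commuting families, and a Gram determinant identity for commuting blocks.
-/

namespace VAgent.P101

section Ring

variable {R : Type*} [Ring R]

/-- `1` lies in the two-sided ideal generated by `s`. -/
def FullSet (s : Set R) : Prop := (1 : R) ∈ TwoSidedIdeal.span s

theorem fullSet_of_sum {ι : Type*} [Fintype ι] {s : Set R} (a b e : ι → R)
    (he : ∀ i, e i ∈ TwoSidedIdeal.span s) (h : ∑ i, a i * e i * b i = 1) :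
    FullSet s := by
  unfold FullSet
  rw [← h]
  exact sum_mem fun i _ =>
    TwoSidedIdeal.mul_mem_right _ _ _ (TwoSidedIdeal.mul_mem_left _ _ _ (he i))

theorem exists_sum_of_mem_span {s : Set R} {z : R} (hz : z ∈ TwoSidedIdeal.span s) :
    ∃ (n : ℕ) (a b e : Fin n → R), (∀ i, e i ∈ s) ∧ ∑ i, a i * e i * b i = z := by
  induction hz using TwoSidedIdeal.span_induction with
  | mem x hx => exact ⟨1, fun _ => 1, fun _ => 1, fun _ => x, fun _ => hx, by simp⟩
  | zero => exact ⟨0, Fin.elim0, Fin.elim0, Fin.elim0, fun i => i.elim0, by simp⟩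
  | add x y _ _ hx hy =>
    obtain ⟨n, a, b, e, he, rfl⟩ := hx
    obtain ⟨m, a', b', e', he', rfl⟩ := hy
    refine ⟨n + m, Fin.append a a', Fin.append b b', Fin.append e e', ?_, ?_⟩
    · intro i
      refine Fin.addCases (fun j => ?_) (fun j => ?_) i
      · rw [Fin.append_left]; exact he j
      · rw [Fin.append_right]; exact he' j
    · simp [Fin.sum_univ_add]
  | neg x _ hx =>
    obtain ⟨n, a, b, e, he, rfl⟩ := hx
    exact ⟨n, fun i => -a i, b, e, he, by simp [Finset.sum_neg_distrib]⟩
  | left_absorb c x _ hx =>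
    obtain ⟨n, a, b, e, he, rfl⟩ := hx
    exact ⟨n, fun i => c * a i, b, e, he, by simp [Finset.mul_sum, mul_assoc]⟩
  | right_absorb c x _ hx =>
    obtain ⟨n, a, b, e, he, rfl⟩ := hx
    exact ⟨n, a, fun i => b i * c, e, he, by simp [Finset.sum_mul, mul_assoc]⟩

theorem FullSet.exists_sum {s : Set R} (h : FullSet s) :
    ∃ (n : ℕ) (a b e : Fin n → R), (∀ i, e i ∈ s) ∧ ∑ i, a i * e i * b i = 1 :=
  exists_sum_of_mem_span h

theorem FullSet.trans {s t : Set R} (h : FullSet s) (hst : ∀ x ∈ s, x ∈ TwoSidedIdeal.span t) :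
    FullSet t := by
  obtain ⟨n, a, b, e, he, hsum⟩ := h.exists_sum
  exact fullSet_of_sum a b e (fun i => hst _ (he i)) hsum

/-- Ordered product of a finite family. -/
def oprod : {n : ℕ} → (Fin n → R) → R
  | 0, _ => 1
  | _ + 1, f => f 0 * oprod (fun i => f i.succ)

theorem oprod_succ {n : ℕ} (f : Fin (n + 1) → R) :
    oprod f = f 0 * oprod (fun i => f i.succ) := rfl

theorem commute_oprod : ∀ {n : ℕ} (f : Fin n → R) (z : R),
    (∀ i, Commute z (f i)) → Commute z (oprod f)
  | 0, _, z, _ => Commute.one_right z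
  | n + 1, f, z, h => (h 0).mul_right (commute_oprod _ z fun i => h i.succ)

theorem oprod_mul : ∀ {n : ℕ} (f g : Fin n → R), (∀ i j, i ≠ j → Commute (g i) (f j)) →
    oprod (fun i => f i * g i) = oprod f * oprod g
  | 0, _, _, _ => by simp [oprod]
  | n + 1, f, g, h => by
    rw [oprod_succ, oprod_succ f, oprod_succ g,
      oprod_mul _ _ fun i j hij => h i.succ j.succ (by simpa using hij)]
    have hc : Commute (g 0) (oprod fun i => f i.succ) :=
      commute_oprod _ _ fun i => h 0 i.succ (Fin.succ_ne_zero i).symm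
    calc f 0 * g 0 * ((oprod fun i => f i.succ) * oprod fun i => g i.succ)
        = f 0 * (g 0 * oprod fun i => f i.succ) * oprod (fun i => g i.succ) := by noncomm_ring
      _ = f 0 * ((oprod fun i => f i.succ) * g 0) * oprod (fun i => g i.succ) := by rw [hc.eq]
      _ = _ := by noncomm_ring

theorem oprod_sum : ∀ {n : ℕ} {κ : Type} [Fintype κ] (f : Fin n → κ → R),
    oprod (fun i => ∑ j, f i j) = ∑ J : Fin n → κ, oprod (fun i => f i (J i))
  | 0, κ, _, f => by simp [oprod]
  | n + 1, κ, _, f => by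
    rw [oprod_succ, oprod_sum fun i => f i.succ, Finset.sum_mul_sum,
      ← Equiv.sum_comp (Fin.consEquiv fun _ => κ), Fintype.sum_prod_type]
    refine Finset.sum_congr rfl fun j _ => Finset.sum_congr rfl fun J _ => ?_
    rw [oprod_succ]
    simp [Fin.consEquiv]

theorem oprod_update : ∀ {n : ℕ} (f : Fin n → R) (i : Fin n),
    (∀ j, j < i → Commute (f i) (f j)) →
    oprod f = f i * oprod (Function.update f i 1)
  | 0, _, i, _ => i.elim0
  | n + 1, f, i, h => by
    refine Fin.cases ?_ (fun k => ?_) i h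
    · intro _
      simp [oprod_succ]
    · intro h
      have e1 : (fun j : Fin n => Function.update f k.succ 1 j.succ) =
          Function.update (fun j => f j.succ) k 1 :=
        Function.update_comp_eq_of_injective f (Fin.succ_injective n) k 1
      rw [oprod_succ, oprod_update (fun j => f j.succ) k
        (fun j hj => h j.succ (Fin.succ_lt_succ_iff.2 hj)), oprod_succ (Function.update _ _ _),
        e1, Function.update_of_ne (Fin.succ_ne_zero k).symm, ← mul_assoc, ← mul_assoc,
        (h 0 (Fin.succ_pos k)).eq]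

/-- Full families in commuting blocks have full ordered products. -/
theorem fullSet_oprod : ∀ {n : ℕ} {κ : Type} [Fintype κ] (a b e : Fin n → κ → R) (s : Set R),
    (∀ i, ∑ q, a i q * e i q * b i q = 1) →
    (∀ i j, i < j → ∀ p q, Commute (b i p) (e j q)) →
    (∀ J : Fin n → κ, oprod (fun i => e i (J i)) ∈ TwoSidedIdeal.span s) →
    FullSet s
  | 0, κ, _, _, _, _, s, _, _, h => by simpa [FullSet, oprod] using h Fin.elim0
  | n + 1, κ, _, a, b, e, s, hsum, hc, h => by
    refine fullSet_oprod (n := n) (fun i => a i.succ) (fun i => b i.succ) (fun i => e i.succ) s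
      (fun i => hsum i.succ) (fun i j hij => hc i.succ j.succ (Fin.succ_lt_succ_iff.2 hij))
      fun J => ?_
    set P : R := oprod fun i => e i.succ (J i) with hP
    have key : ∀ q, a 0 q * e 0 q * b 0 q * P = a 0 q * (e 0 q * P) * b 0 q := by
      intro q
      have hc' : Commute (b 0 q) P :=
        commute_oprod _ _ fun i => hc 0 i.succ (Fin.succ_pos i) q (J i)
      rw [mul_assoc (a 0 q * e 0 q), hc'.eq]
      noncomm_ring
    have hPeq : P = ∑ q, a 0 q * (e 0 q * P) * b 0 q := by
      rw [← Finset.sum_congr rfl fun q _ => key q, ← Finset.sum_mul, hsum 0, one_mul]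
    rw [hPeq]
    refine sum_mem fun q _ =>
      TwoSidedIdeal.mul_mem_right _ _ _ (TwoSidedIdeal.mul_mem_left _ _ _ ?_)
    have := h (Fin.cons q J)
    simpa [oprod_succ, hP] using this

theorem alternating_sum_eq_zero {w : ℕ} (v : Fin (w + 1) → Fin w → R)
    (J : Fin (w + 1) → Fin w) :
    ∑ τ : Equiv.Perm (Fin (w + 1)),
      (Equiv.Perm.sign τ : ℤ) • oprod (fun l => v l (J (τ l))) = 0 := by
  obtain ⟨a, b, hab, hJ⟩ := Fintype.exists_ne_map_eq_of_card_lt J (by simp)
  have hswap : ∀ x, J (Equiv.swap a b x) = J x := by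
    intro x
    rcases eq_or_ne x a with h | h
    · simp [h, hJ]
    · rcases eq_or_ne x b with h' | h'
      · simp [h', hJ]
      · rw [Equiv.swap_apply_of_ne_of_ne h h']
  refine Finset.sum_involution (fun τ _ => Equiv.swap a b * τ) ?_ ?_ (fun _ _ => by simp)
    (fun τ _ => by simp)
  · intro τ _
    simp [hswap, Equiv.Perm.sign_swap hab]
  · intro τ _ _ h
    exact hab (Equiv.swap_eq_one_iff.1 (mul_eq_right.1 h))

/-- The twisted sums over `J` lie in any ideal containing the off-diagonal pairings. -/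
theorem twisted_mem {n w : ℕ} (I : TwoSidedIdeal R) (u v : Fin n → Fin w → R)
    (huu : ∀ i l, i ≠ l → ∀ j k, Commute (u i j) (u l k))
    (hvv : ∀ i l, i ≠ l → ∀ j k, Commute (v i j) (v l k))
    (hI : ∀ i l, i ≠ l → ∑ j, u i j * v l j ∈ I)
    (τ : Equiv.Perm (Fin n)) (hτ : τ ≠ 1) :
    ∑ J : Fin n → Fin w, oprod (fun i => u i (J i)) * oprod (fun l => v l (J (τ l))) ∈ I := by
  obtain ⟨l0, hl0⟩ : ∃ l, τ l ≠ l := not_forall.1 fun h => hτ (Equiv.ext h)
  set i0 := τ l0 with hi0
  rw [← Equiv.sum_comp (Equiv.funSplitAt i0 (Fin w)).symm, Fintype.sum_prod_type, Finset.sum_comm]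
  refine sum_mem fun r _ => ?_
  have expand : ∀ j, oprod (fun i => u i ((Equiv.funSplitAt i0 (Fin w)).symm (j, r) i)) *
      oprod (fun l => v l ((Equiv.funSplitAt i0 (Fin w)).symm (j, r) (τ l))) =
      oprod (fun i => if h : i = i0 then 1 else u i (r ⟨i, h⟩)) * (u i0 j * v l0 j) *
      oprod (fun l => if h : τ l = i0 then 1 else v l (r ⟨τ l, h⟩)) := by
    intro j
    set f := fun i => u i ((Equiv.funSplitAt i0 (Fin w)).symm (j, r) i) with hf
    set g := fun l => v l ((Equiv.funSplitAt i0 (Fin w)).symm (j, r) (τ l)) with hg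
    have hf0 : f i0 = u i0 j := by simp [hf, Equiv.funSplitAt, Equiv.piSplitAt]
    have hg0 : g l0 = v l0 j := by simp [hg, Equiv.funSplitAt, Equiv.piSplitAt, hi0]
    have ef : Function.update f i0 1 = fun i => if h : i = i0 then 1 else u i (r ⟨i, h⟩) := by
      funext i
      by_cases h : i = i0
      · subst h; simp
      · simp [hf, Equiv.funSplitAt, Equiv.piSplitAt, h]
    have eg : Function.update g l0 1 =
        fun l => if h : τ l = i0 then 1 else v l (r ⟨τ l, h⟩) := by
      funext l
      by_cases h : l = l0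
      · subst h; simp [hi0]
      · have h' : τ l ≠ i0 := fun e => h (τ.injective (e.trans hi0))
        simp [Function.update_of_ne h, hg, Equiv.funSplitAt, Equiv.piSplitAt, h']
    have c1 : Commute (u i0 j) (oprod (Function.update f i0 1)) :=
      commute_oprod _ _ fun i => by
        by_cases h : i = i0
        · subst h; simp
        · rw [Function.update_of_ne h]; exact huu _ _ (Ne.symm h) _ _
    rw [oprod_update f i0 fun k hk => huu _ _ (ne_of_gt hk) _ _,
      oprod_update g l0 fun k hk => hvv _ _ (ne_of_gt hk) _ _, hf0, hg0, c1.eq, ← ef, ← eg]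
    noncomm_ring
  rw [Finset.sum_congr rfl fun j _ => expand j, ← Finset.sum_mul, ← Finset.mul_sum]
  exact TwoSidedIdeal.mul_mem_right _ _ _ (TwoSidedIdeal.mul_mem_left _ _ _ (hI _ _ hl0))

/-- Gram identity: `w + 1` commuting blocks cannot be pairwise orthogonal in `w` coordinates. -/
theorem gram_mem {w : ℕ} (I : TwoSidedIdeal R) (u v : Fin (w + 1) → Fin w → R)
    (huu : ∀ i l, i ≠ l → ∀ j k, Commute (u i j) (u l k))
    (hvv : ∀ i l, i ≠ l → ∀ j k, Commute (v i j) (v l k))
    (huv : ∀ i l, i ≠ l → ∀ j k, Commute (v i j) (u l k))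
    (hI : ∀ i l, i ≠ l → ∑ j, u i j * v l j ∈ I) :
    oprod (fun i => ∑ j, u i j * v i j) ∈ I := by
  rw [oprod_sum fun i j => u i j * v i j,
    Finset.sum_congr rfl fun J _ =>
      oprod_mul (fun i => u i (J i)) (fun i => v i (J i)) fun i l h => huv i l h _ _]
  set T : Equiv.Perm (Fin (w + 1)) → R := fun τ =>
    ∑ J : Fin (w + 1) → Fin w, oprod (fun i => u i (J i)) * oprod (fun l => v l (J (τ l))) with hT
  change T 1 ∈ I
  have h0 : ∑ τ, (Equiv.Perm.sign τ : ℤ) • T τ = 0 := by
    simp only [hT, Finset.smul_sum, ← mul_smul_comm]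
    rw [Finset.sum_comm]
    refine Finset.sum_eq_zero fun J _ => ?_
    rw [← Finset.mul_sum, alternating_sum_eq_zero, mul_zero]
  rw [← Finset.add_sum_erase Finset.univ (fun τ => (Equiv.Perm.sign τ : ℤ) • T τ)
    (Finset.mem_univ 1)] at h0
  simp only [Equiv.Perm.sign_one, Units.val_one, one_smul] at h0
  rw [eq_neg_of_add_eq_zero_left h0]
  refine neg_mem (sum_mem fun τ hτ => ?_)
  exact zsmul_mem (twisted_mem I u v huu hvv hI τ (Finset.ne_of_mem_erase hτ)) _

end Ring

end VAgent.P101
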