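import Mathlib
import Vale.Agent.P101.Ideal

/-!
Analytic infrastructure: approximations in ideals, the property of having commuting copies, and
Gelfand duality for commuting self-adjoint families.
-/

namespace VAgent.P101

open scoped CStarAlgebra

variable {F : Type*} [CStarAlgebra F]

theorem fullSet_of_norm_lt (t : Set F) {z : F} (hz : z ∈ TwoSidedIdeal.span t)
    (h : ‖1 - z‖ < 1) : FullSet t := by
  have hu : IsUnit z := by
    have := (Units.oneSub (1 - z) h).isUnit
    simpa using this
  obtain ⟨u, rfl⟩ := hu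
  have := TwoSidedIdeal.mul_mem_left _ (↑u⁻¹ : F) _ hz
  simpa [FullSet] using this

/-- Fullness passes to a set whose ideal approximates the original one. -/
theorem FullSet.approx {s t : Set F} (h : FullSet s)
    (happ : ∀ x ∈ s, ∀ ε : ℝ, 0 < ε → ∃ z ∈ TwoSidedIdeal.span t, ‖x - z‖ ≤ ε) :
    FullSet t := by
  obtain ⟨n, a, b, e, he, hsum⟩ := h.exists_sum
  set C := ∑ i, ‖a i‖ * ‖b i‖ with hC
  have hC0 : 0 ≤ C := by positivity
  choose z hz hzd using fun i => happ _ (he i) (1 / (2 * (C + 1))) (by positivity)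
  refine fullSet_of_norm_lt t (z := ∑ i, a i * z i * b i) (sum_mem fun i _ =>
    TwoSidedIdeal.mul_mem_right _ _ _ (TwoSidedIdeal.mul_mem_left _ _ _ (hz i))) ?_
  rw [← hsum, ← Finset.sum_sub_distrib]
  calc ‖∑ i, (a i * e i * b i - a i * z i * b i)‖
      ≤ ∑ i, ‖a i * e i * b i - a i * z i * b i‖ := norm_sum_le _ _
    _ ≤ ∑ i, ‖a i‖ * ‖b i‖ * (1 / (2 * (C + 1))) := Finset.sum_le_sum fun i _ => by
        rw [show a i * e i * b i - a i * z i * b i = a i * (e i - z i) * b i by noncomm_ring]
        calc ‖a i * (e i - z i) * b i‖ ≤ ‖a i‖ * ‖e i - z i‖ * ‖b i‖ :=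
              norm_mul₃_le
          _ ≤ ‖a i‖ * (1 / (2 * (C + 1))) * ‖b i‖ := by gcongr; exact hzd i
          _ = _ := by ring
    _ = C / (2 * (C + 1)) := by rw [← Finset.sum_mul, ← hC]; ring
    _ < 1 := by rw [div_lt_one (by positivity)]; linarith

/-- The closed unital star subalgebra generated by a finite set. -/
noncomputable def GenAlg (T : Finset F) : StarSubalgebra ℂ F :=
  (StarAlgebra.adjoin ℂ (T : Set F)).topologicalClosure

instance genAlg_isClosed (T : Finset F) : IsClosed (GenAlg T : Set F) :=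
  StarSubalgebra.isClosed_topologicalClosure _

noncomputable instance genAlgCStar (T : Finset F) : CStarAlgebra (GenAlg T) :=
  StarSubalgebra.cstarAlgebra (GenAlg T)

theorem mem_genAlg {T : Finset F} {x : F} (hx : x ∈ T) : x ∈ GenAlg T :=
  StarSubalgebra.le_topologicalClosure _ (StarAlgebra.subset_adjoin ℂ _ hx)

variable (F) in
/-- Every finite subset generates an algebra with a copy commuting with any given finite set. -/
def HasCopies : Prop :=
  ∀ T S : Finset F, ∃ φ : GenAlg T →⋆ₐ[ℂ] F, ∀ z ∈ S, ∀ x, Commute z (φ x)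

theorem commute_of_gens {T : Finset F} (φ : GenAlg T →⋆ₐ[ℂ] F) (z : F)
    (h : ∀ t (ht : t ∈ T), Commute z (φ ⟨t, mem_genAlg ht⟩) ∧
      Commute z (φ (star ⟨t, mem_genAlg ht⟩)))
    (x : GenAlg T) : Commute z (φ x) := by
  have hclosed : IsClosed {y : GenAlg T | Commute z (φ y)} :=
    isClosed_eq (continuous_const.mul (map_continuous φ)) ((map_continuous φ).mul continuous_const)
  have key : ∀ a (ha : a ∈ StarAlgebra.adjoin ℂ (T : Set F)),
      Commute z (φ ⟨a, StarSubalgebra.le_topologicalClosure _ ha⟩) ∧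
        Commute z (φ (star ⟨a, StarSubalgebra.le_topologicalClosure _ ha⟩)) := by
    intro a ha
    induction ha using StarAlgebra.adjoin_induction with
    | mem a ha => exact h a ha
    | algebraMap c =>
      have e : ∀ c : ℂ, Commute z (φ (algebraMap ℂ (GenAlg T) c)) := fun c => by
        rw [AlgHomClass.commutes φ c]; exact Algebra.commute_algebraMap_right c z
      refine ⟨e c, ?_⟩
      have := e (star c)
      rw [algebraMap_star_comm] at this
      exact this
    | add a b _ _ iha ihb =>
      constructor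
      · have := iha.1.add_right ihb.1
        rwa [← map_add] at this
      · have := iha.2.add_right ihb.2
        rwa [← map_add, ← star_add] at this
    | mul a b _ _ iha ihb =>
      constructor
      · have := iha.1.mul_right ihb.1
        rwa [← map_mul] at this
      · have := ihb.2.mul_right iha.2
        rwa [← map_mul, ← star_mul] at this
    | star a _ iha =>
      constructor
      · exact iha.2
      · have h1 := iha.1
        rw [← star_star (⟨a, StarSubalgebra.le_topologicalClosure _ (by assumption)⟩ : GenAlg T)]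
          at h1
        exact h1
  obtain ⟨a, ha⟩ := x
  refine hclosed.closure_subset ?_
  rw [Topology.IsInducing.subtypeVal.closure_eq_preimage_closure_image]
  refine closure_mono ?_ ha
  intro b hb
  exact ⟨⟨b, StarSubalgebra.le_topologicalClosure _ hb⟩, (key b hb).1, rfl⟩

theorem exists_copies (hF : HasCopies F) (T S : Finset F) (n : ℕ) :
    ∃ φ : Fin n → (GenAlg T →⋆ₐ[ℂ] F), (∀ i, ∀ z ∈ S, ∀ x, Commute z (φ i x)) ∧
      ∀ i j, i ≠ j → ∀ x y, Commute (φ i x) (φ j y) := by
  classical
  induction n with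
  | zero => exact ⟨Fin.elim0, fun i => i.elim0, fun i => i.elim0⟩
  | succ n ih =>
    obtain ⟨φ, hS, hc⟩ := ih
    obtain ⟨ψ, hψ⟩ := hF T (S ∪ Finset.univ.biUnion fun i : Fin n => T.attach.biUnion fun t =>
      {φ i ⟨t.1, mem_genAlg t.2⟩, φ i (star ⟨t.1, mem_genAlg t.2⟩)})
    have hnew : ∀ i x y, Commute (φ i x) (ψ y) := by
      intro i x y
      refine (commute_of_gens (φ i) (ψ y) (fun t ht => ⟨?_, ?_⟩) x).symm
      all_goals
        refine (hψ _ ?_ y).symm
        refine Finset.mem_union_right _ (Finset.mem_biUnion.2 ⟨i, Finset.mem_univ _, ?_⟩)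
        exact Finset.mem_biUnion.2 ⟨⟨t, ht⟩, Finset.mem_attach _ _, by simp⟩
    refine ⟨Fin.cons ψ φ, ?_, ?_⟩
    · intro i z hz x
      refine Fin.cases ?_ (fun k => ?_) i
      · simpa using hψ z (Finset.mem_union_left _ hz) x
      · simpa using hS k z hz x
    · intro i j hij x y
      revert hij
      refine Fin.cases ?_ (fun k => ?_) i <;> refine Fin.cases ?_ (fun l => ?_) j
      · exact fun h => absurd rfl h
      · intro _; simpa using (hnew l y x).symm
      · intro _; simpa using hnew k x y
      · intro h; simpa using hc k l (by simpa using h) x y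

section Abelian

/-- A set of pairwise commuting self-adjoint elements. -/
def CommSA (c : Set F) : Prop :=
  (∀ x ∈ c, IsSelfAdjoint x) ∧ ∀ x ∈ c, ∀ y ∈ c, Commute x y

/-- The commutative closed star algebra generated by commuting self-adjoint elements. -/
noncomputable def Abel (c : Set F) (_h : CommSA c) : StarSubalgebra ℂ F :=
  (StarAlgebra.adjoin ℂ c).topologicalClosure

instance abel_isClosed (c : Set F) (h : CommSA c) : IsClosed (Abel c h : Set F) :=
  StarSubalgebra.isClosed_topologicalClosure _

theorem mem_abel {c : Set F} (h : CommSA c) {x : F} (hx : x ∈ c) : x ∈ Abel c h :=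
  StarSubalgebra.le_topologicalClosure _ (StarAlgebra.subset_adjoin ℂ _ hx)

theorem abel_mul_comm {c : Set F} (h : CommSA c) {x y : F} (hx : x ∈ Abel c h)
    (hy : y ∈ Abel c h) : x * y = y * x := by
  have hle : StarAlgebra.adjoin ℂ c ≤ StarSubalgebra.centralizer ℂ c := by
    refine StarAlgebra.adjoin_le fun a ha => ?_
    rw [SetLike.mem_coe, StarSubalgebra.mem_centralizer_iff]
    intro b hb
    exact ⟨(h.2 b hb a ha).eq, by rw [(h.1 b hb).star_eq]; exact (h.2 b hb a ha).eq⟩
  have h2 := StarSubalgebra.topologicalClosure_adjoin_le_centralizer_centralizer ℂ c hx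
  have hy' : y ∈ StarSubalgebra.centralizer ℂ c :=
    StarSubalgebra.topologicalClosure_minimal hle (Set.isClosed_centralizer _) hy
  rw [StarSubalgebra.mem_centralizer_iff] at h2
  exact ((h2 y hy').1).symm

noncomputable instance abelComm (c : Set F) (h : CommSA c) : CommCStarAlgebra (Abel c h) :=
  { StarSubalgebra.cstarAlgebra (Abel c h) with
    mul_comm := fun x y => Subtype.ext (abel_mul_comm h x.2 y.2) }

open WeakDual in
theorem abel_ext {L : Type*} [CommCStarAlgebra L] {x y : L}
    (h : ∀ χ : characterSpace ℂ L, χ x = χ y) : x = y :=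
  (gelfandTransform_isometry L).injective (ContinuousMap.ext h)

theorem char_re {L : Type*} [CStarAlgebra L] (χ : WeakDual.characterSpace ℂ L) {z : L}
    (hz : IsSelfAdjoint z) : χ z = ((χ z).re : ℂ) := by
  have : star (χ z) = χ z := by rw [← map_star, hz.star_eq]
  exact (Complex.conj_eq_iff_re.1 this).symm

theorem char_cfc {L : Type*} [CStarAlgebra L] (χ : WeakDual.characterSpace ℂ L) {z : L}
    (hz : IsSelfAdjoint z) (f : ℝ → ℝ) (hf : Continuous f) :
    χ (cfc f z) = (f (χ z).re : ℂ) := by
  have hsa : IsSelfAdjoint (χ z) := by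
    rw [IsSelfAdjoint, ← map_star, hz.star_eq]
  rw [StarAlgHomClass.map_cfc χ f z hf.continuousOn (map_continuous χ) hz hsa]
  conv_lhs => rw [char_re χ hz]
  exact cfc_algebraMap (A := ℂ) (χ z).re f

theorem coe_cfc {S : StarSubalgebra ℂ F} [IsClosed (S : Set F)] (z : S)
    (hz : IsSelfAdjoint z) (f : ℝ → ℝ) (hf : Continuous f) :
    ((cfc f z : S) : F) = cfc f (z : F) :=
  StarAlgHomClass.map_cfc S.subtype f z hf.continuousOn continuous_subtype_val hz
    (hz.map S.subtype)

end Abelian

end VAgent.P101
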