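import Mathlib
import Vale.Agent.P101.Basic

/-!
From the absence of characters to one self-adjoint element with full commutators, using commuting
copies and the Gram determinant identity.
-/

namespace VAgent.P101

open scoped CStarAlgebra

/-- Additive commutator. -/
def comm {R : Type*} [Ring R] (a b : R) : R := a * b - b * a

section Quotient

variable {R : Type*} [NormedRing R] (I : Ideal R) [I.IsTwoSided] [IsClosed (I : Set R)]

theorem quot_norm_mul_le (x y : R ⧸ I) : ‖x * y‖ ≤ ‖x‖ * ‖y‖ := by
  have key : ∀ ε : ℝ, 0 < ε → ‖x * y‖ ≤ (‖x‖ + ε) * (‖y‖ + ε) := by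
    intro ε hε
    obtain ⟨a, rfl, ha⟩ := QuotientAddGroup.exists_norm_mk_lt (S := I.toAddSubgroup) x hε
    obtain ⟨b, rfl, hb⟩ := QuotientAddGroup.exists_norm_mk_lt (S := I.toAddSubgroup) y hε
    refine le_trans (QuotientAddGroup.norm_mk_le_norm (S := I.toAddSubgroup) (m := a * b)) ?_
    exact (norm_mul_le a b).trans
      (mul_le_mul ha.le hb.le (norm_nonneg _) ((norm_nonneg _).trans ha.le))
  refine ge_of_tendsto (f := fun ε : ℝ => (‖x‖ + ε) * (‖y‖ + ε))
    (x := nhdsWithin 0 (Set.Ioi 0)) ?_ (eventually_nhdsWithin_of_forall fun ε hε => key ε hε)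
  have : Filter.Tendsto (fun ε : ℝ => (‖x‖ + ε) * (‖y‖ + ε)) (nhds 0) (nhds (‖x‖ * ‖y‖)) := by
    have h := (by fun_prop : Continuous fun ε : ℝ => (‖x‖ + ε) * (‖y‖ + ε)).tendsto 0
    simpa using h
  exact this.mono_left nhdsWithin_le_nhds

/-- Quotients by closed two-sided ideals are normed rings. -/
@[reducible] noncomputable def quotNormedRing : NormedRing (R ⧸ I) :=
  { Ideal.Quotient.ring I, Submodule.Quotient.normedAddCommGroup I with
    norm_mul_le := quot_norm_mul_le I }

end Quotient

variable {F : Type*} [CStarAlgebra F]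

/-- The commutators with the family `g` generate the whole algebra as an ideal. -/
def CommFull {ι : Type*} (g : ι → F) : Prop :=
  FullSet (Set.range fun p : ι × F => comm (g p.1) p.2)

/-- A unital C*-algebra without characters has finitely many self-adjoint elements whose
commutators are full. -/
theorem exists_commFull [Nontrivial F] (hchar : ∀ χ : F →⋆ₙₐ[ℂ] ℂ, χ = 0) :
    ∃ (w : ℕ) (g : Fin w → F), (∀ j, IsSelfAdjoint (g j)) ∧ CommFull g := by
  set s0 : Set F := {z | ∃ a b, IsSelfAdjoint a ∧ comm a b = z} with hs0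
  by_cases hfull : FullSet s0
  · obtain ⟨n, p, q, e, he, hsum⟩ := hfull.exists_sum
    choose g b hg hgb using he
    refine ⟨n, g, hg, fullSet_of_sum p q e (fun i => ?_) hsum⟩
    rw [← hgb i]
    exact TwoSidedIdeal.subset_span ⟨(i, b i), rfl⟩
  · exfalso
    set J := TwoSidedIdeal.span s0 with hJ
    let J' : TwoSidedIdeal F := TwoSidedIdeal.mk' (closure (J : Set F))
      (subset_closure (zero_mem J))
      (fun hx hy => map_mem_closure₂ continuous_add hx hy fun a ha b hb => add_mem ha hb)
      (fun hx => map_mem_closure continuous_neg hx fun a ha => neg_mem ha)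
      (fun {x _} hy => map_mem_closure (continuous_const_mul x) hy
        fun a ha => TwoSidedIdeal.mul_mem_left _ _ _ ha)
      (fun {_ y} hx => map_mem_closure (f := fun z => z * y) (continuous_mul_const y) hx
        fun a ha => TwoSidedIdeal.mul_mem_right _ _ _ ha)
    have hJ' : ∀ x, x ∈ J'.asIdeal ↔ x ∈ closure (J : Set F) := fun x => by
      rw [TwoSidedIdeal.mem_asIdeal, TwoSidedIdeal.mem_mk']
    haveI : IsClosed (J'.asIdeal : Set F) := by
      have : (J'.asIdeal : Set F) = closure (J : Set F) := Set.ext hJ'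
      rw [this]; exact isClosed_closure
    have h1 : J'.asIdeal ≠ ⊤ := by
      intro h
      have hmem : (1 : F) ∈ closure (J : Set F) := (hJ' 1).1 (h ▸ trivial)
      obtain ⟨z, hz, hd⟩ := Metric.mem_closure_iff.1 hmem 1 one_pos
      exact hfull (fullSet_of_norm_lt s0 hz (by rwa [dist_eq_norm] at hd))
    let Q := F ⧸ J'.asIdeal
    have hcomm : ∀ x y : Q, x * y = y * x := by
      intro x y
      obtain ⟨a, rfl⟩ := Ideal.Quotient.mk_surjective x
      obtain ⟨b, rfl⟩ := Ideal.Quotient.mk_surjective y
      rw [← map_mul, ← map_mul, Ideal.Quotient.mk_eq_mk_iff_sub_mem, hJ']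
      apply subset_closure
      rw [show a * b - b * a = comm ((realPart a : selfAdjoint F) : F) b +
        comm ((imaginaryPart a : selfAdjoint F) : F) b *
          algebraMap ℂ F Complex.I by
        conv_lhs => rw [← realPart_add_I_smul_imaginaryPart a]
        simp only [comm, ← Algebra.commutes, ← Algebra.smul_def, add_mul, mul_add, smul_mul_assoc,
          mul_smul_comm, smul_sub]
        abel]
      refine add_mem (TwoSidedIdeal.subset_span ⟨_, b, (realPart a).2, rfl⟩) ?_
      exact TwoSidedIdeal.mul_mem_right _ _ _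
        (TwoSidedIdeal.subset_span ⟨_, b, (imaginaryPart a).2, rfl⟩)
    letI : NormedCommRing Q := { quotNormedRing J'.asIdeal with mul_comm := hcomm }
    letI : NormedAlgebra ℂ Q :=
      { Ideal.Quotient.algebra ℂ (I := J'.asIdeal) with
        norm_smul_le := fun c x => by
          letI := Submodule.Quotient.normedSpace J'.asIdeal ℂ
          exact norm_smul_le c x }
    haveI : Nontrivial Q := Ideal.Quotient.nontrivial_iff.2 h1
    haveI : CompleteSpace Q := inferInstanceAs (CompleteSpace (F ⧸ J'.asIdeal))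
    obtain ⟨χ⟩ := (inferInstance : Nonempty (WeakDual.characterSpace ℂ Q))
    let ψ : F →ₐ[ℂ] ℂ :=
      (WeakDual.CharacterSpace.toAlgHom χ).comp (Ideal.Quotient.mkₐ ℂ J'.asIdeal)
    let Ψ : F →⋆ₙₐ[ℂ] ℂ :=
      { toFun := ψ
        map_smul' := fun c x => by simp
        map_zero' := map_zero ψ
        map_add' := map_add ψ
        map_mul' := map_mul ψ
        map_star' := fun x => by
          haveI := AlgHomClass.instStarHomClass (F := F →ₐ[ℂ] ℂ) (A := F)
          exact map_star ψ x }
    have : Ψ 1 = 0 := by rw [hchar Ψ]; rfl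
    exact one_ne_zero ((map_one ψ).symm.trans this)

section Gram

variable [PartialOrder F] [StarOrderedRing F]

theorem cfc_damp_norm {P : F} (hP : 0 ≤ P) {ε : ℝ} (hε : 0 < ε) :
    ‖(1 - P * cfc (fun t : ℝ => 1 / (max t 0 + ε)) P) * P *
      (1 - P * cfc (fun t : ℝ => 1 / (max t 0 + ε)) P)‖ ≤ ε := by
  have hsa : IsSelfAdjoint P := .of_nonneg hP
  have hc : Continuous fun t : ℝ => 1 / (max t 0 + ε) :=
    continuous_const.div (by fun_prop) fun t => by positivity
  have e : (1 - P * cfc (fun t : ℝ => 1 / (max t 0 + ε)) P) =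
      cfc (fun t : ℝ => 1 - t * (1 / (max t 0 + ε))) P := by
    rw [cfc_sub (fun _ : ℝ => (1 : ℝ)) _ P continuousOn_const
      (show Continuous fun t : ℝ => t * (1 / (max t 0 + ε)) from
        continuous_id.mul hc).continuousOn,
      cfc_mul (fun t : ℝ => t) _ P continuous_id.continuousOn hc.continuousOn, cfc_id' ℝ P,
      cfc_const_one ℝ P]
  have hu : Continuous fun t : ℝ => 1 - t * (1 / (max t 0 + ε)) :=
    continuous_const.sub (continuous_id.mul hc)
  have e2 : cfc (fun t : ℝ => 1 - t * (1 / (max t 0 + ε))) P * P *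
      cfc (fun t : ℝ => 1 - t * (1 / (max t 0 + ε))) P =
      cfc (fun t : ℝ => (1 - t * (1 / (max t 0 + ε))) * t *
        (1 - t * (1 / (max t 0 + ε)))) P := by
    rw [cfc_mul (fun t : ℝ => (1 - t * (1 / (max t 0 + ε))) * t) _ P
      (hu.mul continuous_id).continuousOn hu.continuousOn,
      cfc_mul _ (fun t : ℝ => t) P hu.continuousOn continuous_id.continuousOn, cfc_id' ℝ P]
  rw [e, e2]
  refine norm_cfc_le hε.le fun t ht => ?_
  have ht0 : 0 ≤ t := spectrum_nonneg_of_nonneg hP ht
  rw [max_eq_left ht0, Real.norm_eq_abs]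
  have hq : 1 - t * (1 / (t + ε)) = ε / (t + ε) := by field_simp; ring
  have hle : ε / (t + ε) ≤ 1 := by rw [div_le_one (by positivity)]; linarith
  have hle2 : t / (t + ε) ≤ 1 := by rw [div_le_one (by positivity)]; linarith
  rw [hq, abs_of_nonneg (by positivity)]
  calc ε / (t + ε) * t * (ε / (t + ε)) = ε * (ε / (t + ε)) * (t / (t + ε)) := by ring
    _ ≤ ε * 1 * 1 := by gcongr
    _ = ε := by ring

/-- The quadratic expressions in commutators are full. -/
theorem fullSet_quadratic {w : ℕ} (g : Fin w → F) (hg : ∀ j, IsSelfAdjoint (g j))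
    (h : CommFull g) :
    FullSet (Set.range fun b : F => ∑ j, comm (g j) (star b) * comm (g j) b) := by
  refine FullSet.approx h ?_
  rintro _ ⟨⟨j, b⟩, rfl⟩ ε hε
  set c := fun j => comm (g j) b with hc
  set P := ∑ j, star (c j) * c j with hP
  have hP0 : 0 ≤ P := Finset.sum_nonneg fun j _ => star_mul_self_nonneg _
  have hmem : P ∈ TwoSidedIdeal.span
      (Set.range fun b : F => ∑ j, comm (g j) (star b) * comm (g j) b) := by
    have : P = -∑ j, comm (g j) (star b) * comm (g j) b := by
      rw [hP, ← Finset.sum_neg_distrib]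
      refine Finset.sum_congr rfl fun j _ => ?_
      rw [hc, ← neg_mul]
      congr 1
      simp [comm, star_sub, star_mul, (hg j).star_eq]
    rw [this]
    exact neg_mem (TwoSidedIdeal.subset_span ⟨b, rfl⟩)
  set T := P * cfc (fun t : ℝ => 1 / (max t 0 + ε * ε)) P with hT
  refine ⟨c j * T, TwoSidedIdeal.mul_mem_left _ _ _ (TwoSidedIdeal.mul_mem_right _ _ _ hmem), ?_⟩
  have hTsa : star (1 - T) = 1 - T := by
    have hPsa : IsSelfAdjoint P := .of_nonneg hP0
    have h2 : IsSelfAdjoint (cfc (fun t : ℝ => 1 / (max t 0 + ε * ε)) P) := cfc_predicate _ _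
    have h3 : Commute P (cfc (fun t : ℝ => 1 / (max t 0 + ε * ε)) P) :=
      ((Commute.refl P).cfc_real _).symm
    exact ((IsSelfAdjoint.one F).sub (hPsa.commute_iff h2 |>.1 h3)).star_eq
  have hle : star (c j) * c j ≤ P := by
    rw [hP]
    exact Finset.single_le_sum (f := fun i => star (c i) * c i)
      (fun i _ => star_mul_self_nonneg _) (Finset.mem_univ j)
  have : ‖c j - c j * T‖ ^ 2 ≤ ε ^ 2 := by
    rw [show c j - c j * T = c j * (1 - T) by rw [mul_sub, mul_one], sq,
      ← CStarRing.norm_star_mul_self, star_mul, hTsa, ← mul_assoc, mul_assoc (1 - T)]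
    refine (CStarAlgebra.norm_le_norm_of_nonneg_of_le ?_ ?_).trans
      ((cfc_damp_norm hP0 (mul_pos hε hε)).trans_eq (sq ε).symm)
    · have := star_left_conjugate_nonneg (star_mul_self_nonneg (c j)) (1 - T)
      rwa [hTsa] at this
    · have := star_left_conjugate_le_conjugate hle (1 - T)
      rwa [hTsa] at this
  exact le_of_pow_le_pow_left₀ two_ne_zero hε.le this

omit [PartialOrder F] [StarOrderedRing F] in
theorem comm_mem (s : Set F) {z : F} (hz : z ∈ TwoSidedIdeal.span s) (t : F) :
    comm z t ∈ TwoSidedIdeal.span s :=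
  sub_mem (TwoSidedIdeal.mul_mem_right _ _ _ hz) (TwoSidedIdeal.mul_mem_left _ _ _ hz)

omit [PartialOrder F] [StarOrderedRing F] in
theorem comm_sum {ι : Type*} (t : Finset ι) (f : ι → F) (b : F) :
    comm (∑ i ∈ t, f i) b = ∑ i ∈ t, comm (f i) b := by
  simp [comm, Finset.sum_mul, Finset.mul_sum, Finset.sum_sub_distrib]

omit [PartialOrder F] [StarOrderedRing F] in
theorem commute_comm {a b z : F} (ha : Commute z a) (hb : Commute z b) : Commute z (comm a b) :=
  (ha.mul_right hb).sub_right (hb.mul_right ha)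

omit [PartialOrder F] [StarOrderedRing F] in
/-- The double commutator of a sum of squares against two different blocks. -/
theorem double_comm {n w : ℕ} (G : Fin n → Fin w → F) {i l : Fin n} (hil : i ≠ l) (s t : F)
    (hGs : ∀ i', i' ≠ i → ∀ j, Commute (G i' j) s)
    (hGt : ∀ i', i' ≠ l → ∀ j, Commute (G i' j) t)
    (hst : Commute s t) (hGG : ∀ j, Commute (G i j) (G l j)) :
    comm (comm (∑ j, (∑ i', G i' j) * (∑ i', G i' j)) s) t =
      2 * ∑ j, comm (G i j) s * comm (G l j) t := by
  rw [comm_sum, comm_sum, Finset.mul_sum]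
  refine Finset.sum_congr rfl fun j _ => ?_
  set S := ∑ i', G i' j with hS
  have e1 : comm S s = comm (G i j) s := by
    rw [hS, comm_sum]
    exact Finset.sum_eq_single i (fun b _ hb => sub_eq_zero.2 (hGs b hb j).eq)
      (fun h => absurd (Finset.mem_univ i) h)
  have e2 : comm S t = comm (G l j) t := by
    rw [hS, comm_sum]
    exact Finset.sum_eq_single l (fun b _ hb => sub_eq_zero.2 (hGt b hb j).eq)
      (fun h => absurd (Finset.mem_univ l) h)
  have e3 : Commute (comm (G i j) s) t :=
    (commute_comm (hGt i hil j).symm hst.symm).symm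
  have e4 : Commute (comm (G i j) s) (comm (G l j) t) :=
    commute_comm (commute_comm (hGG j).symm (hGs l hil.symm j)).symm e3
  calc comm (comm (S * S) s) t
      = comm S t * comm S s + comm S s * comm S t + S * comm (comm S s) t +
        comm (comm S s) t * S := by simp only [comm]; noncomm_ring
    _ = comm (G l j) t * comm (G i j) s + comm (G i j) s * comm (G l j) t := by
        rw [e1, e2, show comm (comm (G i j) s) t = 0 from sub_eq_zero.2 e3.eq]
        simp
    _ = _ := by rw [e4.eq, two_mul]

/-- Commuting copies of a finite family with full commutators give one self-adjoint element with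
full commutators. -/
theorem exists_nonscalar (hF : HasCopies F) {w : ℕ} (g : Fin w → F)
    (hg : ∀ j, IsSelfAdjoint (g j)) (h : CommFull g) :
    ∃ H : F, IsSelfAdjoint H ∧ CommFull (fun _ : Unit => H) := by
  classical
  obtain ⟨m, a, b, e, he, hsum⟩ := (fullSet_quadratic g hg h).exists_sum
  choose s hs using he
  set T : Finset F := Finset.univ.image g ∪ Finset.univ.image a ∪ Finset.univ.image b ∪
    Finset.univ.image s with hT
  obtain ⟨φ, -, hc⟩ := exists_copies hF T ∅ (w + 1)
  set g' : Fin w → GenAlg T := fun j => ⟨g j, mem_genAlg (by simp [hT])⟩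
  set a' : Fin m → GenAlg T := fun q => ⟨a q, mem_genAlg (by simp [hT])⟩
  set b' : Fin m → GenAlg T := fun q => ⟨b q, mem_genAlg (by simp [hT])⟩
  set s' : Fin m → GenAlg T := fun q => ⟨s q, mem_genAlg (by simp [hT])⟩
  have hrel : ∑ q, a' q * (∑ j, (g' j * star (s' q) - star (s' q) * g' j) *
      (g' j * s' q - s' q * g' j)) * b' q = 1 := by
    apply Subtype.ext
    simp only [AddSubmonoidClass.coe_finsetSum, MulMemClass.coe_mul, OneMemClass.coe_one]
    rw [← hsum]
    refine Finset.sum_congr rfl fun q _ => ?_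
    rw [← hs q]
    rfl
  set G : Fin (w + 1) → Fin w → F := fun i j => φ i (g' j) with hG
  set H : F := ∑ j, (∑ i', G i' j) * (∑ i', G i' j) with hH
  have hGsa : ∀ i j, IsSelfAdjoint (G i j) := fun i j =>
    (show IsSelfAdjoint (g' j) from Subtype.ext (hg j).star_eq).map (φ i)
  refine ⟨H, ?_, ?_⟩
  · refine isSelfAdjoint_sum _ fun j _ => ?_
    have hS : IsSelfAdjoint (∑ i', G i' j) := isSelfAdjoint_sum _ fun i _ => hGsa i j
    exact hS.commute_iff hS |>.1 (Commute.refl _)
  set I := TwoSidedIdeal.span (Set.range fun p : Unit × F => comm ((fun _ : Unit => H) p.1) p.2)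
  refine fullSet_oprod (κ := Fin m) (fun i q => φ i (a' q)) (fun i q => φ i (b' q))
    (fun i q => ∑ j, comm (G i j) (φ i (star (s' q))) * comm (G i j) (φ i (s' q))) _ ?_ ?_ ?_
  · intro i
    have := congrArg (φ i) hrel
    simpa [comm, hG] using this
  · intro i j hij p q
    refine Commute.sum_right _ _ _ fun k _ => ?_
    exact (commute_comm (hc i j hij.ne _ _) (hc i j hij.ne _ _)).mul_right
      (commute_comm (hc i j hij.ne _ _) (hc i j hij.ne _ _))
  · intro J
    refine gram_mem I (fun i j => comm (G i j) (φ i (star (s' (J i)))))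
      (fun i j => comm (G i j) (φ i (s' (J i)))) ?_ ?_ ?_ ?_
    all_goals intro i l hil
    iterate 3
      intro j k
      exact commute_comm
        (commute_comm (hc i l hil _ _).symm (hc i l hil _ _).symm).symm
        (commute_comm (hc i l hil _ _).symm (hc i l hil _ _).symm).symm
    have key := double_comm G hil (φ i (star (s' (J i)))) (φ l (s' (J l)))
      (fun i' hi' j => hc i' i hi' _ _) (fun i' hi' j => hc i' l hi' _ _)
      (hc i l hil _ _) (fun j => hc i l hil _ _)
    have h2 : IsUnit (2 : F) := by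
      have := (IsUnit.mk0 (2 : ℂ) two_ne_zero).map (algebraMap ℂ F)
      rwa [map_ofNat] at this
    obtain ⟨u, hu⟩ := h2
    have hin : comm H (φ i (star (s' (J i)))) ∈ I := TwoSidedIdeal.subset_span
      (s := Set.range fun p : Unit × F => comm ((fun _ : Unit => H) p.1) p.2)
      (Set.mem_range_self ((), φ i (star (s' (J i)))))
    have hmem : comm (comm H (φ i (star (s' (J i))))) (φ l (s' (J l))) ∈ I := comm_mem _ hin _
    rw [hH, key, ← hu] at hmem
    have := TwoSidedIdeal.mul_mem_left _ (↑u⁻¹ : F) _ hmem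
    rwa [← mul_assoc, Units.inv_mul, one_mul] at this

end Gram

end VAgent.P101
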