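import Mathlib

/-!
# P101: the dimension drop algebras and the two properties compared
-/

namespace Vale.Agent.P101

open scoped ComplexOrder CStarAlgebra Topology Kronecker

noncomputable section

/-- Matrices as elements of the C⋆-algebra `CStarMatrix`. -/
abbrev toC (N : Type) [Fintype N] [DecidableEq N] : Matrix N N ℂ ≃⋆ₐ[ℂ] CStarMatrix N N ℂ :=
  CStarMatrix.ofMatrixStarAlgEquiv

/-- `C([0,1], M_n ⊗ M_(n+1))`. -/
abbrev DDSpace (n : ℕ) : Type :=
  C(unitInterval, CStarMatrix (Fin n × Fin (n + 1)) (Fin n × Fin (n + 1)) ℂ)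

/-- `f 0 ∈ M_n ⊗ 1` and `f 1 ∈ 1 ⊗ M_(n+1)`. -/
def IsDimDrop (n : ℕ) (f : DDSpace n) : Prop :=
  (∃ a : Matrix (Fin n) (Fin n) ℂ,
    f 0 = toC _ (a ⊗ₖ (1 : Matrix (Fin (n+1)) (Fin (n+1)) ℂ))) ∧
  (∃ b : Matrix (Fin (n+1)) (Fin (n+1)) ℂ,
    f 1 = toC _ ((1 : Matrix (Fin n) (Fin n) ℂ) ⊗ₖ b))

variable {n : ℕ}

theorem IsDimDrop.mul {f g : DDSpace n} (hf : IsDimDrop n f) (hg : IsDimDrop n g) :
    IsDimDrop n (f * g) := by
  obtain ⟨⟨a, ha⟩, b, hb⟩ := hf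
  obtain ⟨⟨a', ha'⟩, b', hb'⟩ := hg
  exact ⟨⟨a * a', by rw [ContinuousMap.mul_apply, ha, ha', ← map_mul,
      ← Matrix.mul_kronecker_mul, one_mul]⟩,
    b * b', by rw [ContinuousMap.mul_apply, hb, hb', ← map_mul,
      ← Matrix.mul_kronecker_mul, one_mul]⟩

theorem IsDimDrop.add {f g : DDSpace n} (hf : IsDimDrop n f) (hg : IsDimDrop n g) :
    IsDimDrop n (f + g) := by
  obtain ⟨⟨a, ha⟩, b, hb⟩ := hf
  obtain ⟨⟨a', ha'⟩, b', hb'⟩ := hg
  exact ⟨⟨a + a', by rw [ContinuousMap.add_apply, ha, ha', ← map_add,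
      ← Matrix.add_kronecker]⟩,
    b + b', by rw [ContinuousMap.add_apply, hb, hb', ← map_add, ← Matrix.kronecker_add]⟩

theorem IsDimDrop.scalar (r : ℂ) : IsDimDrop n (r • (1 : DDSpace n)) := by
  exact ⟨⟨r • 1, by rw [Matrix.smul_kronecker, Matrix.one_kronecker_one, map_smul,
      map_one (toC _)]; rfl⟩,
    r • 1, by rw [Matrix.kronecker_smul, Matrix.one_kronecker_one, map_smul,
      map_one (toC _)]; rfl⟩

theorem IsDimDrop.one : IsDimDrop n (1 : DDSpace n) := by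
  simpa only [one_smul] using IsDimDrop.scalar (n := n) 1

theorem IsDimDrop.zero : IsDimDrop n (0 : DDSpace n) := by
  simpa only [zero_smul] using IsDimDrop.scalar (n := n) 0

theorem IsDimDrop.conj {f : DDSpace n} (hf : IsDimDrop n f) : IsDimDrop n (star f) := by
  obtain ⟨⟨a, ha⟩, b, hb⟩ := hf
  exact ⟨⟨a.conjTranspose, by
      rw [ContinuousMap.star_apply, ha, ← map_star, Matrix.star_eq_conjTranspose,
        Matrix.conjTranspose_kronecker, Matrix.conjTranspose_one]⟩,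
    b.conjTranspose, by
      rw [ContinuousMap.star_apply, hb, ← map_star, Matrix.star_eq_conjTranspose,
        Matrix.conjTranspose_kronecker, Matrix.conjTranspose_one]⟩

/-- Prime dimension drop algebra `Z_{n,n+1}`: paths `f` in `M_n ⊗ M_(n+1)` with
`f 0 ∈ M_n ⊗ 1` and `f 1 ∈ 1 ⊗ M_(n+1)`. -/
def DimDrop (n : ℕ) : StarSubalgebra ℂ (DDSpace n) where
  carrier := {f | IsDimDrop n f}
  mul_mem' := IsDimDrop.mul
  one_mem' := IsDimDrop.one
  add_mem' := IsDimDrop.add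
  zero_mem' := IsDimDrop.zero
  algebraMap_mem' r := by rw [Algebra.algebraMap_eq_smul_one]; exact IsDimDrop.scalar r
  star_mem' := IsDimDrop.conj

/-- There are no characters: every *-homomorphism to `ℂ` is zero. -/
def NoCharacters (B : Type*) [CStarAlgebra B] : Prop :=
  ∀ χ : B →⋆ₙₐ[ℂ] ℂ, χ = 0

/-- Every `Z_{n,n+1}`, `n ≥ 2`, maps unitally into `B`. -/
def DimDropsMapInto (B : Type*) [CStarAlgebra B] : Prop :=
  ∀ n : ℕ, 2 ≤ n → Nonempty (DimDrop n →⋆ₐ[ℂ] B)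

end

end Vale.Agent.P101
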