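import Mathlib

/-!
# P101: from relations to the concrete dimension drop algebra

A matrix-unit-like family `phi` (order zero map on `M_n`) together with `v` such that
`v* v = 1 - phi(1)` and `phi(e_00) v = v` induces a unital *-homomorphism from
`{f : [0,1] → M_n ⊗ M_(n+1) | f 0 ∈ M_n ⊗ 1, f 1 ∈ 1 ⊗ M_(n+1)}`.

No quotients or representations are used: the homomorphism is the graph of a closed *-subalgebra
`graph` of `C([0,1], M_N) × F`, whose first projection is injective (hence isometric) and has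
dense range in the (twisted) dimension drop algebra.
-/

namespace Vale.Agent.P101

open scoped ComplexOrder CStarAlgebra Topology

section

/-- The relations of Rørdam and Winter for `Z_{n,n+1}`. -/
structure DDRel (n : ℕ) [NeZero n] (F : Type*) [CStarAlgebra F] [PartialOrder F]
    [StarOrderedRing F] where
  φ : Fin n → Fin n → F
  φ_star : ∀ i j, star (φ i j) = φ j i
  φ_mul : ∀ i j k l, φ i j * φ k l = if j = k then φ i l * ∑ m, φ m m else 0
  φ_one_nonneg : 0 ≤ ∑ m, φ m m
  v : F
  v_star_mul : star v * v = 1 - ∑ m, φ m m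
  φ_mul_v : φ 0 0 * v = v

/-- Index set of the rows of `M_n ⊗ M_(n+1)`. -/
abbrev DDIx (n : ℕ) : Type := Fin n × Option (Fin n)

/-- `C([0,1], M_n ⊗ M_(n+1))`. -/
abbrev DDPath (N : Type) [Fintype N] [DecidableEq N] : Type :=
  C(unitInterval, CStarMatrix N N ℂ)

end

set_option linter.unusedSectionVars false

namespace DDRel

variable {n : ℕ} [NeZero n] {F : Type*} [CStarAlgebra F] [PartialOrder F] [StarOrderedRing F]
  (R : DDRel n F)

theorem eq_zero_of_star_mul {y : F} (h : star y * y = 0) : y = 0 :=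
  CStarRing.star_mul_self_eq_zero_iff y |>.1 h

def one' : F := ∑ m, R.φ m m

def d : F := 1 - R.one'

theorem φ_mul' (i j k l) : R.φ i j * R.φ k l = if j = k then R.φ i l * R.one' else 0 :=
  R.φ_mul i j k l

theorem one'_comm (i j) : Commute R.one' (R.φ i j) := by
  unfold Commute SemiconjBy
  simp only [one', Finset.sum_mul, Finset.mul_sum]
  rw [Finset.sum_eq_single i (fun b _ hb => by rw [R.φ_mul', if_neg hb]) (by simp),
    Finset.sum_eq_single j (fun b _ hb => by rw [R.φ_mul', if_neg (Ne.symm hb)]) (by simp),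
    R.φ_mul', R.φ_mul', if_pos rfl, if_pos rfl]

theorem one'_sa : star R.one' = R.one' := by simp [one', star_sum, R.φ_star]

theorem d_sa : star R.d = R.d := by simp [d, R.one'_sa]

theorem d_eq : star R.v * R.v = R.d := R.v_star_mul

theorem d_nonneg : 0 ≤ R.d := by rw [← R.d_eq]; exact star_mul_self_nonneg _

theorem d_le_one : R.d ≤ 1 := sub_le_self _ R.φ_one_nonneg

theorem d_comm (i j) : Commute R.d (R.φ i j) := (Commute.one_left _).sub_left (R.one'_comm i j)

theorem φ00_v : R.φ 0 0 * R.v = R.v := R.φ_mul_v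

theorem φ_v (i j) : R.φ i j * R.v = if j = 0 then R.φ i 0 * R.one' * R.v else 0 := by
  conv_lhs => rw [← R.φ00_v, ← mul_assoc, R.φ_mul']
  split_ifs <;> simp

theorem one'_v : R.one' * R.v = R.v := by
  have h : R.one' * R.φ 0 0 = R.φ 0 0 * R.φ 0 0 := by
    rw [R.φ_mul', if_pos rfl]; exact (R.one'_comm 0 0).eq
  conv_lhs => rw [← R.φ00_v, ← mul_assoc, h, mul_assoc, R.φ00_v, R.φ00_v]

theorem φ_v' (i j) : R.φ i j * R.v = if j = 0 then R.φ i 0 * R.v else 0 := by
  rw [R.φ_v]
  split_ifs <;> simp [mul_assoc, R.one'_v]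

theorem d_v : R.d * R.v = 0 := by simp [d, sub_mul, R.one'_v]

theorem v_one' : star R.v * R.one' = star R.v := by
  simpa [R.one'_sa] using congrArg star R.one'_v

/-- The square root of `d`. -/
noncomputable def q : F := CFC.sqrt R.d

theorem q_q : R.q * R.q = R.d := CFC.sqrt_mul_sqrt_self _ R.d_nonneg

theorem q_sa : star R.q = R.q := (IsSelfAdjoint.of_nonneg (CFC.sqrt_nonneg _)).star_eq

theorem q_comm {y : F} (h : Commute R.d y) : Commute R.q y := by
  unfold q CFC.sqrt; exact (h.cfcₙ_nnreal NNReal.sqrt)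

theorem q_v : R.q * R.v = 0 := eq_zero_of_star_mul <| by
  rw [star_mul, R.q_sa, mul_assoc, ← mul_assoc R.q, R.q_q, R.d_v, mul_zero]

theorem φ_d_v (i j) : R.φ i j * (R.d * R.v) = 0 := by simp [R.d_v]

theorem d_φ_v (i j) : R.d * (R.φ i j * R.v) = 0 := by
  rw [← mul_assoc, (R.d_comm i j).eq, mul_assoc, R.d_v, mul_zero]

theorem q_φ_v (i j) : R.q * (R.φ i j * R.v) = 0 := by
  rw [← mul_assoc, (R.q_comm (R.d_comm i j)).eq, mul_assoc, R.q_v, mul_zero]

theorem v_φ_v (i j) : R.v * (R.φ i j * R.v) = 0 := eq_zero_of_star_mul <| by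
  rw [star_mul, mul_assoc, ← mul_assoc (star R.v), R.d_eq, R.d_φ_v, mul_zero]

/-- The generators of the `M_(n+1)` side. -/
noncomputable def w : Option (Fin n) → F
  | none => R.q
  | some i => R.φ i 0 * R.v

theorem d_w_some (i) : R.d * R.w (some i) = 0 := R.d_φ_v i 0

theorem w_gram (o o') : star (R.w o) * R.w o' = if o = o' then R.d else 0 := by
  cases o with
  | none =>
    cases o' with
    | none => simp [w, R.q_sa, R.q_q]
    | some i => simp [w, R.q_sa, R.q_φ_v]
  | some i =>
    cases o' with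
    | none =>
      have := congrArg star (R.q_φ_v i 0)
      simpa [w, R.q_sa] using this
    | some j =>
      simp only [w, star_mul, R.φ_star, mul_assoc, Option.some.injEq]
      rw [← mul_assoc (R.φ 0 i), R.φ_mul']
      split_ifs
      · rw [mul_assoc (R.φ 0 0), R.one'_v, R.φ00_v, R.d_eq]
      · simp

/-- The central element. -/
noncomputable def h : F := ∑ o, R.w o * star (R.w o)

noncomputable def hnn : F := ∑ i, R.w (some i) * star (R.w (some i))

theorem h_eq : R.h = R.d + R.hnn := by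
  simp [h, hnn, Fintype.sum_option, w, R.q_sa, R.q_q]

theorem h_sa : star R.h = R.h := by simp [h, star_sum]

theorem h_nonneg : 0 ≤ R.h := Finset.sum_nonneg fun o _ => mul_star_self_nonneg _

theorem hnn_sa : star R.hnn = R.hnn := by simp [hnn, star_sum]

theorem one'_w (i) : R.one' * R.w (some i) = R.w (some i) := by
  simp only [w]; rw [← mul_assoc, (R.one'_comm i 0).eq, mul_assoc, R.one'_v]

theorem one'_hnn : R.one' * R.hnn = R.hnn := by
  simp [hnn, Finset.mul_sum, ← mul_assoc, R.one'_w]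

theorem hnn_one' : R.hnn * R.one' = R.hnn := by
  simpa [R.one'_sa, R.hnn_sa] using congrArg star R.one'_hnn

theorem d_hnn : R.d * R.hnn = 0 := by simp [hnn, Finset.mul_sum, ← mul_assoc, R.d_w_some]

theorem hnn_le_one : R.hnn ≤ 1 := by
  have hn : 0 ≤ R.hnn := Finset.sum_nonneg fun o _ => mul_star_self_nonneg _
  have hsq : R.hnn * R.hnn ≤ R.hnn := by
    have e : R.hnn * R.hnn = ∑ i, R.w (some i) * R.d * star (R.w (some i)) := by
      simp only [hnn, Finset.sum_mul]
      refine Finset.sum_congr rfl fun i _ => ?_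
      rw [Finset.mul_sum, Finset.sum_eq_single i]
      · simp only [← mul_assoc]; rw [mul_assoc (R.w (some i)), R.w_gram, if_pos rfl]
      · intro b _ hb
        simp only [← mul_assoc]; rw [mul_assoc (R.w (some i)), R.w_gram, if_neg (by simp [Ne.symm hb])]
        simp
      · simp
    rw [e]
    refine Finset.sum_le_sum fun i _ => ?_
    simpa using star_right_conjugate_le_conjugate R.d_le_one (R.w (some i))
  rw [← CStarAlgebra.norm_le_one_iff_of_nonneg _ hn]
  have h1 : ‖R.hnn * R.hnn‖ ≤ ‖R.hnn‖ := CStarAlgebra.norm_le_norm_of_nonneg_of_le (by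
    simpa [R.hnn_sa] using star_mul_self_nonneg R.hnn) hsq
  have h2 : ‖R.hnn * R.hnn‖ = ‖R.hnn‖ * ‖R.hnn‖ := by
    conv_lhs => enter [1, 1]; rw [← R.hnn_sa]
    exact CStarRing.norm_star_mul_self
  rcases eq_or_lt_of_le (norm_nonneg R.hnn) with h0 | h0
  · linarith
  · nlinarith

theorem h_le_one : R.h ≤ 1 := by
  have hc : Commute R.one' (1 - R.hnn) :=
    (Commute.one_right _).sub_right (R.one'_hnn.trans R.hnn_one'.symm)
  have := hc.mul_nonneg (show 0 ≤ R.one' from R.φ_one_nonneg) (sub_nonneg.2 R.hnn_le_one)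
  rw [mul_sub, mul_one, R.one'_hnn, sub_nonneg] at this
  rw [R.h_eq, d]
  calc _ ≤ 1 - R.one' + R.one' := add_le_add_right this _
    _ = 1 := by abel

theorem φ_hnn (a b) : R.φ a b * R.hnn = R.φ a 0 * (R.v * (star R.v * R.φ 0 b)) := by
  simp only [hnn, Finset.mul_sum, w, star_mul, R.φ_star]
  rw [Finset.sum_eq_single b]
  · simp only [← mul_assoc]
    rw [R.φ_mul', if_pos rfl, mul_assoc (R.φ a 0), R.one'_v]
  · intro i _ hi
    simp only [← mul_assoc]
    rw [R.φ_mul', if_neg (Ne.symm hi)]; simp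
  · simp

theorem hnn_φ (a b) : R.hnn * R.φ a b = R.φ a 0 * (R.v * (star R.v * R.φ 0 b)) := by
  have := congrArg star (R.φ_hnn b a)
  simpa [R.φ_star, R.hnn_sa, mul_assoc] using this

theorem h_comm_φ (a b) : Commute R.h (R.φ a b) := by
  rw [R.h_eq]
  exact (R.d_comm a b).add_left ((R.hnn_φ a b).trans (R.φ_hnn a b).symm)

theorem h_v : R.h * R.v = R.v * R.d := by
  rw [R.h_eq, add_mul, R.d_v, zero_add, hnn, Finset.sum_mul, Finset.sum_eq_single 0]
  · simp only [w, star_mul, R.φ_star, mul_assoc]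
    rw [R.φ00_v, R.d_eq, ← mul_assoc, R.φ00_v]
  · intro i _ hi
    simp only [w, star_mul, R.φ_star, mul_assoc]
    rw [R.φ_v' 0 i, if_neg hi]; simp
  · simp

theorem v_h : R.v * R.h = R.v * R.d := by
  rw [R.h_eq, mul_add, add_eq_left, hnn, Finset.mul_sum]
  refine Finset.sum_eq_zero fun i _ => ?_
  rw [w, ← mul_assoc, R.v_φ_v, zero_mul]

theorem h_comm_v : Commute R.h R.v := R.h_v.trans R.v_h.symm

theorem h_comm_d : Commute R.h R.d := by
  rw [d, one']
  exact (Commute.one_right _).sub_right (Commute.sum_right _ _ _ fun m _ => R.h_comm_φ m m)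

theorem h_comm_w (o) : Commute R.h (R.w o) := by
  cases o with
  | none => exact (R.q_comm R.h_comm_d.symm).symm
  | some i => exact (R.h_comm_φ i 0).mul_right R.h_comm_v

theorem h_w (o) : R.h * R.w o = R.w o * R.d := by
  cases o with
  | none =>
    have e : R.hnn * R.q = 0 := by
      simp only [hnn, Finset.sum_mul, mul_assoc]
      refine Finset.sum_eq_zero fun i _ => ?_
      have := R.w_gram (some i) none
      simp only [reduceCtorEq, if_false] at this
      simp [w] at this ⊢
      simp [mul_assoc, this]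
    simp only [w]
    rw [R.h_eq, add_mul, e, add_zero, ← R.q_q, mul_assoc]
  | some i =>
    simp only [w]
    rw [← mul_assoc, (R.h_comm_φ i 0).eq, mul_assoc, R.h_v, mul_assoc]

theorem one_sub_h_w (o) : (1 - R.h) * R.w o = R.w o * R.one' := by
  rw [sub_mul, one_mul, R.h_w, d, mul_sub, mul_one, sub_sub_cancel]

/-! ### The two order zero maps and the matrix units -/

noncomputable def ψ (o o' : Option (Fin n)) : F := R.w o * star (R.w o')

noncomputable def α (i j : Fin n) : F := R.φ i j * (1 - R.h + R.d)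

noncomputable def z (c : DDIx n) : F :=
  match c with
  | (k, none) => R.w none * R.φ k 0
  | (i, some k) => R.w (some i) * R.φ k 0

/-- The first coordinate of the twisted frame. -/
def D1 : DDIx n → Option (Fin n)
  | (_, none) => none
  | (i, some _) => some i

/-- The second coordinate of the twisted frame. -/
def D2 : DDIx n → Fin n
  | (k, none) => k
  | (_, some k) => k

theorem z_eq (c : DDIx n) : R.z c = R.w (D1 c) * R.φ (D2 c) 0 := by
  rcases c with ⟨i, _ | k⟩ <;> rfl

theorem D_inj {c c' : DDIx n} (h1 : D1 c = D1 c') (h2 : D2 c = D2 c') : c = c' := by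
  rcases c with ⟨i, _ | k⟩ <;> rcases c' with ⟨i', _ | k'⟩ <;> simp_all [D1, D2]

/-- Inverse of `(D1, D2)`. -/
def Dinv : Option (Fin n) → Fin n → DDIx n
  | none, k => (k, none)
  | some i, k => (i, some k)

theorem D1_Dinv (o : Option (Fin n)) (k) : D1 (Dinv o k) = o := by cases o <;> rfl
theorem D2_Dinv (o : Option (Fin n)) (k) : D2 (Dinv o k) = k := by cases o <;> rfl
theorem Dinv_D (c : DDIx n) : Dinv (D1 c) (D2 c) = c := by rcases c with ⟨i, _ | k⟩ <;> rfl

theorem sum_D {M : Type*} [AddCommMonoid M] (f : DDIx n → M) :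
    ∑ c, f c = ∑ o, ∑ k, f (Dinv o k) := by
  rw [← Fintype.sum_prod_type']
  exact Fintype.sum_equiv ⟨fun c => (D1 c, D2 c), fun p => Dinv p.1 p.2, Dinv_D,
    fun p => by simp [D1_Dinv, D2_Dinv]⟩ _ _ fun c => by simp [Dinv_D]

theorem h_comm_ψ (o o') : Commute R.h (R.ψ o o') := by
  refine (R.h_comm_w o).mul_right ?_
  simpa [R.h_sa] using (R.h_comm_w o').star_star

theorem h_comm_α (i j) : Commute R.h (R.α i j) :=
  (R.h_comm_φ i j).mul_right
    ((((Commute.one_right R.h).sub_right (Commute.refl R.h))).add_right R.h_comm_d)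

theorem h_comm_z (c) : Commute R.h (R.z c) := by
  rw [R.z_eq]; exact (R.h_comm_w _).mul_right (R.h_comm_φ _ _)

theorem ψ_star (o o') : star (R.ψ o o') = R.ψ o' o := by simp [ψ]

theorem ψ_mul (a b c e) : R.ψ a b * R.ψ c e = if b = c then R.h * R.ψ a e else 0 := by
  simp only [ψ]
  rw [mul_assoc, ← mul_assoc (star (R.w b)), R.w_gram]
  split_ifs <;> simp [← mul_assoc, R.h_w]

theorem ψ_one : ∑ o, R.ψ o o = R.h := rfl

theorem m_one' : R.one' * (1 - R.h + R.d) = 1 - R.h := by
  rw [mul_add, mul_sub, mul_one, R.h_eq, mul_add, R.one'_hnn]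
  have hd : R.one' * R.d = R.d * R.one' :=
    ((Commute.one_right _).sub_right (Commute.refl R.one')).eq
  rw [d]
  noncomm_ring

theorem φ_comm_m (i j) : Commute (R.φ i j) (1 - R.h + R.d) :=
  ((Commute.one_right _).sub_right (R.h_comm_φ i j).symm).add_right (R.d_comm i j).symm

theorem α_star (i j) : star (R.α i j) = R.α j i := by
  simp [α, R.φ_star, R.h_sa, R.d_sa, (R.φ_comm_m j i).eq]

theorem α_mul (a b c e) : R.α a b * R.α c e = if b = c then (1 - R.h) * R.α a e else 0 := by
  have hc : Commute R.one' (1 - R.h + R.d) :=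
    Commute.sum_left _ _ _ fun m _ => R.φ_comm_m m m
  simp only [α]
  rw [mul_assoc, ← mul_assoc (1 - R.h + R.d), ← (R.φ_comm_m c e).eq, mul_assoc (R.φ c e),
    ← mul_assoc (R.φ a b), R.φ_mul']
  split_ifs
  · rw [mul_assoc (R.φ a e), ← mul_assoc R.one', R.m_one', ← mul_assoc, ← mul_assoc]
    congr 1
    exact ((Commute.one_right _).sub_right (R.h_comm_φ a e).symm).eq
  · simp

theorem α_one : ∑ i, R.α i i = 1 - R.h := by
  simp only [α, ← Finset.sum_mul]; exact R.m_one'

theorem z_gram (a c) : star (R.z a) * R.z c =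
    if a = c then R.φ 0 0 * R.one' * R.d else 0 := by
  rw [R.z_eq, R.z_eq, star_mul, R.φ_star, mul_assoc, ← mul_assoc (star _), R.w_gram]
  by_cases h1 : D1 a = D1 c
  · rw [if_pos h1, (R.d_comm _ _).eq, ← mul_assoc, R.φ_mul']
    by_cases h2 : D2 a = D2 c
    · rw [if_pos h2, if_pos (D_inj h1 h2)]
    · rw [if_neg h2, if_neg (fun e : a = c => h2 (e ▸ rfl)), zero_mul]
  · rw [if_neg h1, if_neg (fun e : a = c => h1 (e ▸ rfl))]; simp

noncomputable def η : F := R.h * ((1 - R.h) * (1 - R.h))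

theorem η_z (c) : R.η * R.z c = R.z c * (R.φ 0 0 * R.one' * R.d) := by
  have h1 : ∀ y, (1 - R.h) * (R.w (D1 c) * y) = R.w (D1 c) * (R.one' * y) := fun y => by
    rw [← mul_assoc, R.one_sub_h_w, mul_assoc]
  have h2 : ∀ y, R.h * (R.w (D1 c) * y) = R.w (D1 c) * (R.d * y) := fun y => by
    rw [← mul_assoc, R.h_w, mul_assoc]
  rw [R.z_eq, η, mul_assoc, mul_assoc, h1, h1, h2, mul_assoc]
  congr 1
  rw [← mul_assoc (R.φ (D2 c) 0), ← mul_assoc (R.φ (D2 c) 0), R.φ_mul', if_pos rfl]
  have hd : Commute R.d R.one' := (Commute.one_left _).sub_left (Commute.refl _)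
  rw [(R.one'_comm (D2 c) 0).eq, ← mul_assoc R.one', (R.one'_comm (D2 c) 0).eq, ← mul_assoc R.d,
    ← mul_assoc R.d, (R.d_comm (D2 c) 0).eq]
  rw [mul_assoc (R.φ (D2 c) 0), hd.eq, ← mul_assoc (R.φ (D2 c) 0), mul_assoc _ R.d, hd.eq,
    ← mul_assoc]

theorem φ_col (o : Option (Fin n)) :
    ∑ k, R.φ k 0 * R.φ 0 k = R.one' * R.one' := by
  simp only [R.φ_mul', if_true, ← Finset.sum_mul]; rfl

theorem z_sum : ∑ c, R.z c * star (R.z c) = R.η := by
  rw [sum_D]
  have e : ∀ o, ∑ k, R.z (Dinv o k) * star (R.z (Dinv o k))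
      = (1 - R.h) * ((1 - R.h) * R.ψ o o) := fun o => by
    simp only [R.z_eq, D1_Dinv, D2_Dinv, star_mul, R.φ_star, mul_assoc]
    rw [← Finset.mul_sum]
    simp only [← mul_assoc (R.φ _ 0), ← Finset.sum_mul]
    rw [R.φ_col o, ψ, mul_assoc, ← mul_assoc (R.w o), ← R.one_sub_h_w, mul_assoc,
      ← mul_assoc (R.w o), ← R.one_sub_h_w, mul_assoc]
  simp only [e, ← Finset.mul_sum, R.ψ_one, η]
  have c1 : Commute (1 - R.h) R.h := (Commute.one_left _).sub_left (Commute.refl _)
  rw [← mul_assoc, ((c1.mul_left c1)).eq]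

theorem ψ_z (o o' c) : R.ψ o o' * R.z c =
    if o' = D1 c then R.h * R.z (Dinv o (D2 c)) else 0 := by
  rw [ψ, R.z_eq, mul_assoc, ← mul_assoc (star _), R.w_gram]
  split_ifs
  · rw [R.z_eq, D1_Dinv, D2_Dinv, ← mul_assoc, ← R.h_w, mul_assoc]
  · simp

theorem α_z (i j k o) : R.α i j * R.z (k, o) =
    if j = k then (1 - R.h) * R.z (i, o) else 0 := by
  have hw : ∀ o, (1 - R.h + R.d) * R.w o = (1 - R.h) * R.w o + R.d * R.w o := fun o => add_mul _ _ _
  simp only [α]
  rw [R.z_eq, R.z_eq, mul_assoc, ← mul_assoc (1 - R.h + R.d), hw]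
  cases o with
  | none =>
    have h0 := R.one_sub_h_w none
    simp only [w] at h0
    simp only [D1, D2, w, h0]
    have e : R.q * R.one' + R.d * R.q = R.q := by
      rw [((R.q_comm (Commute.refl R.d)).symm).eq, ← mul_add, d, add_sub_cancel, mul_one]
    rw [e, ← mul_assoc (R.φ i j), ← (R.q_comm (R.d_comm i j)).eq, mul_assoc, R.φ_mul',
      ← mul_assoc (1 - R.h)]
    split_ifs
    · have := R.one_sub_h_w none
      simp only [w] at this
      rw [this, mul_assoc, ← (R.one'_comm i 0).eq]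
    · simp
  | some m =>
    simp only [D1, D2, R.d_w_some, add_zero, R.one_sub_h_w]
    rw [mul_assoc (R.w (some k)), ← mul_assoc (R.φ i j)]
    simp only [w]
    rw [← mul_assoc (R.φ i j), R.φ_mul', ← mul_assoc (1 - R.h)]
    split_ifs
    · have := R.one_sub_h_w (some i)
      simp only [w] at this
      rw [this, mul_assoc (R.φ i 0) R.one', R.one'_v]
      simp [mul_assoc]
    · simp

/-- The matrix units of the open part, scaled by `η`. -/
noncomputable def x (a c : DDIx n) : F := R.z a * star (R.z c)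

theorem x_star (a c) : star (R.x a c) = R.x c a := by simp [x]

theorem h_comm_x (a c) : Commute R.h (R.x a c) := by
  refine (R.h_comm_z a).mul_right ?_
  simpa [R.h_sa] using (R.h_comm_z c).star_star

theorem x_mul (a b c e) : R.x a b * R.x c e = if b = c then R.η * R.x a e else 0 := by
  simp only [x]
  rw [mul_assoc, ← mul_assoc (star (R.z b)), R.z_gram]
  split_ifs
  · rw [← mul_assoc, ← R.η_z, mul_assoc]
  · simp

theorem x_one : ∑ c, R.x c c = R.η := R.z_sum

/-- Elements which kill everything killed by `h (1 - h)`. -/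
def J : Submodule ℂ F where
  carrier := {y | ∀ q, R.h * ((1 - R.h) * q) = 0 → y * q = 0}
  add_mem' ha hb q hq := by simp [add_mul, ha q hq, hb q hq]
  zero_mem' := by simp
  smul_mem' c y hy q hq := by simp [hy q hq]

theorem mem_J {y : F} : y ∈ R.J ↔ ∀ q, R.h * ((1 - R.h) * q) = 0 → y * q = 0 := Iff.rfl

theorem J_mul_left (u : F) {y : F} (hy : y ∈ R.J) : u * y ∈ R.J := fun q hq => by
  rw [mul_assoc, hy q hq, mul_zero]

theorem J_mul_right {y u : F} (hy : y ∈ R.J) (hu : Commute R.h u) : y * u ∈ R.J := fun q hq => by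
  rw [mul_assoc]; refine hy _ ?_
  rw [← mul_assoc (1 - R.h), ((Commute.one_left u).sub_left hu).eq, mul_assoc u, ← mul_assoc R.h,
    hu.eq, mul_assoc, hq, mul_zero]

theorem J_closed : IsClosed (R.J : Set F) := by
  have : (R.J : Set F) = ⋂ q, {y | R.h * ((1 - R.h) * q) = 0 → y * q = 0} := by
    ext y; simp [mem_J]
  rw [this]
  refine isClosed_iInter fun q => ?_
  by_cases hq : R.h * ((1 - R.h) * q) = 0
  · simpa [hq] using isClosed_eq (continuous_id.mul continuous_const) continuous_const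
  · simp [hq]

theorem η_mem_J : R.η ∈ R.J := fun q hq => by
  have c1 : Commute R.h (1 - R.h) := (Commute.one_right _).sub_right (Commute.refl _)
  rw [η, ← mul_assoc, c1.eq, mul_assoc, mul_assoc, ← mul_assoc R.h, mul_assoc R.h, hq, mul_zero]

theorem eq_zero_of_mem_J {y : F} (hy : y ∈ R.J) (h0 : y * R.η = 0) : y = 0 := by
  have c1 : Commute R.h (1 - R.h) := (Commute.one_right _).sub_right (Commute.refl _)
  have hp : (y * (R.h * (1 - R.h))) * star (y * (R.h * (1 - R.h))) = 0 := by
    have e : R.η * (R.h * star y) = (R.h * (1 - R.h)) * ((R.h * (1 - R.h)) * star y) := by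
      simp only [η, mul_assoc]; congr 1; congr 1
      rw [← mul_assoc, ← c1.eq, mul_assoc]
    calc _ = y * (R.η * (R.h * star y)) := by
            rw [e]; simp [R.h_sa, ← c1.eq, mul_assoc]
      _ = 0 := by rw [← mul_assoc, h0, zero_mul]
  have hp' := CStarRing.mul_star_self_eq_zero_iff _ |>.1 hp
  refine CStarRing.mul_star_self_eq_zero_iff _ |>.1 (hy _ ?_)
  have := congrArg star hp'
  simpa [R.h_sa, ← c1.eq, mul_assoc] using this

theorem x_mem_J (a c) : R.x a c ∈ R.J := fun q hq => by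
  suffices star (R.z c) * q = 0 by rw [x, mul_assoc, this, mul_zero]
  refine eq_zero_of_star_mul (le_antisymm ?_ (star_mul_self_nonneg _))
  calc star (star (R.z c) * q) * (star (R.z c) * q)
      = star q * (R.z c * star (R.z c)) * q := by simp [mul_assoc]
    _ ≤ star q * R.η * q := by
        refine star_left_conjugate_le_conjugate ?_ q
        rw [← R.z_sum]
        exact Finset.single_le_sum (fun i _ => mul_star_self_nonneg (R.z i)) (Finset.mem_univ c)
    _ = 0 := by rw [mul_assoc, R.η_mem_J q hq, mul_zero]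

theorem αψ_mem_J (i j o o') : R.α i j * R.ψ o o' ∈ R.J := fun q hq => by
  have hψ : R.ψ o o' * ((1 - R.h) * q) = 0 := eq_zero_of_star_mul <| by
    rw [star_mul, R.ψ_star, mul_assoc, ← mul_assoc (R.ψ o' o), R.ψ_mul, if_pos rfl,
      (R.h_comm_ψ o' o').eq, mul_assoc, hq, mul_zero, mul_zero]
  refine eq_zero_of_star_mul ?_
  simp only [star_mul, mul_assoc]
  rw [R.α_star, ← mul_assoc (R.α j i), R.α_mul, if_pos rfl]
  have c1 : Commute (1 - R.h) (R.ψ o o') := (Commute.one_left _).sub_left (R.h_comm_ψ o o')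
  have c2 : Commute (1 - R.h) (R.α j j) := (Commute.one_left _).sub_left (R.h_comm_α j j)
  rw [c2.eq, mul_assoc, ← mul_assoc (1 - R.h), c1.eq, mul_assoc, hψ]
  simp

theorem ψα_mem_J (i j o o') : R.ψ o o' * R.α i j ∈ R.J := fun q hq => by
  have hα : R.α i j * (R.h * q) = 0 := eq_zero_of_star_mul <| by
    rw [star_mul, R.α_star, mul_assoc, ← mul_assoc (R.α j i), R.α_mul, if_pos rfl]
    have c2 : Commute (1 - R.h) (R.α j j) := (Commute.one_left _).sub_left (R.h_comm_α j j)
    rw [c2.eq, mul_assoc, ← mul_assoc (1 - R.h),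
      ((Commute.one_left _).sub_left (Commute.refl R.h)).eq, mul_assoc, hq]
    simp
  refine eq_zero_of_star_mul ?_
  simp only [star_mul, mul_assoc]
  rw [R.ψ_star, ← mul_assoc (R.ψ o' o), R.ψ_mul, if_pos rfl, (R.h_comm_ψ o' o').eq, mul_assoc,
    ← mul_assoc R.h, (R.h_comm_α i j).eq, mul_assoc, hα]
  simp

end DDRel

end Vale.Agent.P101
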