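import Vale.Agent.P101.Join
import Vale.Agent.P101.Model

/-!
# P101: the exact absorption on a tree of commuting copies

Input: on every node of an `N`-ary tree of depth `m` (`n ^ m ≥ N`) a copy of an order zero map
with elements `r_t` such that `∑ r_t* z r_t = 1`, where `z = y_0* y_0`, `y_i = f(A 1) A_{i0}` and
`f` lives on `[3a, ∞)`; copies at different nodes commute. Output: the relations `DDRel n F`.
-/

namespace Vale.Agent.P101

noncomputable section

/-- One copy. -/
structure Coord (n N : ℕ) (F : Type*) [CStarAlgebra F] where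
  A : OZ n F
  r : Fin N → F

namespace Coord

variable {n N : ℕ} [NeZero n] {F : Type*} [CStarAlgebra F]

/-- The slot `y_i`. -/
def y (f : C(ℝ, ℂ)) (c : Coord n N F) (i : Fin n) : F := c.A.ev f * c.A.x i 0

/-- The positive element `z`. -/
def z (f : C(ℝ, ℂ)) (c : Coord n N F) : F := star (c.y f 0) * c.y f 0

/-- The cut-off `q`. -/
def q (a : ℝ) (c : Coord n N F) : F := c.A.ev (OZ.qC a)

/-- Two copies commute. -/
structure Comm (c c' : Coord n N F) : Prop where
  xx : ∀ i j k l, Commute (c.A.x i j) (c'.A.x k l)
  xr : ∀ i j t, Commute (c.A.x i j) (c'.r t)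
  rx : ∀ t k l, Commute (c.r t) (c'.A.x k l)
  rr : ∀ t t', Commute (c.r t) (c'.r t')
  rs : ∀ t t', Commute (c.r t) (star (c'.r t'))

/-- `x` commutes with the copy and its adjoints. -/
def CommE (x : F) (c : Coord n N F) : Prop :=
  (∀ i j, Commute x (c.A.x i j)) ∧ (∀ t, Commute x (c.r t)) ∧ ∀ t, Commute x (star (c.r t))

variable {x : F} {c : Coord n N F}

theorem CommE.ev (h : CommE x c) (g : C(ℝ, ℂ)) : Commute x (c.A.ev g) :=
  (c.A.ev_comm (c.A.one'_comm_of fun i => (h.1 i i).symm) g).symm

theorem CommE.y (h : CommE x c) (f : C(ℝ, ℂ)) (i : Fin n) : Commute x (c.y f i) :=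
  (h.ev f).mul_right (h.1 i 0)

theorem CommE.q (h : CommE x c) (a : ℝ) : Commute x (c.q a) := h.ev _

theorem CommE.star (h : CommE x c) : CommE (star x) c := by
  refine ⟨fun i j => ?_, fun t => ?_, fun t => ?_⟩
  · simpa [c.A.x_star] using (h.1 j i).star_star
  · simpa using (h.2.2 t).star_star
  · simpa using (h.2.1 t).star_star

theorem Comm.commE_x {c c' : Coord n N F} (h : Comm c c') (i j) : CommE (c.A.x i j) c' :=
  ⟨h.xx i j, h.xr i j, fun t => by simpa [c.A.x_star] using (h.xr j i t).star_star⟩

theorem Comm.commE_r {c c' : Coord n N F} (h : Comm c c') (t) : CommE (c.r t) c' :=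
  ⟨h.rx t, h.rr t, h.rs t⟩

variable {f : C(ℝ, ℂ)} {a : ℝ}

theorem y_gram (hf : star f = f) (c : Coord n N F) (i j : Fin n) :
    star (c.y f i) * c.y f j = if i = j then c.z f else 0 := by
  have e : ∀ k l, star (c.y f k) * c.y f l = c.A.ev (f * f) * (c.A.x 0 k * c.A.x l 0) := fun k l => by
    rw [y, y, star_mul, c.A.x_star, ← map_star, hf, map_mul, mul_assoc, ← mul_assoc (c.A.ev f),
      ← mul_assoc (c.A.x 0 k), ← ((c.A.ev_comm_x f 0 k).mul_left (c.A.ev_comm_x f 0 k)).eq,
      mul_assoc]
  rw [z, e, e, c.A.x_mul', c.A.x_mul', if_pos rfl]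
  split_ifs <;> simp

theorem y_q (ha : 0 < a) (hf : star f = f) (hf0 : ∀ s, s < 3 * a → f s = 0) (c : Coord n N F)
    (i : Fin n) : star (c.y f i) * c.q a = 0 := by
  have e : f * OZ.qC a = 0 := by
    ext s
    rcases lt_or_ge s (3 * a) with h | h
    · simp [hf0 s h]
    · simp [OZ.qC, OZ.qR_eq_zero ha h]
  rw [y, q, star_mul, ← map_star, hf, mul_assoc, ← map_mul, e, map_zero, mul_zero]

theorem q_sa (c : Coord n N F) : star (c.q a) = c.q a := by
  rw [q, ← map_star]; congr 1; ext s; simp [OZ.qC]

end Coord

section tree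

variable {n N : ℕ} [NeZero n] {F : Type*} [CStarAlgebra F] (C : List (Fin N) → Coord n N F)
  (f : C(ℝ, ℂ)) (a : ℝ) (b : ℕ → Fin N → Fin n)

/-- The nodes below `p`. -/
def nodes : ℕ → List (Fin N) → List (List (Fin N))
  | 0, p => [p]
  | k + 1, p => p :: (List.finRange N).flatMap fun u => nodes k (p ++ [u])

/-- The product of the cut-offs below `p`. -/
def treeQ (k : ℕ) (p : List (Fin N)) : F := ((nodes k p).map fun p => (C p).q a).prod

/-- The product of the cut-offs of the siblings. -/
def sibQ (k : ℕ) (p : List (Fin N)) (u : Fin N) : F :=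
  (((List.finRange N).erase u).map fun u' => treeQ C a k (p ++ [u'])).prod

/-- The absorbing elements. -/
def treeS : ℕ → List (Fin N) → Fin N → F
  | 0, p, t => (C p).y f (b p.length t) * (C p).r t * (C p).q a
  | k + 1, p, t => ∑ u, (C p).y f (b p.length t) * (C p).r u * (C p).q a *
      (treeS k (p ++ [u]) t * sibQ C a k p u)

theorem mem_nodes {k : ℕ} {p : List (Fin N)} {r : List (Fin N)} :
    r ∈ nodes k p → ∃ e, r = p ++ e ∧ e.length ≤ k := by
  induction k generalizing p with
  | zero => intro h; exact ⟨[], by simpa [nodes] using h, le_rfl⟩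
  | succ k ih =>
    intro h
    rcases List.mem_cons.1 h with h | h
    · exact ⟨[], by simpa using h, Nat.zero_le _⟩
    · obtain ⟨u, -, hu⟩ := List.mem_flatMap.1 h
      obtain ⟨e, rfl, he⟩ := ih hu
      exact ⟨u :: e, by simp, by simpa using he⟩

theorem treeQ_succ (k : ℕ) (p : List (Fin N)) :
    treeQ C a (k + 1) p =
      (C p).q a * ((List.finRange N).map fun u => treeQ C a k (p ++ [u])).prod := by
  simp only [treeQ, nodes, List.map_cons, List.prod_cons, List.flatMap_def, List.map_flatten,
    List.prod_flatten, List.map_map]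
  rfl

theorem commute_treeQ {x : F} {k : ℕ} {p : List (Fin N)}
    (h : ∀ r ∈ nodes k p, Coord.CommE x (C r)) : Commute x (treeQ C a k p) := by
  refine Commute.list_prod_right _ _ fun z hz => ?_
  obtain ⟨r, hr, rfl⟩ := List.mem_map.1 hz
  exact (h r hr).q a

theorem child_mem {k : ℕ} {p : List (Fin N)} (u : Fin N) {r : List (Fin N)}
    (hr : r ∈ nodes k (p ++ [u])) : r ∈ nodes (k + 1) p :=
  List.mem_cons.2 (Or.inr (List.mem_flatMap.2 ⟨u, List.mem_finRange u, hr⟩))

theorem commute_sibQ {x : F} {k : ℕ} {p : List (Fin N)} {u : Fin N}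
    (h : ∀ u', u' ≠ u → ∀ r ∈ nodes k (p ++ [u']), Coord.CommE x (C r)) :
    Commute x (sibQ C a k p u) := by
  refine Commute.list_prod_right _ _ fun z hz => ?_
  obtain ⟨u', hu', rfl⟩ := List.mem_map.1 hz
  exact commute_treeQ C a (h u' ((List.nodup_finRange N).mem_erase_iff.1 hu').1)

theorem commute_treeS {x : F} {k : ℕ} {p : List (Fin N)}
    (h : ∀ r ∈ nodes k p, Coord.CommE x (C r)) (t : Fin N) :
    Commute x (treeS C f a b k p t) := by
  induction k generalizing p with
  | zero =>
    have h0 := h p (by simp [nodes])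
    exact ((h0.y f _).mul_right (h0.2.1 t)).mul_right (h0.q a)
  | succ k ih =>
    have h0 := h p (List.mem_cons_self ..)
    refine Commute.sum_right _ _ _ fun u _ => ?_
    exact (((h0.y f _).mul_right (h0.2.1 u)).mul_right (h0.q a)).mul_right
      ((ih fun r hr => h r (child_mem u hr)).mul_right
        (commute_sibQ C a fun u' _ r hr => h r (child_mem u' hr)))

variable {C f a b} {m : ℕ}
  (hC : ∀ p p', p.length ≤ m → p'.length ≤ m → p ≠ p' → Coord.Comm (C p) (C p'))

/-- `x` commutes with everything below `p` if it is built from nodes not below `p`. -/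
theorem commE_of_out {k : ℕ} {p r' : List (Fin N)} (hp : p.length + k ≤ m) (hr' : r'.length ≤ m)
    (hne : ∀ r ∈ nodes k p, r ≠ r') (hC : ∀ p p', p.length ≤ m → p'.length ≤ m → p ≠ p' →
      Coord.Comm (C p) (C p')) :
    ∀ r ∈ nodes k p, (∀ i j, Coord.CommE ((C r').A.x i j) (C r)) ∧
      (∀ t, Coord.CommE ((C r').r t) (C r)) := by
  intro r hr
  obtain ⟨e, rfl, he⟩ := mem_nodes hr
  have := hC r' (p ++ e) hr' (by simp; omega) (hne _ hr).symm
  exact ⟨this.commE_x, this.commE_r⟩

theorem CommE_treeQ {k : ℕ} {p r : List (Fin N)} (hr : r.length ≤ m) (hp : p.length + k ≤ m)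
    (hne : r ∉ nodes k p) (hC : ∀ p p', p.length ≤ m → p'.length ≤ m → p ≠ p' →
      Coord.Comm (C p) (C p')) :
    Coord.CommE (treeQ C a k p) (C r) := by
  have h := commE_of_out (k := k) hp hr (fun s hs e => hne (e ▸ hs)) hC
  refine ⟨fun i j => (commute_treeQ C a fun s hs => (h s hs).1 i j).symm,
    fun t => (commute_treeQ C a fun s hs => (h s hs).2 t).symm,
    fun t => (commute_treeQ C a fun s hs => ((h s hs).2 t).star).symm⟩

theorem CommE_treeS {k : ℕ} {p r : List (Fin N)} (hr : r.length ≤ m) (hp : p.length + k ≤ m)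
    (hne : r ∉ nodes k p) (hC : ∀ p p', p.length ≤ m → p'.length ≤ m → p ≠ p' →
      Coord.Comm (C p) (C p')) (t : Fin N) :
    Coord.CommE (treeS C f a b k p t) (C r) := by
  have h := commE_of_out (k := k) hp hr (fun s hs e => hne (e ▸ hs)) hC
  refine ⟨fun i j => (commute_treeS C f a b (fun s hs => (h s hs).1 i j) t).symm,
    fun t' => (commute_treeS C f a b (fun s hs => (h s hs).2 t') t).symm,
    fun t' => (commute_treeS C f a b (fun s hs => ((h s hs).2 t').star) t).symm⟩

theorem not_mem_child {k : ℕ} {p : List (Fin N)} (u : Fin N) : p ∉ nodes k (p ++ [u]) := by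
  intro h
  obtain ⟨e, he, -⟩ := mem_nodes h
  simpa using congrArg List.length he

theorem child_disjoint {k : ℕ} {p r : List (Fin N)} {u u' : Fin N} (hu : u ≠ u')
    (h : r ∈ nodes k (p ++ [u])) : r ∉ nodes k (p ++ [u']) := by
  intro h'
  obtain ⟨e, he, -⟩ := mem_nodes h
  obtain ⟨e', he', -⟩ := mem_nodes h'
  rw [he] at he'
  simp [hu] at he'

include hC

theorem treeQ_comm_treeQ {k : ℕ} {p : List (Fin N)} (hp : p.length + 1 + k ≤ m) (u u' : Fin N) :
    Commute (treeQ C a k (p ++ [u])) (treeQ C a k (p ++ [u'])) := by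
  rcases eq_or_ne u u' with h | h
  · subst h; exact Commute.refl _
  · refine commute_treeQ C a fun r hr => ?_
    obtain ⟨e, rfl, he⟩ := mem_nodes hr
    exact CommE_treeQ (m := m) (by simp; omega) (by simp; omega) (child_disjoint h.symm hr) hC

theorem sib_mul {k : ℕ} {p : List (Fin N)} (hp : p.length + 1 + k ≤ m) (u : Fin N) :
    treeQ C a k (p ++ [u]) * sibQ C a k p u =
      ((List.finRange N).map fun u => treeQ C a k (p ++ [u])).prod := by
  have hperm := (List.perm_cons_erase (List.mem_finRange u)).map
    fun u => treeQ C a k (p ++ [u])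
  rw [hperm.prod_eq']
  · simp [sibQ]
  · refine List.pairwise_map.2 (List.pairwise_of_forall fun v w => ?_)
    exact treeQ_comm_treeQ hC hp v w

theorem star_S_Q {k : ℕ} {p : List (Fin N)} (hp : p.length + k ≤ m) (ha : 0 < a) (hf : star f = f)
    (hf0 : ∀ s, s < 3 * a → f s = 0) (t : Fin N) :
    star (treeS C f a b k p t) * treeQ C a k p = 0 := by
  cases k with
  | zero =>
    simp only [treeS, treeQ, nodes, List.map_cons, List.map_nil, List.prod_cons, List.prod_nil,
      mul_one, star_mul, mul_assoc, Coord.y_q ha hf hf0, mul_zero]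
  | succ k =>
    simp only [treeS, treeQ_succ, star_sum, Finset.sum_mul]
    refine Finset.sum_eq_zero fun u _ => ?_
    simp only [star_mul, mul_assoc]
    rw [← mul_assoc (star ((C p).y f _)), Coord.y_q ha hf hf0]
    simp

theorem treeS_gram {k : ℕ} {p : List (Fin N)} (hp : p.length + k ≤ m) (ha : 0 < a)
    (hf : star f = f) (hf0 : ∀ s, s < 3 * a → f s = 0)
    (hr : ∀ p, p.length ≤ m → ∑ t, star ((C p).r t) * (C p).z f * (C p).r t = 1) :
    (∀ t t', (∃ l, p.length ≤ l ∧ l ≤ p.length + k ∧ b l t ≠ b l t') →
      star (treeS C f a b k p t) * treeS C f a b k p t' = 0) ∧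
    ∑ t, star (treeS C f a b k p t) * treeS C f a b k p t =
      star (treeQ C a k p) * treeQ C a k p := by
  induction k generalizing p with
  | zero =>
    have e : ∀ t t', star (treeS C f a b 0 p t) * treeS C f a b 0 p t' =
        if b p.length t = b p.length t' then
          (C p).q a * (star ((C p).r t) * (C p).z f * (C p).r t') * (C p).q a else 0 := by
      intro t t'
      simp only [treeS, star_mul, Coord.q_sa, mul_assoc]
      rw [← mul_assoc (star ((C p).y f _)), Coord.y_gram hf]
      split_ifs <;> simp
    refine ⟨fun t t' ⟨l, h1, h2, hl⟩ => ?_, ?_⟩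
    · obtain rfl : l = p.length := by omega
      rw [e, if_neg hl]
    · simp only [e, if_true, ← Finset.sum_mul, ← Finset.mul_sum, hr p (by omega), mul_one]
      simp [treeQ, nodes, Coord.q_sa]
  | succ k ih =>
    have hlen : ∀ u : Fin N, (p ++ [u]).length + k ≤ m := fun u => by simp; omega
    have hch : ∀ u : Fin N, ∀ r ∈ nodes k (p ++ [u]), r.length ≤ m := fun u r hr => by
      obtain ⟨e, rfl, he⟩ := mem_nodes hr; simp; omega
    have hPe : ∀ u u' : Fin N, u ≠ u' → ∀ r ∈ nodes k (p ++ [u]),
        Coord.CommE (treeQ C a k (p ++ [u'])) (C r) := fun u u' hu r hr =>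
      CommE_treeQ (m := m) (hch u r hr) (hlen u') (child_disjoint hu hr) hC
    have hSP : ∀ u t, Commute (treeS C f a b k (p ++ [u]) t) (sibQ C a k p u) := fun u t => by
      refine (Commute.list_prod_left _ _ fun z hz => ?_).symm
      obtain ⟨u', hu', rfl⟩ := List.mem_map.1 hz
      exact commute_treeS C f a b
        (hPe u u' ((List.nodup_finRange N).mem_erase_iff.1 hu').1.symm) t
    -- the middle factor commutes with the children
    have hmid : ∀ u t u', Coord.CommE (treeS C f a b k (p ++ [u]) t) (C p) ∧
        Coord.CommE (treeQ C a k (p ++ [u'])) (C p) := fun u t u' =>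
      ⟨CommE_treeS (m := m) (by omega) (hlen u) (not_mem_child u) hC t,
        CommE_treeQ (m := m) (by omega) (hlen u') (not_mem_child u') hC⟩
    let M : Fin N → Fin N → F := fun u u' =>
      (C p).q a * (star ((C p).r u) * (C p).z f * (C p).r u') * (C p).q a
    have cM : ∀ x, Coord.CommE x (C p) → ∀ u u', Commute x (M u u') := fun x hx u u' =>
      ((hx.q a).mul_right (((hx.2.2 u).mul_right
        (show Commute x ((C p).z f) from by
          have h1 := hx.y f 0
          have h2 := (hx.star.y f 0).star_star
          rw [star_star] at h2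
          exact h2.mul_right h1)).mul_right (hx.2.1 u'))).mul_right (hx.q a)
    have e : ∀ t t', star (treeS C f a b (k + 1) p t) * treeS C f a b (k + 1) p t' =
        if b p.length t = b p.length t' then
          ∑ u, M u u * (star (sibQ C a k p u) *
            (star (treeS C f a b k (p ++ [u]) t) * treeS C f a b k (p ++ [u]) t') *
              sibQ C a k p u) else 0 := by
      intro t t'
      simp only [treeS, star_sum, Finset.sum_mul, Finset.mul_sum]
      have key : ∀ u u', star ((C p).y f (b p.length t) * (C p).r u * (C p).q a *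
            (treeS C f a b k (p ++ [u]) t * sibQ C a k p u)) *
          ((C p).y f (b p.length t') * (C p).r u' * (C p).q a *
            (treeS C f a b k (p ++ [u']) t' * sibQ C a k p u')) =
          if b p.length t = b p.length t' then M u u' *
            (star (treeS C f a b k (p ++ [u]) t * sibQ C a k p u) *
              (treeS C f a b k (p ++ [u']) t' * sibQ C a k p u')) else 0 := by
        intro u u'
        have hT : Commute (star (treeS C f a b k (p ++ [u]) t * sibQ C a k p u)) (M u u') := by
          have h1 : Commute (star (treeS C f a b k (p ++ [u]) t)) (M u u') :=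
            cM _ (hmid u t u).1.star u u'
          have h2 : Commute (star (sibQ C a k p u)) (M u u') := by
            have h3 : ∀ u'', Commute (star (treeQ C a k (p ++ [u''])))
                (M u u') := fun u'' => cM _ (hmid u t u'').2.star u u'
            have : Commute (sibQ C a k p u) (star (M u u')) := by
              refine Commute.list_prod_left _ _ fun z hz => ?_
              obtain ⟨u'', -, rfl⟩ := List.mem_map.1 hz
              simpa using (h3 u'').star_star
            simpa using this.star_star
          rw [star_mul]; exact h2.mul_left h1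
        have hy : star ((C p).y f (b p.length t) * (C p).r u * (C p).q a) *
            ((C p).y f (b p.length t') * (C p).r u' * (C p).q a) =
            if b p.length t = b p.length t' then M u u' else 0 := by
          simp only [M, star_mul, Coord.q_sa, mul_assoc]
          rw [← mul_assoc (star ((C p).y f _)), Coord.y_gram hf]
          split_ifs <;> simp
        rw [star_mul, mul_assoc, ← mul_assoc (star ((C p).y f (b p.length t) * _ * _)), hy]
        split_ifs
        · rw [← mul_assoc, hT.eq, mul_assoc]
        · simp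
      simp only [key]
      rw [Finset.sum_comm]
      by_cases hb : b p.length t = b p.length t'
      · simp only [if_pos hb]
        refine Finset.sum_congr rfl fun u _ => ?_
        rw [Finset.sum_eq_single u]
        · rw [star_mul]; simp only [mul_assoc]
        · intro u' _ hu
          have hq : star (treeS C f a b k (p ++ [u]) t) * sibQ C a k p u' = 0 := by
            have hmem : u ∈ (List.finRange N).erase u' :=
              (List.Nodup.mem_erase_iff (List.nodup_finRange N)).2 ⟨hu.symm, List.mem_finRange u⟩
            have hperm := (List.perm_cons_erase hmem).map fun v => treeQ C a k (p ++ [v])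
            rw [sibQ, hperm.prod_eq' (List.pairwise_map.2 (List.pairwise_of_forall fun v w =>
              treeQ_comm_treeQ hC (by omega) v w)), List.map_cons, List.prod_cons, ← mul_assoc,
              star_S_Q hC (hlen u) ha hf hf0, zero_mul]
          rw [star_mul, (hSP u' t').eq]
          simp only [mul_assoc]
          rw [← mul_assoc (star (treeS C f a b k (p ++ [u]) t)), hq]
          simp
        · simp
      · simp [hb]
    refine ⟨fun t t' ⟨l, h1, h2, hl⟩ => ?_, ?_⟩
    · rw [e]
      split_ifs with hb
      · have hl' : p.length + 1 ≤ l := by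
          rcases eq_or_lt_of_le h1 with h | h
          · exact absurd (h ▸ hb) hl
          · omega
        refine Finset.sum_eq_zero fun u _ => ?_
        rw [(ih (hlen u)).1 t t' ⟨l, by simp; omega, by simp; omega, hl⟩]
        simp
      · rfl
    · simp only [e, if_true]
      rw [Finset.sum_comm]
      have e2 : ∀ u, ∑ t, M u u * (star (sibQ C a k p u) *
            (star (treeS C f a b k (p ++ [u]) t) * treeS C f a b k (p ++ [u]) t) * sibQ C a k p u) =
          M u u * (star ((List.finRange N).map fun u => treeQ C a k (p ++ [u])).prod *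
            ((List.finRange N).map fun u => treeQ C a k (p ++ [u])).prod) := by
        intro u
        rw [← Finset.mul_sum, ← Finset.sum_mul, ← Finset.mul_sum, (ih (hlen u)).2,
          ← sib_mul hC (by omega) u, star_mul]
        simp only [mul_assoc]
      simp only [e2, ← Finset.sum_mul]
      simp only [M, ← Finset.sum_mul, ← Finset.mul_sum, hr p (by omega), mul_one, treeQ_succ,
        star_mul, Coord.q_sa]
      have hc : Commute (star ((List.finRange N).map fun u => treeQ C a k (p ++ [u])).prod)
          ((C p).q a) := by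
        have : Commute (((List.finRange N).map fun u => treeQ C a k (p ++ [u])).prod)
            ((C p).q a) := by
          refine Commute.list_prod_left _ _ fun z hz => ?_
          obtain ⟨u', -, rfl⟩ := List.mem_map.1 hz
          exact (hmid u' u' u').2.q a
        simpa [Coord.q_sa] using this.star_star
      simp only [mul_assoc]
      rw [← mul_assoc (star _) ((C p).q a), hc.eq]
      simp only [mul_assoc]
      rw [← mul_assoc (star _) ((C p).q a), hc.eq]
      simp only [mul_assoc]

variable [PartialOrder F] [StarOrderedRing F]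

theorem exists_joined (ha : 0 < a) : ∀ L : List (List (Fin N)), L.Nodup → (∀ r ∈ L, r.length ≤ m) →
    ∃ T : OZ n F, 0 ≤ T.one' ∧
      1 - T.one' = star ((L.map fun r => (C r).q a).prod) * (L.map fun r => (C r).q a).prod ∧
      ∀ x : F, (∀ r ∈ L, ∀ i j, Commute x ((C r).A.x i j)) → ∀ i j, Commute x (T.x i j) := by
  intro L hL hm
  induction L with
  | nil => exact ⟨OZ.zero, by simp [OZ.zero_one'], by simp [OZ.zero_one'], by simp [OZ.zero]⟩
  | cons r L ih =>
    rw [List.nodup_cons] at hL
    obtain ⟨T, hT0, hT1, hTc⟩ := ih hL.2 fun r' hr' => hm r' (List.mem_cons_of_mem _ hr')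
    have hAB : (C r).A.Comm T := fun i j k l => hTc _ (fun r' hr' i' j' =>
      (hC r r' (hm r List.mem_cons_self) (hm r' (List.mem_cons_of_mem _ hr'))
        fun e => hL.1 (e ▸ hr')).xx i j i' j') k l
    refine ⟨OZ.join ha hAB, ?_, ?_, fun x hx i j => ?_⟩
    · have hd := OZ.join_defect ha hAB
      have e : (OZ.join ha hAB).one' =
          (1 - (C r).q a * (C r).q a) + (C r).q a * T.one' * (C r).q a := by
        have hc : Commute T.one' ((C r).q a) := OZ.T_comm_ev hAB _
        rw [mul_assoc, hc.eq, ← mul_assoc]
        have := congrArg (fun z => 1 - z) hd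
        simp only [sub_sub_cancel] at this
        rw [this, Coord.q]
        noncomm_ring
      rw [e]
      refine add_nonneg ?_ ?_
      · let g : C(ℝ, ℂ) := ⟨fun s => (Real.sqrt (1 - OZ.qR a s * OZ.qR a s) : ℂ), by
          unfold OZ.qR; fun_prop⟩
        have hg : 1 - OZ.qC a * OZ.qC a = star g * g := by
          ext s
          have h1 : 0 ≤ OZ.qR a s := le_max_left _ _
          have h2 : OZ.qR a s ≤ 1 := max_le zero_le_one (min_le_left _ _)
          simp [g, OZ.qC, ← Complex.ofReal_mul, Real.mul_self_sqrt (show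
            0 ≤ 1 - OZ.qR a s * OZ.qR a s by nlinarith)]
        rw [Coord.q, ← map_mul, ← map_one (C r).A.ev, ← map_sub, hg, map_mul, map_star]
        exact star_mul_self_nonneg _
      · simpa [Coord.q_sa] using star_left_conjugate_nonneg hT0 ((C r).q a)
    · rw [OZ.join_defect ha hAB, hT1]
      simp only [List.map_cons, List.prod_cons, star_mul, Coord.q_sa]
      set P := (L.map fun r => (C r).q a).prod
      have hc : Commute P ((C r).q a) := by
        refine Commute.list_prod_left _ _ fun z hz => ?_
        obtain ⟨r', hr', rfl⟩ := List.mem_map.1 hz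
        refine (Coord.CommE.q ⟨fun i j => ?_, fun t => ?_, fun t => ?_⟩ a)
        · have := hC r' r (hm r' (List.mem_cons_of_mem _ hr')) (hm r List.mem_cons_self)
            fun e => hL.1 (e ▸ hr')
          exact (C r').A.ev_comm ((C r').A.one'_comm_of fun k => this.xx k k i j) _
        · have := hC r' r (hm r' (List.mem_cons_of_mem _ hr')) (hm r List.mem_cons_self)
            fun e => hL.1 (e ▸ hr')
          exact (C r').A.ev_comm ((C r').A.one'_comm_of fun k => this.xr k k t) _
        · have := hC r' r (hm r' (List.mem_cons_of_mem _ hr')) (hm r List.mem_cons_self)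
            fun e => hL.1 (e ▸ hr')
          exact (C r').A.ev_comm ((C r').A.one'_comm_of fun k => (this.commE_x k k).2.2 t) _
      have hc' : Commute (star P) ((C r).q a) := by simpa [Coord.q_sa] using hc.star_star
      simp only [Coord.q] at hc' ⊢
      simp only [mul_assoc]
      rw [← mul_assoc (star P), hc'.eq]
      simp only [mul_assoc]
      rw [← mul_assoc (star P), hc'.eq]
      simp only [mul_assoc]
    · exact (OZ.join_comm ha hAB (fun i j => (hx r List.mem_cons_self i j).symm)
        (fun i j => (hTc x (fun r' hr' => hx r' (List.mem_cons_of_mem _ hr')) i j).symm) i j).symm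

theorem nodes_nodup : ∀ k (p : List (Fin N)), (nodes k p).Nodup
  | 0, p => by simp [nodes]
  | k + 1, p => by
    refine List.nodup_cons.2 ⟨fun h => ?_, List.nodup_flatMap.2 ⟨fun u _ => nodes_nodup k _, ?_⟩⟩
    · obtain ⟨u, -, hu⟩ := List.mem_flatMap.1 h
      exact not_mem_child u hu
    · exact (List.nodup_finRange N).imp fun {u v} huv => fun r hr hr' =>
        child_disjoint huv hr hr'

/-- The absorption theorem. -/
theorem exists_ddRel (hN : N ≤ n ^ m) (hm : 0 < m) (ha : 0 < a) (hf : star f = f)
    (hf0 : ∀ s, s < 3 * a → f s = 0)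
    (hr : ∀ p, p.length ≤ m → ∑ t, star ((C p).r t) * (C p).z f * (C p).r t = 1) :
    Nonempty (DDRel n F) := by
  obtain ⟨m', rfl⟩ := Nat.exists_eq_succ_of_ne_zero hm.ne'
  let β : Fin N → Fin (m' + 1) → Fin n := fun t => finFunctionFinEquiv.symm (Fin.castLE hN t)
  have hβ : Function.Injective β := fun t t' h =>
    Fin.castLE_injective hN (finFunctionFinEquiv.symm.injective h)
  let bb : ℕ → Fin N → Fin n := fun l t =>
    if h : 1 ≤ l ∧ l ≤ m' + 1 then β t ⟨l - 1, by omega⟩ else 0
  set L := (List.finRange N).flatMap fun u => nodes m' (([] : List (Fin N)) ++ [u]) with hL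
  have hnd : (([] : List (Fin N)) :: L).Nodup := nodes_nodup hC (m' + 1) []
  have hlen : ∀ r ∈ ([] : List (Fin N)) :: L, r.length ≤ m' + 1 := fun r hr => by
    obtain ⟨e, rfl, he⟩ := mem_nodes (k := m' + 1) hr; simpa using he
  rw [List.nodup_cons] at hnd
  obtain ⟨T, hT0, hT1, hTc⟩ := exists_joined hC ha L hnd.2 fun r hr => hlen r (List.mem_cons_of_mem _ hr)
  have hAB : (C []).A.Comm T := fun i j k l => hTc _ (fun r' hr' i' j' =>
    (hC [] r' (hlen [] List.mem_cons_self) (hlen r' (List.mem_cons_of_mem _ hr'))
      fun e => hnd.1 (e ▸ hr')).xx i j i' j') k l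
  obtain ⟨g1, g2⟩ := treeS_gram (C := C) (f := f) (a := a) (b := bb) hC (k := m' + 1) (p := [])
    (by simp) ha hf hf0 hr
  set v := ∑ t, treeS C f a bb (m' + 1) [] t with hv
  have hvv : star v * v = star (treeQ C a (m' + 1) []) * treeQ C a (m' + 1) [] := by
    rw [hv, star_sum, Finset.sum_mul, ← g2]
    refine Finset.sum_congr rfl fun t _ => ?_
    rw [Finset.mul_sum, Finset.sum_eq_single t]
    · intro t' _ ht
      have : β t ≠ β t' := fun h => ht (hβ h).symm
      obtain ⟨l, hl⟩ := Function.ne_iff.1 this
      refine g1 t t' ⟨l + 1, by simp, by simp; omega, ?_⟩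
      simp only [bb]
      rw [dif_pos ⟨by omega, by omega⟩, dif_pos ⟨by omega, by omega⟩]
      simpa using hl
    · simp
  have hq : 1 - (OZ.join ha hAB).one' = star (treeQ C a (m' + 1) []) * treeQ C a (m' + 1) [] := by
    rw [OZ.join_defect ha hAB, hT1, treeQ_succ, star_mul, Coord.q_sa]
    have e : ((List.finRange N).map fun u => treeQ C a m' (([] : List (Fin N)) ++ [u])).prod
        = (L.map fun r => (C r).q a).prod := by
      simp only [hL, treeQ, List.flatMap_def, List.map_flatten, List.prod_flatten, List.map_map]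
      rfl
    rw [e]
    set P := (L.map fun r => (C r).q a).prod
    have hc : Commute (star P) ((C []).A.ev (OZ.qC a)) := by
      have : Commute P ((C []).A.ev (OZ.qC a)) := by
        rw [← e]
        refine Commute.list_prod_left _ _ fun z hz => ?_
        obtain ⟨u', -, rfl⟩ := List.mem_map.1 hz
        exact (CommE_treeQ (m := m' + 1) (k := m') (r := []) (by simp) (by simp; omega)
          (not_mem_child u') hC).ev _
      simpa [← map_star, show star (OZ.qC a) = OZ.qC a by ext s; simp [OZ.qC]] using this.star_star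
    simp only [Coord.q, mul_assoc]
    rw [← mul_assoc (star P), hc.eq]
    simp only [mul_assoc]
    rw [← mul_assoc (star P), hc.eq]
    simp only [mul_assoc]
  have hpos : 0 ≤ (OZ.join ha hAB).one' := by
    obtain ⟨T', h0, h1, -⟩ := exists_joined hC ha ([] :: L) (List.nodup_cons.2 hnd) hlen
    have e : (([] :: L).map fun r => (C r).q a).prod = treeQ C a (m' + 1) [] := rfl
    rw [e, ← hq] at h1
    rw [← sub_right_inj.1 h1]; exact h0
  refine ⟨⟨(OZ.join ha hAB).x, (OZ.join ha hAB).x_star, (OZ.join ha hAB).x_mul, hpos, v,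
    hvv.trans hq.symm, ?_⟩⟩
  rw [hv, Finset.mul_sum]
  refine Finset.sum_congr rfl fun t _ => ?_
  rw [treeS, Finset.mul_sum]
  refine Finset.sum_congr rfl fun u _ => ?_
  have hb : bb ([] : List (Fin N)).length t = 0 := by simp [bb]
  have hy : (OZ.join ha hAB).x 0 0 * (C []).y f 0 = (C []).y f 0 := by
    have e : OZ.PC ha * f * OZ.idR = f := by
      ext s
      have h := OZ.PC_mul ha s
      simp only [ContinuousMap.mul_apply]
      rw [mul_right_comm, show OZ.idR s = (s : ℂ) from rfl, h]
      rcases lt_or_ge s (3 * a) with h | h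
      · simp [hf0 s h]
      · simp [OZ.GC, OZ.qC, OZ.qR_eq_zero ha h]
    rw [Coord.y, ← mul_assoc, OZ.join_top ha hAB f hf0, mul_assoc, OZ.x_mul', if_pos rfl,
      ← ((C []).A.one'_comm 0 0).eq, ← mul_assoc, ← (C []).A.ev_idR, ← map_mul, e]
  rw [hb]
  simp only [← mul_assoc]
  rw [hy]

end tree

end

end Vale.Agent.P101
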