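import Mathlib
import Vale.Agent.P101.Commutators

/-!
A self-adjoint element with full commutators has, mutually full, two spectral pieces that are
separated by a fixed amount.
-/

namespace VAgent.P101

open scoped CStarAlgebra

theorem exists_maximal {R : Type*} [Ring R] (K : TwoSidedIdeal R) (h : (1 : R) ∉ K) :
    ∃ M, K ≤ M ∧ (1 : R) ∉ M ∧ ∀ I, M ≤ I → (1 : R) ∉ I → I = M := by
  have hub : ∀ c ⊆ {I : TwoSidedIdeal R | (1 : R) ∉ I}, IsChain (· ≤ ·) c → ∀ I₀ ∈ c,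
      ∃ B ∈ {I : TwoSidedIdeal R | (1 : R) ∉ I}, ∀ I ∈ c, I ≤ B := by
    intro c hc hchain I₀ hI₀
    let U : Set R := {x | ∃ I ∈ c, x ∈ I}
    let B : TwoSidedIdeal R := TwoSidedIdeal.mk' U ⟨I₀, hI₀, zero_mem I₀⟩
      (fun {x y} ⟨I, hI, hx⟩ ⟨J, hJ, hy⟩ => by
        rcases hchain.total hI hJ with h | h
        · exact ⟨J, hJ, add_mem (h hx) hy⟩
        · exact ⟨I, hI, add_mem hx (h hy)⟩)
      (fun {x} ⟨I, hI, hx⟩ => ⟨I, hI, neg_mem hx⟩)
      (fun {x y} ⟨I, hI, hy⟩ => ⟨I, hI, TwoSidedIdeal.mul_mem_left _ _ _ hy⟩)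
      (fun {x y} ⟨I, hI, hx⟩ => ⟨I, hI, TwoSidedIdeal.mul_mem_right _ _ _ hx⟩)
    have hB : ∀ x, x ∈ B ↔ ∃ I ∈ c, x ∈ I := fun x => TwoSidedIdeal.mem_mk' ..
    refine ⟨B, ?_, fun I hI x hx => (hB x).2 ⟨I, hI, hx⟩⟩
    intro h1
    obtain ⟨I, hI, h1'⟩ := (hB 1).1 h1
    exact hc hI h1'
  obtain ⟨M, hKM, hM⟩ := zorn_le_nonempty₀ _ hub K h
  exact ⟨M, hKM, hM.prop, fun I hI h1 => le_antisymm (hM.le_of_ge h1 hI) hI⟩

theorem prime_of_maximal {R : Type*} [Ring R] {M : TwoSidedIdeal R}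
    (hmax : ∀ I, M ≤ I → (1 : R) ∉ I → I = M) {x y : R} (h : ∀ r, x * r * y ∈ M) :
    x ∈ M ∨ y ∈ M := by
  by_contra hxy
  push Not at hxy
  let S : Set R := {z | ∀ r, z * r * y ∈ M}
  let I : TwoSidedIdeal R := TwoSidedIdeal.mk' S (fun r => by simp)
    (fun {a b} ha hb r => by rw [add_mul, add_mul]; exact add_mem (ha r) (hb r))
    (fun {a} ha r => by rw [neg_mul, neg_mul]; exact neg_mem (ha r))
    (fun {a b} hb r => by
      rw [mul_assoc a, mul_assoc a]
      exact TwoSidedIdeal.mul_mem_left _ _ _ (hb r))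
    (fun {a b} ha r => by rw [mul_assoc a b]; exact ha (b * r))
  have hI : ∀ z, z ∈ I ↔ ∀ r, z * r * y ∈ M := fun z => TwoSidedIdeal.mem_mk' ..
  have hMI : M ≤ I := fun z hz => (hI z).2 fun r =>
    TwoSidedIdeal.mul_mem_right _ _ _ (TwoSidedIdeal.mul_mem_right _ _ _ hz)
  by_cases h1 : (1 : R) ∈ I
  · exact hxy.2 (by simpa using (hI 1).1 h1 1)
  · have := hmax I hMI h1
    exact hxy.1 (this ▸ (hI x).2 h)

/-- The lower spectral cut. -/
noncomputable def lo (g : ℝ) (t : ℝ) : ℝ := max (g - t) 0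

/-- The upper spectral cut. -/
noncomputable def hi (g : ℝ) (t : ℝ) : ℝ := max (t - g) 0

theorem continuous_lo (g : ℝ) : Continuous (lo g) := by unfold lo; fun_prop

theorem continuous_hi (g : ℝ) : Continuous (hi g) := by unfold hi; fun_prop

variable {F : Type*} [CStarAlgebra F] [Nontrivial F]

theorem spectrum_abs_le (H : F) {t : ℝ} (ht : t ∈ spectrum ℝ H) : |t| ≤ ‖H‖ := by
  simpa [Real.norm_eq_abs] using spectrum.norm_le_norm_of_mem ht

omit [Nontrivial F] in
theorem cut_norm_le (H : F) (hH : IsSelfAdjoint H) {g δ : ℝ} (hδ : 0 ≤ δ) :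
    ‖(H - algebraMap ℝ F g) - (cfc (hi (g + δ)) H - cfc (lo (g - δ)) H)‖ ≤ δ := by
  have e : (H - algebraMap ℝ F g) - (cfc (hi (g + δ)) H - cfc (lo (g - δ)) H) =
      cfc (fun t => (t - g) - (hi (g + δ) t - lo (g - δ) t)) H := by
    rw [cfc_sub (fun t => t - g) (fun t => hi (g + δ) t - lo (g - δ) t) H (by fun_prop)
        ((continuous_hi _).sub (continuous_lo _)).continuousOn,
      cfc_sub (hi (g + δ)) (lo (g - δ)) H (continuous_hi _).continuousOn
        (continuous_lo _).continuousOn,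
      cfc_sub (fun t : ℝ => t) (fun _ => g) H (by fun_prop) (by fun_prop),
      cfc_id' ℝ H, cfc_const g H]
  rw [e]
  refine norm_cfc_le hδ fun t _ => ?_
  rw [Real.norm_eq_abs, abs_le, hi, lo]
  constructor <;>
    rcases le_total (t - (g + δ)) 0 with h1 | h1 <;> rcases le_total (g - δ - t) 0 with h2 | h2 <;>
    simp only [max_eq_left, max_eq_right, h1, h2] <;> linarith

/-- Some pair of cuts is mutually full. -/
theorem exists_cuts (H : F) (hH : IsSelfAdjoint H) (h : CommFull fun _ : Unit => H) :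
    ∃ δ : ℝ, 0 < δ ∧ FullSet (Set.range fun p : ℤ × F =>
      cfc (lo (p.1 * δ)) H * p.2 * cfc (hi ((p.1 + 1) * δ)) H) := by
  obtain ⟨n, a, b, e, he, hsum⟩ := h.exists_sum
  choose s hs using he
  set C := ∑ i, 2 * ‖a i‖ * ‖(s i).2‖ * ‖b i‖ with hC
  have hC0 : 0 ≤ C := by positivity
  set δ : ℝ := 1 / (C + 1) with hδ
  have hδ0 : 0 < δ := by positivity
  refine ⟨δ, hδ0, ?_⟩
  set fam : Set F := Set.range fun p : ℤ × F =>
      cfc (lo (p.1 * δ)) H * p.2 * cfc (hi ((p.1 + 1) * δ)) H with hfam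
  by_contra hK
  obtain ⟨M, hKM, h1, hmax⟩ := exists_maximal (TwoSidedIdeal.span fam) hK
  have hP : ∀ k : ℤ, cfc (lo (k * δ)) H ∈ M ∨ cfc (hi ((k + 1) * δ)) H ∈ M := fun k =>
    prime_of_maximal hmax fun r => hKM (TwoSidedIdeal.subset_span ⟨(k, r), rfl⟩)
  have hfin : ∃ k : ℤ, cfc (lo (k * δ)) H ∈ M ∧ cfc (hi ((k + 2) * δ)) H ∈ M := by
    obtain ⟨K, hK'⟩ := exists_nat_gt (‖H‖ / δ)
    rw [div_lt_iff₀ hδ0] at hK'
    by_contra hne
    push Not at hne
    have hall : ∀ j : ℕ, cfc (lo (((-(K : ℤ) + j : ℤ) : ℝ) * δ)) H ∈ M := by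
      intro j
      induction j with
      | zero =>
        have : cfc (lo (((-(K : ℤ) + (0 : ℕ) : ℤ) : ℝ) * δ)) H = (0 : F) := by
          rw [← cfc_zero ℝ H]
          refine cfc_congr fun t ht => ?_
          have := abs_le.1 (spectrum_abs_le H ht)
          simp only [lo, Pi.zero_apply]
          push_cast
          exact max_eq_right (by linarith [this.1])
        rw [this]; exact zero_mem M
      | succ j ih =>
        rcases hP (-(K : ℤ) + (j + 1 : ℕ)) with h | h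
        · exact h
        · exfalso
          refine hne _ ih ?_
          convert h using 4
          push_cast; ring
    refine hne _ (hall (2 * K)) ?_
    have : cfc (hi ((((-(K : ℤ) + (2 * K : ℕ) : ℤ) : ℝ) + 2) * δ)) H = (0 : F) := by
      rw [← cfc_zero ℝ H]
      refine cfc_congr fun t ht => ?_
      have := abs_le.1 (spectrum_abs_le H ht)
      simp only [hi, Pi.zero_apply]
      push_cast
      exact max_eq_right (by linarith [this.2])
    rw [this]; exact zero_mem M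
  obtain ⟨k, hlo, hhi⟩ := hfin
  set g : ℝ := (k + 1) * δ with hg
  have hz : cfc (hi (g + δ)) H - cfc (lo (g - δ)) H ∈ M := by
    refine sub_mem ?_ ?_
    · rwa [hg, show ((k : ℝ) + 1) * δ + δ = (k + 2) * δ by ring]
    · rwa [hg, show ((k : ℝ) + 1) * δ - δ = k * δ by ring]
  set z := cfc (hi (g + δ)) H - cfc (lo (g - δ)) H with hzdef
  set w := (H - algebraMap ℝ F g) - z with hw
  have hwn : ‖w‖ ≤ δ := cut_norm_le H hH hδ0.le
  have hcomm : ∀ x, comm H x = comm z x + comm w x := by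
    intro x
    have hc := Algebra.commutes g x
    simp only [hw, comm, sub_mul, mul_sub, hc]
    abel
  have hmem : ∑ i, a i * comm z (s i).2 * b i ∈ M := sum_mem fun i _ =>
    TwoSidedIdeal.mul_mem_right _ _ _ (TwoSidedIdeal.mul_mem_left _ _ _
      (sub_mem (TwoSidedIdeal.mul_mem_right _ _ _ hz) (TwoSidedIdeal.mul_mem_left _ _ _ hz)))
  have herr : ‖1 - ∑ i, a i * comm z (s i).2 * b i‖ < 1 := by
    have : (1 : F) - ∑ i, a i * comm z (s i).2 * b i = ∑ i, a i * comm w (s i).2 * b i := by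
      rw [← hsum, ← Finset.sum_sub_distrib]
      refine Finset.sum_congr rfl fun i _ => ?_
      rw [← hs i]
      simp only [hcomm]
      noncomm_ring
    rw [this]
    calc ‖∑ i, a i * comm w (s i).2 * b i‖ ≤ ∑ i, 2 * ‖a i‖ * ‖(s i).2‖ * ‖b i‖ * δ := by
          refine (norm_sum_le _ _).trans (Finset.sum_le_sum fun i _ => ?_)
          have hc : ‖comm w (s i).2‖ ≤ 2 * δ * ‖(s i).2‖ := by
            calc ‖comm w (s i).2‖ ≤ ‖w * (s i).2‖ + ‖(s i).2 * w‖ := norm_sub_le _ _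
              _ ≤ δ * ‖(s i).2‖ + ‖(s i).2‖ * δ := add_le_add
                  ((norm_mul_le _ _).trans (by gcongr)) ((norm_mul_le _ _).trans (by gcongr))
              _ = _ := by ring
          calc _ ≤ ‖a i‖ * ‖comm w (s i).2‖ * ‖b i‖ := norm_mul₃_le
            _ ≤ ‖a i‖ * (2 * δ * ‖(s i).2‖) * ‖b i‖ := by gcongr
            _ = _ := by ring
      _ = C * δ := by rw [← Finset.sum_mul, hC]
      _ < 1 := by rw [hδ, mul_one_div, div_lt_one (by positivity)]; linarith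
  set z' := ∑ i, a i * comm z (s i).2 * b i
  obtain ⟨u, hu⟩ : IsUnit z' := by simpa using (Units.oneSub (1 - z') herr).isUnit
  rw [← hu] at hmem
  exact h1 (by simpa using TwoSidedIdeal.mul_mem_left M (↑u⁻¹ : F) _ hmem)

end VAgent.P101
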