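import Mathlib
import Vale.Agent.P101.Maximal

/-!
From one self-adjoint element with full commutators to two orthogonal full self-adjoint elements,
and then to one full element of square zero.
-/

namespace VAgent.P101

open scoped CStarAlgebra

/-- Linear ramp from `0` at `A` to `1` at `A + ε`. -/
noncomputable def ramp (A ε : ℝ) (t : ℝ) : ℝ := max 0 (min 1 ((t - A) / ε))

theorem continuous_ramp (A ε : ℝ) : Continuous (ramp A ε) := by unfold ramp; fun_prop

theorem ramp_of_le {A ε t : ℝ} (hε : 0 < ε) (h : t ≤ A) : ramp A ε t = 0 := by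
  unfold ramp
  exact max_eq_left ((min_le_right _ _).trans (div_nonpos_of_nonpos_of_nonneg (by linarith) hε.le))

theorem ramp_of_ge {A ε t : ℝ} (hε : 0 < ε) (h : A + ε ≤ t) : ramp A ε t = 1 := by
  unfold ramp
  rw [min_eq_left (by rw [le_div_iff₀ hε]; linarith), max_eq_right zero_le_one]

/-- A function supported in a short interval starting at `A + j ε`. -/
noncomputable def tent (A ε : ℝ) (j : ℕ) (t : ℝ) : ℝ :=
  ramp (A + j * ε) ε t - ramp (A + (j + 1 : ℕ) * ε) ε t

theorem continuous_tent (A ε : ℝ) (j : ℕ) : Continuous (tent A ε j) :=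
  (continuous_ramp _ _).sub (continuous_ramp _ _)

theorem tent_support {A ε t : ℝ} (hε : 0 < ε) {j : ℕ} (h : tent A ε j t ≠ 0) :
    A + j * ε < t ∧ t < A + j * ε + 2 * ε := by
  unfold tent at h
  push_cast at h
  constructor
  · by_contra hn
    push Not at hn
    exact h (by rw [ramp_of_le hε hn, ramp_of_le hε (by linarith)]; ring)
  · by_contra hn
    push Not at hn
    exact h (by rw [ramp_of_ge hε (by linarith), ramp_of_ge hε (by linarith)]; ring)

theorem tent_sum {A ε t : ℝ} (hε : 0 < ε) {J : ℕ} (h₁ : A + ε ≤ t) (h₂ : t ≤ A + J * ε) :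
    ∑ j ∈ Finset.range J, tent A ε j t = 1 := by
  unfold tent
  rw [Finset.sum_range_sub' fun j : ℕ => ramp (A + j * ε) ε t]
  rw [ramp_of_ge hε (by simpa using h₁), ramp_of_le hε h₂, sub_zero]

section Localize

variable {F : Type*} [CStarAlgebra F] [Nontrivial F]

/-- Localized separated spectral pieces, uniformly in the localization scale. -/
theorem exists_localized (H : F) (hH : IsSelfAdjoint H) (h : CommFull fun _ : Unit => H) :
    ∃ δ : ℝ, 0 < δ ∧ ∃ D₀ : ℝ, δ ≤ D₀ ∧ ∀ ε : ℝ, 0 < ε → ε ≤ 1 → 4 * ε ≤ δ →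
      ∃ (m : ℕ) (U V : Fin m → ℝ → ℝ) (A B : Fin m → ℝ) (p s q : Fin m → F),
        (∀ k, Continuous (U k) ∧ Continuous (V k)) ∧
        (∀ k t, U k t ≠ 0 → A k < t ∧ t < A k + 2 * ε) ∧
        (∀ k t, V k t ≠ 0 → B k < t ∧ t < B k + 2 * ε) ∧
        (∀ k, A k + δ / 2 ≤ B k ∧ B k - A k ≤ D₀) ∧
        ∑ k, p k * (cfc (U k) H * s k * cfc (V k) H) * q k = 1 := by
  classical
  obtain ⟨δ, hδ, hfull⟩ := exists_cuts H hH h
  obtain ⟨n, a, b, e, he, hsum⟩ := hfull.exists_sum
  choose kr hkr using he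
  refine ⟨δ, hδ, δ + 2 * ‖H‖ + 4, by linarith [norm_nonneg H], fun ε hε hε1 hεδ => ?_⟩
  set J := ⌈(2 * ‖H‖ + 1) / ε⌉₊ with hJdef
  have hJ : 2 * ‖H‖ + 1 ≤ J * ε := (div_le_iff₀ hε).1 (Nat.le_ceil _)
  have hJle : (J : ℝ) * ε ≤ 2 * ‖H‖ + 1 + ε := by
    have := (Nat.ceil_lt_add_one (by positivity : (0 : ℝ) ≤ (2 * ‖H‖ + 1) / ε)).le
    calc (J : ℝ) * ε ≤ ((2 * ‖H‖ + 1) / ε + 1) * ε := mul_le_mul_of_nonneg_right this hε.le
      _ = _ := by field_simp
  set base := -‖H‖ - ε with hbase
  have hone : ∀ f : ℝ → ℝ, Continuous f →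
      cfc f H = ∑ j : Fin J, cfc (fun t => f t * tent base ε j t) H := by
    intro f hf
    rw [← cfc_sum (fun (j : Fin J) t => f t * tent base ε j t) H Finset.univ
      (fun j _ => (hf.mul (continuous_tent _ _ _)).continuousOn)]
    refine cfc_congr fun t ht => ?_
    have := abs_le.1 (spectrum_abs_le H ht)
    simp only [Finset.sum_apply]
    rw [← Finset.mul_sum, Fin.sum_univ_eq_sum_range (fun j => tent base ε j t),
      tent_sum hε (by rw [hbase]; linarith [this.1]) (by rw [hbase]; linarith [this.2]), mul_one]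
  set Ab : Fin J → ℝ := fun j => base + (j : ℕ) * ε with hAb
  set good : Fin n → Fin J → Fin J → Prop := fun i j j' =>
    (∃ t, lo ((kr i).1 * δ) t * tent base ε j t ≠ 0) ∧
      ∃ t, hi (((kr i).1 + 1) * δ) t * tent base ε j' t ≠ 0 with hgood
  have hsep : ∀ i j j', good i j j' → Ab j + δ / 2 ≤ Ab j' ∧ Ab j' - Ab j ≤ δ + 2 * ‖H‖ + 4 := by
    intro i j j' ⟨⟨t, ht⟩, ⟨t', ht'⟩⟩
    obtain ⟨ht1, ht2⟩ := mul_ne_zero_iff.1 ht
    obtain ⟨ht1', ht2'⟩ := mul_ne_zero_iff.1 ht'
    have hA := tent_support hε ht2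
    have hB := tent_support hε ht2'
    have h1 : t < (kr i).1 * δ := by
      by_contra hn; push Not at hn; exact ht1 (max_eq_right (by linarith))
    have h2 : ((kr i).1 + 1) * δ < t' := by
      by_contra hn; push Not at hn; exact ht1' (max_eq_right (by linarith))
    have hj1 : (0 : ℝ) ≤ (j : ℕ) * ε := by positivity
    have hj2 : ((j' : ℕ) : ℝ) * ε ≤ J * ε :=
      mul_le_mul_of_nonneg_right (Nat.cast_le.2 j'.2.le) hε.le
    have hJ' : (J : ℝ) * ε ≥ 2 * ‖H‖ + 1 := hJ
    refine ⟨?_, ?_⟩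
    · simp only [hAb]; linarith [hA.1, hB.2]
    · simp only [hAb]
      linarith [hA.1, hB.2]
  let K := Fin n × Fin J × Fin J
  let U₀ : K → ℝ → ℝ := fun k t =>
    if good k.1 k.2.1 k.2.2 then lo ((kr k.1).1 * δ) t * tent base ε k.2.1 t else 0
  let V₀ : K → ℝ → ℝ := fun k t =>
    if good k.1 k.2.1 k.2.2 then hi (((kr k.1).1 + 1) * δ) t * tent base ε k.2.2 t else 0
  let A₀ : K → ℝ := fun k => if good k.1 k.2.1 k.2.2 then Ab k.2.1 else 0
  let B₀ : K → ℝ := fun k => if good k.1 k.2.1 k.2.2 then Ab k.2.2 else δ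
  let eqv := (Fintype.equivFin K).symm
  refine ⟨Fintype.card K, fun k => U₀ (eqv k), fun k => V₀ (eqv k), fun k => A₀ (eqv k),
    fun k => B₀ (eqv k), fun k => a (eqv k).1, fun k => (kr (eqv k).1).2, fun k => b (eqv k).1,
    ?_, ?_, ?_, ?_, ?_⟩
  · intro k
    simp only [U₀, V₀]
    split_ifs
    · exact ⟨(continuous_lo _).mul (continuous_tent _ _ _),
        (continuous_hi _).mul (continuous_tent _ _ _)⟩
    · exact ⟨continuous_const, continuous_const⟩
  · intro k t ht
    simp only [U₀] at ht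
    simp only [A₀]
    split_ifs at ht ⊢ with hg
    exact tent_support hε (mul_ne_zero_iff.1 ht).2
    exact absurd rfl ht
  · intro k t ht
    simp only [V₀] at ht
    simp only [B₀]
    split_ifs at ht ⊢ with hg
    exact tent_support hε (mul_ne_zero_iff.1 ht).2
    exact absurd rfl ht
  · intro k
    simp only [A₀, B₀]
    split_ifs with hg
    · exact hsep _ _ _ hg
    · constructor <;> linarith [norm_nonneg H]
  · rw [Equiv.sum_comp eqv (fun k : K =>
      a k.1 * (cfc (U₀ k) H * (kr k.1).2 * cfc (V₀ k) H) * b k.1), ← hsum,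
      Fintype.sum_prod_type]
    refine Finset.sum_congr rfl fun i _ => ?_
    rw [← hkr i]
    simp only
    rw [hone _ (continuous_lo _), hone _ (continuous_hi _), Finset.sum_mul, Finset.sum_mul,
      Finset.mul_sum, Finset.sum_mul, Fintype.sum_prod_type]
    refine Finset.sum_congr rfl fun j _ => ?_
    rw [Finset.mul_sum, Finset.mul_sum, Finset.sum_mul]
    refine Finset.sum_congr rfl fun j' _ => ?_
    simp only [U₀, V₀]
    by_cases hg : good i j j'
    · simp [hg]
    · simp only [hg, if_false]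
      rw [hgood] at hg
      simp only [not_and_or, not_exists, not_not] at hg
      rcases hg with hz | hz
      · simp [hz]
      · simp [hz]

end Localize

/-- A periodic function with values in `[0, 1]` that is `1` on a middle range of each period. -/
noncomputable def plateau (L θ : ℝ) (t : ℝ) : ℝ :=
  max 0 (min 1 (2 * Real.sin (Real.pi * (t / L - θ))))

theorem continuous_plateau (L θ : ℝ) : Continuous (plateau L θ) := by unfold plateau; fun_prop

theorem plateau_orth (L t : ℝ) : plateau L 0 t * plateau L 1 t = 0 := by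
  unfold plateau
  rw [sub_zero, mul_sub, mul_one, Real.sin_sub_pi]
  rcases le_total (Real.sin (Real.pi * (t / L))) 0 with h | h
  · rw [max_eq_left ((min_le_right _ _).trans (by linarith)), zero_mul]
  · rw [max_eq_left (a := (0 : ℝ)) (b := min 1 (2 * -Real.sin (Real.pi * (t / L))))
      ((min_le_right _ _).trans (by linarith)), mul_zero]

theorem plateau_eq_one {L θ t : ℝ} (hL : 0 < L) (n : ℤ)
    (h₁ : (2 * n + θ + 1 / 4) * L ≤ t) (h₂ : t ≤ (2 * n + θ + 3 / 4) * L) :
    plateau L θ t = 1 := by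
  unfold plateau
  have hu1 : 2 * (n : ℝ) + 1 / 4 ≤ t / L - θ := by
    rw [le_sub_iff_add_le, le_div_iff₀ hL]; linarith
  have hu2 : t / L - θ ≤ 2 * n + 3 / 4 := by
    rw [sub_le_iff_le_add, div_le_iff₀ hL]; linarith
  set u := t / L - θ
  have e : Real.sin (Real.pi * u) = Real.cos (|Real.pi * (u - 2 * n - 1 / 2)|) := by
    rw [Real.cos_abs, show Real.pi * (u - 2 * n - 1 / 2) =
      Real.pi * u - (n : ℝ) * (2 * Real.pi) - Real.pi / 2 by ring, Real.cos_sub_pi_div_two,
      Real.sin_sub_int_mul_two_pi]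
  have hb : |Real.pi * (u - 2 * n - 1 / 2)| ≤ Real.pi / 4 := by
    rw [abs_mul, abs_of_pos Real.pi_pos]
    have : |u - 2 * n - 1 / 2| ≤ 1 / 4 := abs_le.2 ⟨by linarith, by linarith⟩
    nlinarith [Real.pi_pos]
  have hcos := Real.cos_le_cos_of_nonneg_of_le_pi (abs_nonneg _)
    (by linarith [Real.pi_pos]) hb
  rw [← e, Real.cos_pi_div_four] at hcos
  have h2 : (1 : ℝ) ≤ Real.sqrt 2 := Real.one_le_sqrt.2 (by norm_num)
  rw [min_eq_left (by linarith), max_eq_right zero_le_one]

theorem exists_hit {L : ℝ} (hL : 0 < L) (S θ : ℝ) (hθ : 0 ≤ θ) (hθ2 : θ ≤ 2) :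
    ∃ n : ℤ, S < (2 * n + θ) * L ∧ (2 * n + θ) * L ≤ S + 4 * L := by
  refine ⟨⌊S / (2 * L)⌋ + 1, ?_, ?_⟩
  · have := Int.lt_floor_add_one (S / (2 * L))
    rw [div_lt_iff₀ (by positivity)] at this
    push_cast
    nlinarith [mul_nonneg hθ hL.le]
  · have := Int.floor_le (S / (2 * L))
    rw [le_div_iff₀ (by positivity)] at this
    push_cast
    nlinarith [mul_le_mul_of_nonneg_right hθ2 hL.le]

theorem oprod_one {R : Type*} [Ring R] : ∀ n : ℕ, oprod (fun _ : Fin n => (1 : R)) = 1
  | 0 => rfl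
  | n + 1 => by rw [oprod_succ, oprod_one n, one_mul]

theorem map_oprod {R S : Type*} [Ring R] [Ring S] {Φ : Type*} [FunLike Φ R S]
    [MonoidHomClass Φ R S] (f : Φ) : ∀ {n : ℕ} (g : Fin n → R),
    f (oprod g) = oprod (fun i => f (g i))
  | 0, _ => map_one f
  | n + 1, g => by rw [oprod_succ, oprod_succ, map_mul, map_oprod f fun i => g i.succ]

theorem oprod_eq_zero {R : Type*} [CommRing R] [IsDomain R] : ∀ {n : ℕ} (f : Fin n → R),
    oprod f ≠ 0 → ∀ i, f i ≠ 0
  | 0, _, _, i => i.elim0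
  | n + 1, f, h, i => by
    rw [oprod_succ] at h
    obtain ⟨h0, h1⟩ := mul_ne_zero_iff.1 h
    exact Fin.cases h0 (fun k => oprod_eq_zero _ h1 k) i

variable {F : Type*} [CStarAlgebra F]

/-- A product of localized pieces is fixed by a function of the sum equal to one on the range of
the sum. -/
theorem plateau_mul {n : ℕ} (H : Fin n → F) (hsa : ∀ i, IsSelfAdjoint (H i))
    (hcomm : ∀ i j, Commute (H i) (H j)) (W : Fin n → ℝ → ℝ) (hW : ∀ i, Continuous (W i))
    (lo' : Fin n → ℝ) (d : ℝ) (hsupp : ∀ i t, W i t ≠ 0 → lo' i < t ∧ t < lo' i + d)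
    (f : ℝ → ℝ) (hf : Continuous f)
    (hone : ∀ t, ∑ i, lo' i ≤ t → t ≤ ∑ i, lo' i + n * d → f t = 1) :
    cfc f (∑ i, H i) * oprod (fun i => cfc (W i) (H i)) = oprod (fun i => cfc (W i) (H i)) := by
  have hc : CommSA (Set.range H) :=
    ⟨fun x ⟨i, hi⟩ => hi ▸ hsa i, fun x ⟨i, hi⟩ y ⟨j, hj⟩ => hi ▸ hj ▸ hcomm i j⟩
  set H' : Fin n → Abel (Set.range H) hc := fun i => ⟨H i, mem_abel hc ⟨i, rfl⟩⟩ with hH'
  have hsa' : ∀ i, IsSelfAdjoint (H' i) := fun i => Subtype.ext (hsa i).star_eq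
  have hS : IsSelfAdjoint (∑ i, H' i) := isSelfAdjoint_sum _ fun i _ => hsa' i
  have key : cfc f (∑ i, H' i) * oprod (fun i => cfc (W i) (H' i)) =
      oprod (fun i => cfc (W i) (H' i)) := by
    refine abel_ext fun χ => ?_
    rw [map_mul]
    by_cases hz : χ (oprod fun i => cfc (W i) (H' i)) = 0
    · rw [hz, mul_zero]
    rw [map_oprod] at hz ⊢
    have hne : ∀ i, W i (χ (H' i)).re ≠ 0 := fun i h => oprod_eq_zero _ hz i (by
      rw [char_cfc χ (hsa' i) _ (hW i), h, Complex.ofReal_zero])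
    rw [char_cfc χ hS f hf, hone _ ?_ ?_, Complex.ofReal_one, one_mul]
    · rw [map_sum, Complex.re_sum]
      exact Finset.sum_le_sum fun i _ => (hsupp i _ (hne i)).1.le
    · rw [map_sum, Complex.re_sum]
      calc ∑ i, (χ (H' i)).re ≤ ∑ i : Fin n, (lo' i + d) :=
            Finset.sum_le_sum fun i _ => (hsupp i _ (hne i)).2.le
        _ = _ := by simp [Finset.sum_add_distrib]
  have := congrArg (Abel (Set.range H) hc).subtype key
  simp only [map_mul, map_oprod, StarSubalgebra.coe_subtype] at this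
  simp only [coe_cfc _ hS f hf, AddSubmonoidClass.coe_finsetSum] at this
  have e : ∀ i, ((cfc (W i) (H' i) : Abel (Set.range H) hc) : F) = cfc (W i) (H i) :=
    fun i => coe_cfc _ (hsa' i) _ (hW i)
  simp only [e] at this
  exact this

theorem mem_span_of_mul_eq {a P : F} (h : a * P = P) : P ∈ TwoSidedIdeal.span ({a} : Set F) :=
  h ▸ TwoSidedIdeal.mul_mem_right _ _ _ (TwoSidedIdeal.subset_span rfl)

/-- A product of separated pieces lies in the ideal of any periodic plateau function of the sum. -/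
theorem term_mem {N : ℕ} (Hs : Fin N → F) (hsa : ∀ i, IsSelfAdjoint (Hs i))
    (hcH : ∀ i j, Commute (Hs i) (Hs j)) (U V : Fin N → ℝ → ℝ) (s : Fin N → F)
    (hU : ∀ i, Continuous (U i)) (hV : ∀ i, Continuous (V i))
    (hcs : ∀ i j, i ≠ j → Commute (s i) (s j)) (hcHs : ∀ i j, i ≠ j → Commute (Hs i) (s j))
    (A B : Fin N → ℝ) {δ D₀ d L θ : ℝ} (hd : 0 ≤ d)
    (hAs : ∀ i t, U i t ≠ 0 → A i < t ∧ t < A i + d)
    (hBs : ∀ i t, V i t ≠ 0 → B i < t ∧ t < B i + d)
    (hAB : ∀ i, A i + δ / 2 ≤ B i ∧ B i - A i ≤ D₀)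
    (hL : 0 < L) (hN : 4 * L ≤ N * (δ / 2)) (hwidth : D₀ + N * d ≤ L / 2)
    (hθ : θ = 0 ∨ θ = 1) :
    oprod (fun i => cfc (U i) (Hs i) * s i * cfc (V i) (Hs i)) ∈
      TwoSidedIdeal.span ({cfc (plateau L θ) (∑ i, Hs i)} : Set F) := by
  classical
  obtain ⟨n, hn1, hn2⟩ := exists_hit hL (∑ i, A i) (θ + 1 / 4)
    (by rcases hθ with rfl | rfl <;> norm_num) (by rcases hθ with rfl | rfl <;> norm_num)
  set z := (2 * (n : ℝ) + (θ + 1 / 4)) * L with hz
  set S : ℕ → ℝ := fun m => ∑ i : Fin N, if (i : ℕ) < m then B i else A i with hS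
  have hS0 : S 0 = ∑ i, A i := by simp [hS]
  have hSN : z ≤ S N := by
    have : S N = ∑ i, B i := Finset.sum_congr rfl fun i _ => by simp [i.2]
    rw [this]
    have h1 : ∑ i : Fin N, (A i + δ / 2) ≤ ∑ i, B i := Finset.sum_le_sum fun i _ => (hAB i).1
    rw [Finset.sum_add_distrib] at h1
    simp at h1
    linarith
  have hex : ∃ m, z ≤ S m := ⟨N, hSN⟩
  set m := Nat.find hex with hm
  have hm1 : z ≤ S m := Nat.find_spec hex
  have hmN : m ≤ N := Nat.find_le hSN
  have hm0 : 0 < m := by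
    rcases Nat.eq_zero_or_pos m with h | h
    · rw [h, hS0] at hm1; linarith
    · exact h
  have hm2 : S m < z + D₀ := by
    have hprev : S (m - 1) < z := not_le.1 (Nat.find_min hex (by omega))
    have hdiff : S m - S (m - 1) = B ⟨m - 1, by omega⟩ - A ⟨m - 1, by omega⟩ := by
      simp only [hS, ← Finset.sum_sub_distrib]
      rw [Finset.sum_eq_single (⟨m - 1, by omega⟩ : Fin N)]
      · simp [show m - 1 < m by omega]
      · intro i _ hi
        have : (i : ℕ) ≠ m - 1 := fun e => hi (Fin.ext e)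
        by_cases h : (i : ℕ) < m
        · simp [h, show (i : ℕ) < m - 1 by omega]
        · simp [h, show ¬((i : ℕ) < m - 1) by omega]
      · simp
    linarith [(hAB ⟨m - 1, by omega⟩).2]
  set W : Fin N → ℝ → ℝ := fun i => if (i : ℕ) < m then V i else U i with hW
  set lo' : Fin N → ℝ := fun i => if (i : ℕ) < m then B i else A i with hlo
  set Lf : Fin N → F := fun i => if (i : ℕ) < m then cfc (U i) (Hs i) * s i else 1 with hLf
  set Rf : Fin N → F := fun i => if (i : ℕ) < m then 1 else s i * cfc (V i) (Hs i) with hRf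
  set Pf : Fin N → F := fun i => cfc (W i) (Hs i) with hPf
  have hsplit : (fun i => cfc (U i) (Hs i) * s i * cfc (V i) (Hs i)) =
      fun i => Lf i * (Pf i * Rf i) := by
    funext i
    simp only [hLf, hPf, hRf, hW]
    split_ifs <;> simp [mul_assoc]
  have hcc : ∀ i j (f g : ℝ → ℝ), Commute (cfc f (Hs i)) (cfc g (Hs j)) := fun i j f g =>
    ((((hcH i j).cfc_real f).symm.cfc_real g).symm)
  have hcsf : ∀ i j, i ≠ j → ∀ f : ℝ → ℝ, Commute (cfc f (Hs i)) (s j) := fun i j h f =>
    (hcHs i j h).cfc_real f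
  have hPL : ∀ i j, i ≠ j → Commute (Pf i * Rf i) (Lf j) := by
    intro i j hij
    simp only [hLf, hPf, hRf]
    split_ifs
    all_goals first
      | exact Commute.one_right _
      | skip
    · rw [mul_one]
      exact ((hcc i j _ _).mul_right (hcsf i j hij _))
    · exact (((hcc i j _ _).mul_right (hcsf i j hij _)).mul_left
        (((hcsf j i hij.symm _).symm.mul_right (hcs i j hij)).mul_left
          ((hcc i j _ _).mul_right (hcsf i j hij _))))
  have hRP : ∀ i j, i ≠ j → Commute (Rf i) (Pf j) := by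
    intro i j hij
    simp only [hRf, hPf]
    split_ifs
    all_goals first
      | exact Commute.one_left _
      | exact (hcsf j i hij.symm _).symm.mul_left (hcc i j _ _)
  rw [hsplit, oprod_mul Lf _ hPL, oprod_mul Pf Rf hRP]
  refine TwoSidedIdeal.mul_mem_left _ _ _ (TwoSidedIdeal.mul_mem_right _ _ _
    (mem_span_of_mul_eq (plateau_mul Hs hsa hcH W ?_ lo' d ?_ _ (continuous_plateau _ _) ?_)))
  · intro i; simp only [hW]; split_ifs <;> [exact hV i; exact hU i]
  · intro i t ht
    simp only [hW] at ht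
    simp only [hlo]
    split_ifs at ht ⊢ <;> [exact hBs i t ht; exact hAs i t ht]
  · intro t ht1 ht2
    refine plateau_eq_one hL n ?_ ?_
    · have : z ≤ t := hm1.trans ht1
      rw [hz] at this; linarith
    · have : t < z + D₀ + N * d := lt_of_le_of_lt ht2 (by
        change S m + N * d < _; linarith)
      rw [hz] at this; linarith

/-- Two orthogonal full self-adjoint elements. -/
theorem exists_pair [Nontrivial F] (hF : HasCopies F) (H : F) (hH : IsSelfAdjoint H)
    (h : CommFull fun _ : Unit => H) :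
    ∃ a b : F, IsSelfAdjoint a ∧ IsSelfAdjoint b ∧ a * b = 0 ∧
      FullSet ({a} : Set F) ∧ FullSet ({b} : Set F) := by
  classical
  obtain ⟨δ, hδ, D₀, hD₀, hloc⟩ := exists_localized H hH h
  set L : ℝ := 2 * (D₀ + 1) with hL
  have hL0 : 0 < L := by rw [hL]; linarith
  obtain ⟨N, hN⟩ := exists_nat_ge (8 * L / δ)
  rw [div_le_iff₀ hδ] at hN
  set ε : ℝ := min (1 / (2 * (N + 1))) (δ / 4) with hε
  have hε0 : 0 < ε := lt_min (by positivity) (by positivity)
  have hεN : (N : ℝ) * (2 * ε) ≤ 1 := by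
    have : ε ≤ 1 / (2 * (N + 1)) := min_le_left _ _
    rw [le_div_iff₀ (by positivity)] at this
    linarith
  obtain ⟨m, U, V, A, B, p, s, q, hcont, hAs, hBs, hAB, hsum⟩ := hloc ε hε0
    ((min_le_left _ _).trans (by
      rw [div_le_one (by positivity)]; linarith [(Nat.cast_nonneg N : (0 : ℝ) ≤ N)]))
    (by linarith [min_le_right (1 / (2 * ((N : ℝ) + 1))) (δ / 4)])
  set T : Finset F := insert H (Finset.univ.image p ∪ Finset.univ.image s ∪ Finset.univ.image q)
    with hT
  obtain ⟨φ, -, hc⟩ := exists_copies hF T ∅ N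
  set H' : GenAlg T := ⟨H, mem_genAlg (by simp [hT])⟩
  set p' : Fin m → GenAlg T := fun k => ⟨p k, mem_genAlg (by simp [hT])⟩
  set s' : Fin m → GenAlg T := fun k => ⟨s k, mem_genAlg (by simp [hT])⟩
  set q' : Fin m → GenAlg T := fun k => ⟨q k, mem_genAlg (by simp [hT])⟩
  have hH' : IsSelfAdjoint H' := Subtype.ext hH.star_eq
  have hrel : ∑ k, p' k * (cfc (U k) H' * s' k * cfc (V k) H') * q' k = 1 := by
    apply Subtype.ext
    simp only [AddSubmonoidClass.coe_finsetSum, MulMemClass.coe_mul, OneMemClass.coe_one,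
      coe_cfc _ hH' _ (hcont _).1, coe_cfc _ hH' _ (hcont _).2]
    exact hsum
  set Hs : Fin N → F := fun i => φ i H' with hHs
  have hHssa : ∀ i, IsSelfAdjoint (Hs i) := fun i => hH'.map (φ i)
  have hHcomm : ∀ i j, Commute (Hs i) (Hs j) := fun i j => by
    rcases eq_or_ne i j with rfl | h
    · rfl
    · exact hc i j h _ _
  have hSsa : IsSelfAdjoint (∑ i, Hs i) := isSelfAdjoint_sum _ fun i _ => hHssa i
  have hmap : ∀ i (f : ℝ → ℝ), Continuous f → φ i (cfc f H') = cfc f (Hs i) := fun i f hf =>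
    StarAlgHomClass.map_cfc (φ i) f H' hf.continuousOn (map_continuous _) hH' (hHssa i)
  refine ⟨cfc (plateau L 0) (∑ i, Hs i), cfc (plateau L 1) (∑ i, Hs i), cfc_predicate _ _,
    cfc_predicate _ _, ?_, ?_, ?_⟩
  · rw [← cfc_mul _ _ _ (continuous_plateau _ _).continuousOn (continuous_plateau _ _).continuousOn]
    simp only [plateau_orth]
    exact cfc_const_zero ℝ _
  all_goals
    refine fullSet_oprod (κ := Fin m) (fun i k => φ i (p' k)) (fun i k => φ i (q' k))
      (fun i k => cfc (U k) (Hs i) * φ i (s' k) * cfc (V k) (Hs i)) _ ?_ ?_ ?_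
    · intro i
      have := congrArg (φ i) hrel
      simpa [hmap i _ (hcont _).1, hmap i _ (hcont _).2] using this
    · intro i j hij k l
      exact (((hc j i hij.ne' _ _).cfc_real _).mul_left (hc j i hij.ne' _ _) |>.mul_left
        ((hc j i hij.ne' _ _).cfc_real _)).symm
    · intro J
      exact term_mem Hs hHssa hHcomm (fun i => U (J i)) (fun i => V (J i))
        (fun i => φ i (s' (J i))) (fun i => (hcont _).1) (fun i => (hcont _).2)
        (fun i j h => hc i j h _ _) (fun i j h => hc i j h _ _) (fun i => A (J i))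
        (fun i => B (J i)) (δ := δ) (D₀ := D₀) (d := 2 * ε) (by positivity)
        (fun i => hAs (J i)) (fun i => hBs (J i)) (fun i => hAB (J i)) hL0 (by linarith)
        (by rw [hL]; linarith) (by simp)

/-- One full element of square zero. -/
theorem exists_squareZero (hF : HasCopies F) (H a b : F) (hH : IsSelfAdjoint H)
    (h : CommFull fun _ : Unit => H) (hab : a * b = 0)
    (hfa : FullSet ({a} : Set F)) (hfb : FullSet ({b} : Set F)) :
    ∃ X : F, X * X = 0 ∧ FullSet ({X} : Set F) := by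
  classical
  obtain ⟨n, r, r', e, he, hsum⟩ := hfa.exists_sum
  obtain ⟨m, p, q, e', he', hsum'⟩ := h.exists_sum
  choose s hs using he'
  set x : Fin n → F := fun l => b * r l * a with hx
  set T : Finset F := insert H (Finset.univ.image p ∪ Finset.univ.image q ∪
    Finset.univ.image fun k => (s k).2) with hT
  obtain ⟨φ, hS, hc⟩ := exists_copies hF T (Finset.univ.image x) n
  set H' : GenAlg T := ⟨H, mem_genAlg (by simp [hT])⟩
  set p' : Fin m → GenAlg T := fun k => ⟨p k, mem_genAlg (by simp [hT])⟩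
  set q' : Fin m → GenAlg T := fun k => ⟨q k, mem_genAlg (by simp [hT])⟩
  set s' : Fin m → GenAlg T := fun k => ⟨(s k).2, mem_genAlg (by simp [hT])⟩
  have hrel : ∑ k, p' k * (H' * s' k - s' k * H') * q' k = 1 := by
    apply Subtype.ext
    simp only [AddSubmonoidClass.coe_finsetSum, MulMemClass.coe_mul, AddSubgroupClass.coe_sub,
      OneMemClass.coe_one]
    rw [← hsum']
    exact Finset.sum_congr rfl fun k _ => by rw [← hs k]; rfl
  have hxc : ∀ l i y, Commute (x l) (φ i y) := fun l i y =>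
    hS i (x l) (Finset.mem_image_of_mem _ (Finset.mem_univ l)) y
  have hxx : ∀ l l', x l * x l' = 0 := fun l l' => by
    simp only [hx]
    calc b * r l * a * (b * r l' * a) = b * r l * (a * b) * r l' * a := by noncomm_ring
      _ = 0 := by simp [hab]
  set X := ∑ l, x l * φ l H' with hX
  refine ⟨X, ?_, ?_⟩
  · rw [hX, Finset.sum_mul]
    refine Finset.sum_eq_zero fun l _ => ?_
    rw [Finset.mul_sum]
    refine Finset.sum_eq_zero fun l' _ => ?_
    calc x l * φ l H' * (x l' * φ l' H') = x l * (φ l H' * x l') * φ l' H' := by noncomm_ring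
      _ = x l * x l' * (φ l H' * φ l' H') := by rw [← (hxc l' l H').eq]; noncomm_ring
      _ = 0 := by rw [hxx, zero_mul]
  have hcomm : ∀ i y, comm X (φ i y) = x i * comm (φ i H') (φ i y) := by
    intro i y
    rw [hX, comm_sum, Finset.sum_eq_single i]
    · simp only [comm, ← mul_assoc, ← (hxc i i y).eq]; noncomm_ring
    · intro l _ hl
      exact sub_eq_zero.2 (((hxc l i y).mul_left (hc l i hl H' y)).eq)
    · simp
  have hxmem : ∀ i, x i ∈ TwoSidedIdeal.span ({X} : Set F) := by
    intro i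
    have := congrArg (fun z => φ i z) hrel
    simp only [map_sum, map_mul, map_sub, map_one] at this
    have e : x i = ∑ k, φ i (p' k) * comm X (φ i (s' k)) * φ i (q' k) := by
      calc x i = x i * 1 := (mul_one _).symm
        _ = _ := by
          rw [← this, Finset.mul_sum]
          refine Finset.sum_congr rfl fun k _ => ?_
          rw [hcomm i (s' k), ← mul_assoc, ← mul_assoc, (hxc i i (p' k)).eq, comm,
            mul_assoc (φ i (p' k)) (x i)]
    rw [e]
    exact sum_mem fun k _ => TwoSidedIdeal.mul_mem_right _ _ _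
      (TwoSidedIdeal.mul_mem_left _ _ _ (comm_mem ({X} : Set F) (TwoSidedIdeal.subset_span rfl) _))
  refine hfb.trans fun y hy => ?_
  rw [Set.mem_singleton_iff] at hy
  rw [hy]
  have e : b = ∑ l, x l * r' l := by
    calc b = b * 1 := (mul_one _).symm
      _ = _ := by
        rw [← hsum, Finset.mul_sum]
        refine Finset.sum_congr rfl fun l _ => ?_
        have : e l = a := he l
        simp [hx, this, mul_assoc]
  rw [e]
  exact sum_mem fun l _ => TwoSidedIdeal.mul_mem_right _ _ _ (hxmem l)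

end VAgent.P101
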