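import Mathlib
import Vale.Agent.P101.Pair

/-!
Transferring pointwise statements about commuting self-adjoint elements to annihilation statements.
-/

namespace VAgent.P101

open scoped CStarAlgebra
open WeakDual

variable {F : Type*} [CStarAlgebra F]

theorem char_norm_le {L : Type*} [CommCStarAlgebra L] (χ : WeakDual.characterSpace ℂ L) (z : L) :
    ‖χ z‖ ≤ ‖z‖ := by
  calc ‖χ z‖ = ‖gelfandTransform ℂ L z χ‖ := rfl
    _ ≤ ‖gelfandTransform ℂ L z‖ := ContinuousMap.norm_coe_le_norm _ _
    _ = ‖z‖ := (AddMonoidHomClass.isometry_iff_norm _).1 (gelfandTransform_isometry L) z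

theorem norm_le_of_char {L : Type*} [CommCStarAlgebra L] {z : L} {C : ℝ} (hC : 0 ≤ C)
    (h : ∀ χ : WeakDual.characterSpace ℂ L, ‖χ z‖ ≤ C) : ‖z‖ ≤ C := by
  rw [← (AddMonoidHomClass.isometry_iff_norm _).1 (gelfandTransform_isometry L) z]
  exact (ContinuousMap.norm_le _ hC).2 h

/-- If `z` vanishes wherever `k` does, then everything killed by `k` is killed by `z`. -/
theorem kill {S : StarSubalgebra ℂ F} [IsClosed (S : Set F)] (hcomm : ∀ x y : S, x * y = y * x)
    (z k : S) (hk : IsSelfAdjoint k)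
    (h : letI : CommCStarAlgebra S := { StarSubalgebra.cstarAlgebra S with mul_comm := hcomm }
      ∀ χ : WeakDual.characterSpace ℂ S, χ k = 0 → χ z = 0)
    {y : F} (hy : (k : F) * y = 0) : (z : F) * y = 0 := by
  letI : CommCStarAlgebra S := { StarSubalgebra.cstarAlgebra S with mul_comm := hcomm }
  refine norm_eq_zero.1 (le_antisymm (le_of_forall_pos_le_add fun η hη => ?_) (norm_nonneg _))
  rw [zero_add]
  set η' := η / (‖y‖ + 1) with hη'
  have hη'0 : 0 < η' := by positivity
  set K : Set (WeakDual.characterSpace ℂ S) := {χ | η' ≤ ‖χ z‖} with hK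
  have hKc : IsCompact K :=
    (isClosed_le continuous_const (gelfandTransform ℂ S z).continuous.norm).isCompact
  obtain ⟨c, hc, hcK⟩ : ∃ c : ℝ, 0 < c ∧ ∀ χ ∈ K, c ≤ ‖χ k‖ := by
    refine hKc.exists_forall_le' (f := fun χ => ‖χ k‖) (a := (0 : ℝ))
      (gelfandTransform ℂ S k).continuous.norm.continuousOn ?_
    intro χ hχ
    refine norm_pos_iff.2 fun h0 => ?_
    have hχ' : η' ≤ ‖χ z‖ := hχ
    rw [h χ h0, norm_zero] at hχ'
    linarith
  set ε := c * c * η' / (‖z‖ + 1) with hε
  have hε0 : 0 < ε := by positivity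
  have hk2 : IsSelfAdjoint (k * k) := hk.commute_iff hk |>.1 (Commute.refl _)
  have hf : Continuous fun t : ℝ => 1 / (max t 0 + ε) :=
    continuous_const.div (by fun_prop) fun t => by positivity
  set T : S := cfc (fun t : ℝ => 1 / (max t 0 + ε)) (k * k) * k * k with hT
  have hbound : ‖z * (1 - T)‖ ≤ η' := by
    refine norm_le_of_char hη'0.le fun χ => ?_
    rw [map_mul, map_sub, map_one, hT, map_mul, map_mul, char_cfc χ hk2 _ hf, char_re χ hk,
      map_mul, char_re χ hk, ← Complex.ofReal_mul, Complex.ofReal_re, ← Complex.ofReal_mul,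
      ← Complex.ofReal_mul, ← Complex.ofReal_one, ← Complex.ofReal_sub, norm_mul,
      Complex.norm_real, Real.norm_eq_abs]
    set r := (χ k).re with hr
    have hrr : 0 ≤ r * r := mul_self_nonneg r
    rw [Complex.ofReal_re, max_eq_left hrr]
    have e : 1 - 1 / (r * r + ε) * r * r = ε / (r * r + ε) := by field_simp; ring
    rw [e, abs_of_nonneg (by positivity)]
    by_cases hχ : η' ≤ ‖χ z‖
    · have hcr : c ≤ |r| := by
        have := hcK χ hχ
        rw [char_re χ hk, Complex.norm_real, Real.norm_eq_abs] at this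
        exact this
      have hcc : c * c ≤ r * r := by
        rw [← abs_mul_abs_self r]; exact mul_self_le_mul_self hc.le hcr
      calc ‖χ z‖ * (ε / (r * r + ε)) ≤ (‖z‖ + 1) * (ε / (c * c)) := by
            gcongr
            · exact (char_norm_le χ z).trans (by linarith)
            · linarith
        _ = η' := by
          have hzp : ‖z‖ + 1 ≠ 0 := by positivity
          rw [hε]; field_simp
    · push Not at hχ
      calc ‖χ z‖ * (ε / (r * r + ε)) ≤ η' * 1 := by
            gcongr
            rw [div_le_one (by positivity)]; linarith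
        _ = η' := mul_one _
  have hTy : (T : F) * y = 0 := by
    rw [hT, MulMemClass.coe_mul, mul_assoc, hy, mul_zero]
  calc ‖(z : F) * y‖ = ‖((z * (1 - T) : S) : F) * y‖ := by
        rw [MulMemClass.coe_mul, AddSubgroupClass.coe_sub, OneMemClass.coe_one, mul_assoc,
          sub_mul, one_mul, hTy, sub_zero]
    _ ≤ ‖z * (1 - T)‖ * ‖y‖ := norm_mul_le _ _
    _ ≤ η' * ‖y‖ := by gcongr
    _ ≤ η := by
      rw [hη', div_mul_eq_mul_div, div_le_iff₀ (by positivity)]
      nlinarith [norm_nonneg y]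

/-- Version of `kill` for a generated commutative algebra. -/
theorem kill_abel {c : Set F} {hc : CommSA c} (z k : Abel c hc) (hk : IsSelfAdjoint k)
    (h : ∀ χ : WeakDual.characterSpace ℂ (Abel c hc), χ k = 0 → χ z = 0)
    {y : F} (hy : (k : F) * y = 0) : (z : F) * y = 0 :=
  kill (fun a b => mul_comm a b) z k hk h hy

/-- Functional calculus in one variable: `f a` kills what `k a` kills. -/
theorem kill_one {a : F} (ha : IsSelfAdjoint a) (f k : ℝ → ℝ) (hf : Continuous f)
    (hk : Continuous k) (h : ∀ t ∈ spectrum ℝ a, k t = 0 → f t = 0) {y : F}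
    (hy : cfc k a * y = 0) : cfc f a * y = 0 := by
  have hc : CommSA ({a} : Set F) :=
    ⟨fun x hx => (Set.mem_singleton_iff.1 hx) ▸ ha, fun x hx z hz => by
      rw [Set.mem_singleton_iff.1 hx, Set.mem_singleton_iff.1 hz]⟩
  set a' : Abel {a} hc := ⟨a, mem_abel hc rfl⟩ with ha'
  have hsa : IsSelfAdjoint a' := Subtype.ext ha.star_eq
  have e1 := coe_cfc a' hsa f hf
  have e2 := coe_cfc a' hsa k hk
  rw [← e1]
  refine kill_abel _ (cfc k a') (cfc_predicate _ _) (fun χ hχ => ?_) (by rw [e2]; exact hy)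
  rw [char_cfc χ hsa k hk, Complex.ofReal_eq_zero] at hχ
  rw [char_cfc χ hsa f hf, Complex.ofReal_eq_zero]
  refine h _ ?_ hχ
  let ψ : Abel {a} hc →ₐ[ℂ] ℂ := WeakDual.CharacterSpace.toAlgHom χ
  have hm : χ a' ∈ spectrum ℂ a' := AlgHom.apply_mem_spectrum ψ a'
  rw [StarSubalgebra.spectrum_eq, char_re χ hsa] at hm
  exact (spectrum.algebraMap_mem_iff ℂ).1 hm

/-- `f a` acts on a fixed vector of `a` as the scalar `f 1`. -/
theorem cfc_apply_fixed {a : F} (ha : IsSelfAdjoint a) (f : ℝ → ℝ) (hf : Continuous f) {y : F}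
    (hy : a * y = y) : cfc f a * y = algebraMap ℝ F (f 1) * y := by
  have h0 : cfc (fun t : ℝ => 1 - t) a * y = 0 := by
    rw [cfc_sub (fun _ : ℝ => (1 : ℝ)) (fun t => t) a, cfc_const_one ℝ a, cfc_id' ℝ a, sub_mul,
      one_mul, hy, sub_self]
  have := kill_one ha (fun t => f t - f 1) (fun t => 1 - t) (hf.sub continuous_const)
    (by fun_prop) (fun t _ ht => by rw [show t = 1 by linarith]; ring) h0
  rw [cfc_sub f (fun _ => f 1) a hf.continuousOn continuousOn_const, cfc_const (f 1) a, sub_mul,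
    sub_eq_zero] at this
  exact this

end VAgent.P101
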