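import Mathlib
import Vale.Agent.P101.Kill

/-!
Order zero blocks of the 2 by 2 matrices cut out of one full element of square zero.
-/

namespace VAgent.P101

open scoped CStarAlgebra

variable {F : Type*} [CStarAlgebra F]

/-- The sum of the two diagonal pieces of `x`. -/
def diagSum {R : Type*} [Mul R] [Add R] [Star R] (x : R) : R := star x * x + x * star x

theorem isSelfAdjoint_diagSum (x : F) : IsSelfAdjoint (diagSum x) :=
  (IsSelfAdjoint.star_mul_self x).add (IsSelfAdjoint.mul_star_self x)

theorem commute_diagSum {x : F} (hx : x * x = 0) : Commute (diagSum x) x := by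
  change (star x * x + x * star x) * x = x * (star x * x + x * star x)
  rw [add_mul, mul_add, mul_assoc (star x), hx, mul_zero, zero_add, ← mul_assoc x x, hx, zero_mul,
    add_zero, mul_assoc]

theorem commute_diagSum_star {x : F} (hx : x * x = 0) : Commute (diagSum x) (star x) := by
  have := congrArg star (commute_diagSum hx).eq
  rw [star_mul, star_mul, (isSelfAdjoint_diagSum x).star_eq] at this
  exact this.symm

/-- An element of square zero whose diagonal sum has norm at most one, with two self-adjoint
plateau elements of its first diagonal piece. -/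
structure Block (x g g' : F) : Prop where
  sq : x * x = 0
  norm_le : ‖diagSum x‖ ≤ 1
  gsa : star g = g
  gsa' : star g' = g'
  fix : star x * x * g' = g'
  plateau : g' * g = g

theorem Block.fix_g {x g g' : F} (h : Block x g g') : star x * x * g = g := by
  rw [← h.plateau, ← mul_assoc, h.fix]

theorem Block.g_fix {x g g' : F} (h : Block x g g') : g * (star x * x) = g := by
  have := congrArg star h.fix_g
  rwa [star_mul, star_mul, star_star, h.gsa] at this

theorem Block.second_kill {x g g' : F} (h : Block x g g') : x * star x * g' = 0 := by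
  rw [← h.fix, ← mul_assoc (x * star x), mul_assoc x (star x), ← mul_assoc (star x) (star x),
    show star x * star x = 0 by rw [← star_mul, h.sq, star_zero], zero_mul, mul_zero, zero_mul]

theorem Block.diag_fix {x g g' : F} (h : Block x g g') : diagSum x * g' = g' := by
  rw [diagSum, add_mul, h.fix, h.second_kill, add_zero]

theorem Block.gxg {x g g' : F} (h : Block x g g') : g * (x * g) = 0 := by
  calc g * (x * g) = g * (star x * x) * (x * g) := by rw [h.g_fix]
    _ = g * star x * (x * x) * g := by noncomm_ring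
    _ = 0 := by rw [h.sq]; simp

theorem Block.xg_xg {x g g' : F} (h : Block x g g') : star (x * g) * (x * g) = g * g := by
  rw [star_mul, h.gsa]
  calc g * star x * (x * g) = g * (star x * x * g) := by noncomm_ring
    _ = _ := by rw [h.fix_g]

section Build

variable [PartialOrder F] [StarOrderedRing F]

/-- Operator Cauchy-Schwarz for a relation `∑ a b = 1`. -/
theorem one_le_of_sum {n : ℕ} (a b : Fin n → F) (h : ∑ l, a l * b l = 1) :
    (1 : F) ≤ algebraMap ℝ F (n * (∑ l, ‖a l‖ ^ 2 + 1)) * ∑ l, star (b l) * b l := by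
  set K := ∑ l, ‖a l‖ ^ 2 + 1 with hK
  have hK0 : 0 < K := by positivity
  set A : Fin n → F := fun l => a l * b l with hA
  have hcs : ∀ l l', star (A l) * A l' + star (A l') * A l ≤
      star (A l) * A l + star (A l') * A l' := fun l l' => by
    rw [← sub_nonneg]
    have := star_mul_self_nonneg (A l - A l')
    convert this using 1
    simp only [star_sub, sub_mul, mul_sub]; abel
  have e1 : (2 : ℝ) • (star (∑ l, A l) * ∑ l, A l) =
      ∑ l, ∑ l', (star (A l) * A l' + star (A l') * A l) := by
    rw [two_smul, star_sum, Finset.sum_mul_sum]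
    simp only [Finset.sum_add_distrib]
    congr 1
    exact Finset.sum_comm
  have e2 : ∑ l : Fin n, ∑ l' : Fin n, (star (A l) * A l + star (A l') * A l') =
      (2 : ℝ) • ((n : ℝ) • ∑ l, star (A l) * A l) := by
    simp only [Finset.sum_add_distrib, Finset.sum_const, Finset.card_univ, Fintype.card_fin]
    rw [← Finset.smul_sum, two_smul, Nat.cast_smul_eq_nsmul]
  have hsq : (2 : ℝ) • (star (∑ l, A l) * ∑ l, A l) ≤
      (2 : ℝ) • ((n : ℝ) • ∑ l, star (A l) * A l) := by
    rw [e1, ← e2]
    exact Finset.sum_le_sum fun l _ => Finset.sum_le_sum fun l' _ => hcs l l'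
  have h2 : star (∑ l, A l) * ∑ l, A l ≤ (n : ℝ) • ∑ l, star (A l) * A l := by
    have := smul_le_smul_of_nonneg_left hsq (by norm_num : (0 : ℝ) ≤ 1 / 2)
    simpa only [smul_smul, show (1 : ℝ) / 2 * 2 = 1 by norm_num, one_smul,
      ← mul_assoc, one_mul] using this
  have hterm : ∀ l, star (A l) * A l ≤ algebraMap ℝ F K * (star (b l) * b l) := by
    intro l
    have hb : star (a l) * a l ≤ algebraMap ℝ F K := by
      refine (CStarAlgebra.star_mul_le_algebraMap_norm_sq).trans ?_
      refine algebraMap_mono F ?_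
      have := Finset.single_le_sum (f := fun l => ‖a l‖ ^ 2)
        (fun i _ => by positivity) (Finset.mem_univ l)
      linarith
    have := star_left_conjugate_le_conjugate hb (b l)
    calc star (A l) * A l = star (b l) * (star (a l) * a l) * b l := by
          simp only [hA, star_mul]; noncomm_ring
      _ ≤ star (b l) * algebraMap ℝ F K * b l := this
      _ = _ := by rw [← Algebra.commutes, mul_assoc]
  calc (1 : F) = star (∑ l, A l) * ∑ l, A l := by rw [hA, h]; simp
    _ ≤ (n : ℝ) • ∑ l, star (A l) * A l := h2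
    _ ≤ (n : ℝ) • ∑ l, algebraMap ℝ F K * (star (b l) * b l) :=
        smul_le_smul_of_nonneg_left (Finset.sum_le_sum fun l _ => hterm l) (Nat.cast_nonneg n)
    _ = _ := by rw [← Finset.mul_sum, Algebra.smul_def, map_mul, mul_assoc]

/-- A full square `g * g` has unit sum of conjugates. -/
theorem exists_conj {g : F} (hgsa : star g = g) (hgg : FullSet ({g * g} : Set F)) :
    ∃ (n : ℕ) (r : Fin n → F), ∑ l, star (r l) * (g * g) * r l = 1 := by
  -- from fullness to a sum of conjugates
  obtain ⟨n, u, v, e', he', hsum'⟩ := hgg.exists_sum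
  set Z := ∑ l, star (g * v l) * (g * v l) with hZ
  have hZ0 : 0 ≤ Z := Finset.sum_nonneg fun l _ => star_mul_self_nonneg _
  have hZsa : IsSelfAdjoint Z := .of_nonneg hZ0
  have hZu : IsUnit Z := by
    -- Cauchy-Schwarz against the relation
    set K := ∑ l, ‖u l * g‖ ^ 2 + 1 with hK
    have hK0 : 0 < K := by positivity
    have h1 : (1 : F) = ∑ l, u l * g * (g * v l) := by
      rw [← hsum']
      refine Finset.sum_congr rfl fun l _ => ?_
      rw [show e' l = g * g from he' l]; noncomm_ring
    have hle : (1 : F) ≤ algebraMap ℝ F (n * K) * Z :=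
      one_le_of_sum (fun l => u l * g) (fun l => g * v l) h1.symm
    have : IsUnit (algebraMap ℝ F (n * K) * Z) :=
      CStarAlgebra.isUnit_of_le 1 hle isStrictlyPositive_one
    exact ((Commute.isUnit_mul_iff (Algebra.commutes _ Z)).1 this).2
  have hZ' : ∀ t ∈ spectrum ℝ Z, 0 < t := fun t ht =>
    lt_of_le_of_ne (spectrum_nonneg_of_nonneg hZ0 ht)
      (fun h => (spectrum.zero_notMem_iff ℝ).2 hZu (h ▸ ht))
  set S := cfc (fun t : ℝ => 1 / Real.sqrt t) Z with hS
  have hSc : ContinuousOn (fun t : ℝ => 1 / Real.sqrt t) (spectrum ℝ Z) :=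
    continuousOn_const.div Real.continuous_sqrt.continuousOn
      fun t ht => (Real.sqrt_pos.2 (hZ' t ht)).ne'
  refine ⟨n, fun l => v l * S, ?_⟩
  have hSsa : star S = S := (cfc_predicate _ Z : IsSelfAdjoint _).star_eq
  calc ∑ l, star (v l * S) * (g * g) * (v l * S) = S * Z * S := by
        rw [hZ, Finset.mul_sum, Finset.sum_mul]
        refine Finset.sum_congr rfl fun l _ => ?_
        simp only [star_mul, hSsa, hgsa]; noncomm_ring
    _ = cfc (fun t : ℝ => 1 / Real.sqrt t * t * (1 / Real.sqrt t)) Z := by
        rw [cfc_mul (fun t : ℝ => 1 / Real.sqrt t * t) (fun t : ℝ => 1 / Real.sqrt t) Z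
          (hSc.mul continuousOn_id) hSc,
          cfc_mul (fun t : ℝ => 1 / Real.sqrt t) (fun t : ℝ => t) Z hSc continuousOn_id,
          cfc_id' ℝ Z]
    _ = 1 := by
        rw [← cfc_const_one ℝ Z]
        refine cfc_congr fun t ht => ?_
        have h1 := Real.sqrt_pos.2 (hZ' t ht)
        have h2 := Real.mul_self_sqrt (hZ' t ht).le
        field_simp
        nlinarith [h2]


omit [CStarAlgebra F] [PartialOrder F] [StarOrderedRing F] in
theorem plateau_defect_le {η t : ℝ} (hη : 0 < η) (ht : 0 ≤ t) :
    |(1 - max (t - η) 0 * max (t - η) 0 * (1 / (max t η * max t η))) * t *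
      (1 - max (t - η) 0 * max (t - η) 0 * (1 / (max t η * max t η)))| ≤ 4 * η := by
  rcases le_total t η with h | h
  · rw [max_eq_right (sub_nonpos.2 h)]
    simp only [mul_zero, zero_mul, sub_zero, one_mul, mul_one, abs_of_nonneg ht]
    linarith
  · have htp : 0 < t := lt_of_lt_of_le hη h
    rw [max_eq_left (sub_nonneg.2 h), max_eq_left h]
    have e : 1 - (t - η) * (t - η) * (1 / (t * t)) = η * (2 * t - η) / (t * t) := by
      field_simp; ring
    rw [e]
    have hb0 : 0 ≤ η * (2 * t - η) / (t * t) :=
      div_nonneg (mul_nonneg hη.le (by linarith)) (by positivity)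
    have hb : η * (2 * t - η) / (t * t) ≤ 2 * η / t := by
      rw [div_le_div_iff₀ (by positivity) htp]
      nlinarith [mul_pos (mul_pos hη hη) htp]
    rw [abs_of_nonneg (by positivity)]
    calc η * (2 * t - η) / (t * t) * t * (η * (2 * t - η) / (t * t))
        ≤ 2 * η / t * t * (2 * η / t) := by gcongr
      _ = 4 * η * (η / t) := by field_simp; ring
      _ ≤ 4 * η * 1 := by gcongr; rw [div_le_one htp]; exact h
      _ = _ := mul_one _

omit [CStarAlgebra F] [PartialOrder F] [StarOrderedRing F] in
theorem plateau_val {η t : ℝ} (hη : 0 < η) (ht : 0 ≤ t) :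
    0 ≤ 1 / (max t η * Real.sqrt (max t η)) * t * t * (1 / (max t η * Real.sqrt (max t η)) * t) ∧
    1 / (max t η * Real.sqrt (max t η)) * t * t * (1 / (max t η * Real.sqrt (max t η)) * t) ≤ 1 ∧
    (η ≤ t →
      1 / (max t η * Real.sqrt (max t η)) * t * t * (1 / (max t η * Real.sqrt (max t η)) * t)
        = 1) := by
  have hu0 : 0 < max t η := lt_max_of_lt_right hη
  have hGe : 1 / (max t η * Real.sqrt (max t η)) * t * t *
      (1 / (max t η * Real.sqrt (max t η)) * t) = (t / max t η) ^ 3 := by
    have hs : Real.sqrt (max t η) * Real.sqrt (max t η) = max t η := Real.mul_self_sqrt hu0.le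
    have hs' : 0 < Real.sqrt (max t η) := Real.sqrt_pos.2 hu0
    field_simp
    rw [pow_two (Real.sqrt (max t η)), hs]
  rw [hGe]
  refine ⟨by positivity, pow_le_one₀ (by positivity) ?_, fun h => ?_⟩
  · rw [div_le_one hu0]; exact le_max_left _ _
  · rw [max_eq_left h, div_self (by linarith), one_pow]

/-- A block with full plateau, from a full element of square zero. -/
theorem exists_block [Nontrivial F] {X : F} (hX : X * X = 0) (hfull : FullSet ({X} : Set F)) :
    ∃ (x g g' : F) (n : ℕ) (r : Fin n → F), Block x g g' ∧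
      ∑ l, star (r l) * (g * g) * r l = 1 := by
  classical
  set Y : F := algebraMap ℝ F (1 / (‖X‖ + 1)) * X with hY
  have hYsq : Y * Y = 0 := by
    rw [hY]
    calc algebraMap ℝ F (1 / (‖X‖ + 1)) * X * (algebraMap ℝ F (1 / (‖X‖ + 1)) * X) =
        algebraMap ℝ F (1 / (‖X‖ + 1)) * (X * algebraMap ℝ F (1 / (‖X‖ + 1))) * X := by
          noncomm_ring
      _ = algebraMap ℝ F (1 / (‖X‖ + 1)) * algebraMap ℝ F (1 / (‖X‖ + 1)) * (X * X) := by
          rw [← Algebra.commutes]; noncomm_ring
      _ = 0 := by rw [hX, mul_zero]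
  have hYfull : FullSet ({Y} : Set F) := hfull.trans fun y hy => by
    rw [Set.mem_singleton_iff] at hy
    have hne : (‖X‖ + 1) ≠ 0 := by positivity
    have : y = algebraMap ℝ F (‖X‖ + 1) * Y := by
      rw [hy, hY, ← mul_assoc, ← map_mul, mul_one_div_cancel hne, map_one, one_mul]
    rw [this]
    exact TwoSidedIdeal.mul_mem_left _ _ _ (TwoSidedIdeal.subset_span rfl)
  set P := star Y * Y with hP
  have hP0 : 0 ≤ P := star_mul_self_nonneg Y
  have hPsa : IsSelfAdjoint P := IsSelfAdjoint.star_mul_self Y
  have hPY : P * Y = 0 := by rw [hP, mul_assoc, hYsq, mul_zero]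
  obtain ⟨m, a, b, e, he, hsum⟩ := hYfull.exists_sum
  set C := ∑ i, ‖a i‖ * ‖b i‖ with hC
  have hC0 : 0 ≤ C := by positivity
  set η : ℝ := (1 / (4 * (C + 1))) ^ 2 with hη
  have hη0 : 0 < η := by positivity
  -- the functions
  set M : ℝ → ℝ := fun t => 1 / (max t (η / 2) * Real.sqrt (max t (η / 2))) with hM
  have hMc : Continuous M := continuous_const.div (by fun_prop) fun t => by positivity
  set θ : ℝ → ℝ := fun t => M t * t with hθ
  have hθc : Continuous θ := hMc.mul continuous_id
  set gf : ℝ → ℝ := fun t => max (t - η) 0 with hgf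
  have hgfc : Continuous gf := by rw [hgf]; fun_prop
  set gf' : ℝ → ℝ := ramp (η / 2) (η / 2) with hgf'
  have hgfc' : Continuous gf' := continuous_ramp _ _
  set G : ℝ → ℝ := fun t => θ t * t * θ t with hG
  have hθP : cfc θ P = cfc M P * P := by
    rw [hθ, cfc_mul M (fun t => t) P hMc.continuousOn continuous_id.continuousOn, cfc_id' ℝ P]
  set x := Y * cfc θ P with hx
  have hxsq : x * x = 0 := by
    calc x * x = Y * (cfc M P * (P * Y)) * cfc θ P := by rw [hx, hθP]; noncomm_ring
      _ = 0 := by rw [hPY]; simp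
  have hxx : star x * x = cfc G P := by
    rw [hx, star_mul, (cfc_predicate θ P : IsSelfAdjoint _).star_eq, hG,
      cfc_mul (fun t => θ t * t) θ P (hθc.mul continuous_id).continuousOn hθc.continuousOn,
      cfc_mul θ (fun t => t) P hθc.continuousOn continuous_id.continuousOn, cfc_id' ℝ P, hP]
    noncomm_ring
  have hGval : ∀ t, 0 ≤ t → 0 ≤ G t ∧ G t ≤ 1 ∧ (η / 2 ≤ t → G t = 1) := fun t ht =>
    plateau_val (half_pos hη0) ht
  have hαn : ‖star x * x‖ ≤ 1 := by
    rw [hxx]
    refine norm_cfc_le zero_le_one fun t ht => ?_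
    obtain ⟨h0, h1, -⟩ := hGval t (spectrum_nonneg_of_nonneg hP0 ht)
    rwa [Real.norm_eq_abs, abs_of_nonneg h0]
  have hβn : ‖x * star x‖ ≤ 1 := by
    rw [CStarRing.norm_self_mul_star, ← CStarRing.norm_star_mul_self]; exact hαn
  have hnorm : ‖diagSum x‖ ≤ 1 := by
    set α := star x * x
    set β := x * star x
    have hαβ : α * β = 0 := by
      calc α * β = star x * (x * x) * star x := by simp only [α, β]; noncomm_ring
        _ = 0 := by rw [hxsq]; simp
    have hβα : β * α = 0 := by
      have := congrArg star hαβ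
      rwa [star_mul, star_zero, (IsSelfAdjoint.star_mul_self x).star_eq,
        (IsSelfAdjoint.mul_star_self x).star_eq] at this
    have hc : CommSA ({α, β} : Set F) := by
      refine ⟨?_, ?_⟩
      · rintro z (rfl | rfl)
        · exact IsSelfAdjoint.star_mul_self x
        · exact IsSelfAdjoint.mul_star_self x
      · rintro z (rfl | rfl) w (rfl | rfl)
        · exact Commute.refl _
        · exact hαβ.trans hβα.symm
        · exact hβα.trans hαβ.symm
        · exact Commute.refl _
    set α' : Abel ({α, β} : Set F) hc := ⟨α, mem_abel hc (Or.inl rfl)⟩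
    set β' : Abel ({α, β} : Set F) hc := ⟨β, mem_abel hc (Or.inr rfl)⟩
    have h0 : α' * β' = 0 := Subtype.ext hαβ
    change ‖α' + β'‖ ≤ 1
    refine norm_le_of_char zero_le_one fun χ => ?_
    rw [map_add]
    rcases mul_eq_zero.1 ((map_mul χ α' β').symm.trans (by rw [h0, map_zero])) with h | h
    · rw [h, zero_add]; exact (char_norm_le χ β').trans hβn
    · rw [h, add_zero]; exact (char_norm_le χ α').trans hαn
  have hfix : star x * x * cfc gf' P = cfc gf' P := by
    have hGc : Continuous G := (hθc.mul continuous_id).mul hθc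
    rw [hxx, ← cfc_mul G gf' P hGc.continuousOn hgfc'.continuousOn]
    refine cfc_congr fun t ht => ?_
    have ht0 := spectrum_nonneg_of_nonneg hP0 ht
    rcases le_total t (η / 2) with h | h
    · simp only [hgf', ramp_of_le (half_pos hη0) h, mul_zero]
    · simp only [(hGval t ht0).2.2 h, one_mul]
  have hplat : cfc gf' P * cfc gf P = cfc gf P := by
    rw [← cfc_mul gf' gf P hgfc'.continuousOn hgfc.continuousOn]
    refine cfc_congr fun t _ => ?_
    rcases le_total t η with h | h
    · simp only [hgf, max_eq_right (sub_nonpos.2 h), mul_zero]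
    · simp only [hgf', ramp_of_ge (half_pos hη0) (by linarith : η / 2 + η / 2 ≤ t), one_mul]
  -- fullness of the plateau
  set g := cfc gf P with hg
  have hgsa : IsSelfAdjoint g := cfc_predicate _ _
  have hgg : FullSet ({g * g} : Set F) := by
    set R : ℝ → ℝ := fun t => 1 / (max t η * max t η) with hR
    have hRc : Continuous R := continuous_const.div (by fun_prop) fun t => by
      have : 0 < max t η := lt_max_of_lt_right hη0
      positivity
    set ρ : ℝ → ℝ := fun t => gf t * gf t * R t with hρ
    have hρc : Continuous ρ := (hgfc.mul hgfc).mul hRc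
    have hρe : cfc ρ P = g * g * cfc R P := by
      rw [hg, hρ, cfc_mul (fun t => gf t * gf t) R P (hgfc.mul hgfc).continuousOn hRc.continuousOn,
        cfc_mul gf gf P hgfc.continuousOn hgfc.continuousOn]
    set u : ℝ → ℝ := fun t => 1 - ρ t with hu
    have huc : Continuous u := continuous_const.sub hρc
    have hYd : ‖Y - Y * cfc ρ P‖ ≤ 1 / (2 * (C + 1)) := by
      have e : Y - Y * cfc ρ P = Y * cfc u P := by
        rw [hu, cfc_sub (fun _ : ℝ => (1 : ℝ)) ρ P continuousOn_const hρc.continuousOn,
          cfc_const_one ℝ P, mul_sub, mul_one]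
      have e2 : star (Y * cfc u P) * (Y * cfc u P) = cfc (fun t => u t * t * u t) P := by
        rw [star_mul, (cfc_predicate u P : IsSelfAdjoint _).star_eq,
          cfc_mul (fun t => u t * t) u P (huc.mul continuous_id).continuousOn huc.continuousOn,
          cfc_mul u (fun t => t) P huc.continuousOn continuous_id.continuousOn, cfc_id' ℝ P, hP]
        noncomm_ring
      have h2 : ‖Y * cfc u P‖ ^ 2 ≤ (1 / (2 * (C + 1))) ^ 2 := by
        rw [sq, ← CStarRing.norm_star_mul_self, e2]
        refine (norm_cfc_le (by positivity : (0 : ℝ) ≤ 4 * η) fun t ht => ?_).trans_eq ?_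
        · rw [Real.norm_eq_abs]
          exact plateau_defect_le hη0 (spectrum_nonneg_of_nonneg hP0 ht)
        · rw [hη]; field_simp; ring
      rw [e]
      exact le_of_pow_le_pow_left₀ two_ne_zero (by positivity) h2
    refine fullSet_of_norm_lt _ (z := ∑ i, a i * (Y * cfc ρ P) * b i) (sum_mem fun i _ => ?_) ?_
    · refine TwoSidedIdeal.mul_mem_right _ _ _ (TwoSidedIdeal.mul_mem_left _ _ _ ?_)
      rw [hρe]
      exact TwoSidedIdeal.mul_mem_left _ _ _
        (TwoSidedIdeal.mul_mem_right _ _ _ (TwoSidedIdeal.subset_span rfl))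
    · rw [← hsum, ← Finset.sum_sub_distrib]
      calc ‖∑ i, (a i * e i * b i - a i * (Y * cfc ρ P) * b i)‖
          ≤ ∑ i, ‖a i‖ * ‖b i‖ * (1 / (2 * (C + 1))) := by
            refine (norm_sum_le _ _).trans (Finset.sum_le_sum fun i _ => ?_)
            rw [show e i = Y from he i,
              show a i * Y * b i - a i * (Y * cfc ρ P) * b i =
                a i * (Y - Y * cfc ρ P) * b i by noncomm_ring]
            calc ‖a i * (Y - Y * cfc ρ P) * b i‖ ≤ ‖a i‖ * ‖Y - Y * cfc ρ P‖ * ‖b i‖ := norm_mul₃_le
              _ ≤ ‖a i‖ * (1 / (2 * (C + 1))) * ‖b i‖ := by gcongr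
              _ = _ := by ring
        _ = C / (2 * (C + 1)) := by rw [← Finset.sum_mul, ← hC]; ring
        _ < 1 := by rw [div_lt_one (by positivity)]; linarith
  obtain ⟨n, r, hr⟩ := exists_conj hgsa.star_eq hgg
  exact ⟨x, g, cfc gf' P, n, r,
    ⟨hxsq, hnorm, hgsa.star_eq, (cfc_predicate gf' P : IsSelfAdjoint _).star_eq, hfix, hplat⟩, hr⟩

end Build

end VAgent.P101
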