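import Vale.Agent.P101.ModelHom

/-!
# P101: the standard dimension drop algebra

`exists_dimDrop_hom`: the relations give a unital *-homomorphism out of `DimDrop n`;
`dimDrop_no_character`: `DimDrop n` has no characters for `n ≥ 2`.
-/

namespace Vale.Agent.P101

open scoped ComplexOrder CStarAlgebra Topology Kronecker

noncomputable section

set_option linter.unusedSectionVars false

variable {n : ℕ}

open DDRel in
/-- The flip of the two coordinates on the block `n × n`. -/
def flip' (c : DDIx n) : DDIx n := (D2 c, D1 c)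

theorem flip'_flip' (c : DDIx n) : flip' (flip' c) = c := by
  rcases c with ⟨i, _ | k⟩ <;> rfl

/-- The permutation matrix of the flip. -/
def flipM : CStarMatrix (DDIx n) (DDIx n) ℂ :=
  CStarMatrix.ofMatrix (Matrix.of fun a c => if flip' a = c then 1 else 0)

theorem flipM_apply (a c : DDIx n) : (flipM : CStarMatrix (DDIx n) (DDIx n) ℂ) a c
    = if flip' a = c then 1 else 0 := rfl

theorem flipM_mul (M : CStarMatrix (DDIx n) (DDIx n) ℂ) (a c : DDIx n) :
    ((flipM : CStarMatrix (DDIx n) (DDIx n) ℂ) * M) a c = M (flip' a) c := by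
  simp [CStarMatrix.mul_apply, flipM_apply, ite_mul]

theorem mul_flipM (M : CStarMatrix (DDIx n) (DDIx n) ℂ) (a c : DDIx n) :
    (M * (flipM : CStarMatrix (DDIx n) (DDIx n) ℂ)) a c = M a (flip' c) := by
  rw [CStarMatrix.mul_apply, Finset.sum_eq_single (flip' c)]
  · simp [flipM_apply, flip'_flip']
  · intro b _ hb
    rw [flipM_apply, if_neg fun h => hb (by rw [← h, flip'_flip']), mul_zero]
  · simp

theorem flipM_sq : (flipM : CStarMatrix (DDIx n) (DDIx n) ℂ) * flipM = 1 := by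
  refine CStarMatrix.ext fun a c => ?_
  rw [flipM_mul, flipM_apply, flip'_flip', CStarMatrix.one_apply]

theorem flipM_star : star (flipM : CStarMatrix (DDIx n) (DDIx n) ℂ) = flipM := by
  refine CStarMatrix.ext fun a c => ?_
  rw [CStarMatrix.star_apply, flipM_apply, flipM_apply]
  by_cases h : flip' a = c
  · rw [if_pos h, if_pos (by rw [← h, flip'_flip'])]; simp
  · rw [if_neg h, if_neg fun h' => h (by rw [← h', flip'_flip'])]; simp

/-- A unitary path from `1` to the flip. -/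
def rot (t : unitInterval) : CStarMatrix (DDIx n) (DDIx n) ℂ :=
  ((1 + Complex.exp (Real.pi * (t : ℝ) * Complex.I)) / 2) • (1 : CStarMatrix (DDIx n) (DDIx n) ℂ)
    + ((1 - Complex.exp (Real.pi * (t : ℝ) * Complex.I)) / 2) • flipM

theorem continuous_rot : Continuous (rot : unitInterval → CStarMatrix (DDIx n) (DDIx n) ℂ) := by
  unfold rot; fun_prop

theorem rot_star_mul (t : unitInterval) :
    star (rot t : CStarMatrix (DDIx n) (DDIx n) ℂ) * rot t = 1 := by
  set z := Complex.exp (Real.pi * (t : ℝ) * Complex.I) with hz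
  have hzz : (starRingEnd ℂ) z * z = 1 := by
    rw [hz, ← Complex.exp_conj, ← Complex.exp_add]
    simp
  have h1 : (starRingEnd ℂ) ((1 + z) / 2) * ((1 + z) / 2) +
      (starRingEnd ℂ) ((1 - z) / 2) * ((1 - z) / 2) = 1 := by
    simp only [map_div₀, map_add, map_sub, map_one, map_ofNat]
    linear_combination (1 / 2 : ℂ) * hzz
  have h2 : (starRingEnd ℂ) ((1 + z) / 2) * ((1 - z) / 2) +
      (starRingEnd ℂ) ((1 - z) / 2) * ((1 + z) / 2) = 0 := by
    simp only [map_div₀, map_add, map_sub, map_one, map_ofNat]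
    linear_combination (-1 / 2 : ℂ) * hzz
  simp only [rot, ← hz, star_add, star_smul, star_one, flipM_star, add_mul, mul_add,
    smul_mul_smul_comm, one_mul, mul_one, flipM_sq, Complex.star_def]
  calc _ = ((starRingEnd ℂ) ((1 + z) / 2) * ((1 + z) / 2) +
        (starRingEnd ℂ) ((1 - z) / 2) * ((1 - z) / 2)) • (1 : CStarMatrix (DDIx n) (DDIx n) ℂ) +
      ((starRingEnd ℂ) ((1 + z) / 2) * ((1 - z) / 2) +
        (starRingEnd ℂ) ((1 - z) / 2) * ((1 + z) / 2)) • flipM := by
          simp only [add_smul]; abel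
    _ = 1 := by rw [h1, h2, one_smul, zero_smul, add_zero]

theorem rot_mul_star (t : unitInterval) :
    (rot t : CStarMatrix (DDIx n) (DDIx n) ℂ) * star (rot t) = 1 := by
  have hc : Commute (rot t : CStarMatrix (DDIx n) (DDIx n) ℂ) (star (rot t)) := by
    simp only [rot, star_add, star_smul, star_one, flipM_star]
    refine Commute.add_left (Commute.smul_left (Commute.one_left _) _) (Commute.smul_left ?_ _)
    exact (Commute.smul_right (Commute.one_right _) _).add_right
      (Commute.smul_right (Commute.refl _) _)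
  rw [hc.eq, rot_star_mul]

theorem rot_zero : (rot 0 : CStarMatrix (DDIx n) (DDIx n) ℂ) = 1 := by
  simp [rot]

theorem rot_one : (rot 1 : CStarMatrix (DDIx n) (DDIx n) ℂ) = flipM := by
  simp [rot, Complex.exp_pi_mul_I]

/-- Identification of the index sets. -/
def ixEquiv (n : ℕ) : Fin n × Fin (n + 1) ≃ DDIx n :=
  Equiv.prodCongr (Equiv.refl _) (finSuccEquiv n)

/-- Reindexing. -/
def reix (n : ℕ) : CStarMatrix (Fin n × Fin (n + 1)) (Fin n × Fin (n + 1)) ℂ ≃⋆ₐ[ℂ]
    CStarMatrix (DDIx n) (DDIx n) ℂ :=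
  CStarMatrix.reindexₐ ℂ ℂ (ixEquiv n)

theorem reix_apply (M : CStarMatrix (Fin n × Fin (n + 1)) (Fin n × Fin (n + 1)) ℂ) (a c : DDIx n) :
    reix n M a c = M ((ixEquiv n).symm a) ((ixEquiv n).symm c) := rfl

theorem reix_one : reix n 1 = 1 := by
  refine CStarMatrix.ext fun a c => ?_
  rw [reix_apply, CStarMatrix.one_apply, CStarMatrix.one_apply]
  simp

/-- The untwisting map on paths. -/
def untwist (f : DDPath (Fin n × Fin (n + 1))) : DDPath (DDIx n) :=
  ⟨fun t => rot t * reix n (f t) * star (rot t), by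
    have hre : Continuous (reix n) := by
      refine CStarMatrix.ofMatrixL.continuous.comp (continuous_matrix fun a c => ?_)
      exact (CStarMatrix.ofMatrixL.symm.continuous).matrix_elem _ _
    exact (continuous_rot.mul (hre.comp f.continuous)).mul continuous_rot.star⟩

theorem untwist_apply (f : DDPath (Fin n × Fin (n + 1))) (t : unitInterval) :
    untwist f t = rot t * reix n (f t) * star (rot t) := rfl

theorem untwist_mem [NeZero n] {f : DDPath (Fin n × Fin (n + 1))} (hf : f ∈ DimDrop n) :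
    untwist f ∈ DDRel.twisted (n := n) := by
  obtain ⟨⟨a, ha⟩, b, hb⟩ := hf
  have h0 : untwist f 0 = DDRel.Mα a := by
    rw [untwist_apply, rot_zero, one_mul, star_one, mul_one, ha]
    refine CStarMatrix.ext fun c c' => ?_
    change a ((ixEquiv n).symm c).1 ((ixEquiv n).symm c').1 *
      (1 : Matrix (Fin (n+1)) (Fin (n+1)) ℂ) ((ixEquiv n).symm c).2 ((ixEquiv n).symm c').2 = _
    simp [ixEquiv, DDRel.Mα_apply, Matrix.one_apply]
  have h1 : untwist f 1 = DDRel.Mψ (b.submatrix (finSuccEquiv n).symm (finSuccEquiv n).symm) := by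
    rw [untwist_apply, rot_one, flipM_star, hb]
    refine CStarMatrix.ext fun c c' => ?_
    rw [mul_flipM, flipM_mul]
    change (1 : Matrix (Fin n) (Fin n) ℂ) ((ixEquiv n).symm (flip' c)).1
        ((ixEquiv n).symm (flip' c')).1 *
      b ((ixEquiv n).symm (flip' c)).2 ((ixEquiv n).symm (flip' c')).2 = _
    simp [ixEquiv, flip', DDRel.Mψ_apply, Matrix.one_apply]
  exact ⟨by rw [DDRel.Ag_of h0, h0], by rw [DDRel.Bg_of h1, h1]⟩

/-- Untwisting as a *-homomorphism. -/
def untwistHom (n : ℕ) [NeZero n] : DimDrop n →⋆ₐ[ℂ] DDRel.twisted (n := n) where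
  toFun f := ⟨untwist f.1, untwist_mem f.2⟩
  map_one' := by
    refine Subtype.ext (ContinuousMap.ext fun t => ?_)
    change rot t * reix n 1 * star (rot t) = 1
    rw [reix_one, mul_one, rot_mul_star]
  map_mul' f g := by
    refine Subtype.ext (ContinuousMap.ext fun t => ?_)
    change rot t * reix n (f.1 t * g.1 t) * star (rot t) =
      rot t * reix n (f.1 t) * star (rot t) * (rot t * reix n (g.1 t) * star (rot t))
    simp only [map_mul, mul_assoc]
    rw [← mul_assoc (star (rot t)) (rot t), rot_star_mul, one_mul]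
  map_zero' := by
    refine Subtype.ext (ContinuousMap.ext fun t => ?_)
    change rot t * reix n 0 * star (rot t) = 0
    simp
  map_add' f g := by
    refine Subtype.ext (ContinuousMap.ext fun t => ?_)
    change rot t * reix n (f.1 t + g.1 t) * star (rot t) =
      rot t * reix n (f.1 t) * star (rot t) + rot t * reix n (g.1 t) * star (rot t)
    rw [map_add, mul_add, add_mul]
  commutes' r := by
    rw [Algebra.algebraMap_eq_smul_one, Algebra.algebraMap_eq_smul_one]
    refine Subtype.ext (ContinuousMap.ext fun t => ?_)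
    change rot t * reix n (r • 1) * star (rot t) = r • 1
    rw [map_smul, reix_one, mul_smul_comm, smul_mul_assoc, mul_one, rot_mul_star]
  map_star' f := by
    refine Subtype.ext (ContinuousMap.ext fun t => ?_)
    change rot t * reix n (star (f.1 t)) * star (rot t) =
      star (rot t * reix n (f.1 t) * star (rot t))
    simp [map_star, mul_assoc]

/-- The relations give a unital *-homomorphism out of the dimension drop algebra. -/
theorem exists_dimDrop_hom [NeZero n] {F : Type*} [CStarAlgebra F] [PartialOrder F]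
    [StarOrderedRing F] (R : DDRel n F) : Nonempty (DimDrop n →⋆ₐ[ℂ] F) := by
  obtain ⟨Φ⟩ := DDRel.exists_hom R
  exact ⟨Φ.comp (untwistHom n)⟩

/-! ### No characters -/

theorem order_zero_eq_zero {ι : Type} [Fintype ι] [DecidableEq ι] [Nontrivial ι]
    (φ : Matrix ι ι ℂ →ₗ[ℂ] ℂ) (h : ∀ a b, φ a * φ b = φ 1 * φ (a * b)) : φ 1 = 0 := by
  have hd : ∀ j, φ 1 * φ (Matrix.single j j 1) = 0 := fun j => by
    obtain ⟨i, hi⟩ := exists_ne j
    have h0 : φ (Matrix.single i j 1) = 0 := by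
      have := h (Matrix.single i j 1) (Matrix.single i j 1)
      rw [Matrix.single_mul_single_of_ne _ _ _ _ hi.symm, map_zero, mul_zero] at this
      exact mul_self_eq_zero.1 this
    have := h (Matrix.single j i 1) (Matrix.single i j 1)
    rw [h0, mul_zero, Matrix.single_mul_single_same, one_mul] at this
    exact this.symm
  have : φ 1 * φ 1 = 0 := by
    conv_lhs => enter [2]; rw [show (1 : Matrix ι ι ℂ) = ∑ j, Matrix.single j j 1 by
      ext a b
      simp [Matrix.sum_apply, Matrix.single_apply, Matrix.one_apply, ite_and]]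
    rw [map_sum, Finset.mul_sum]
    exact Finset.sum_eq_zero fun j _ => hd j
  exact mul_self_eq_zero.1 this

/-- `t ↦ (1 - t) (a ⊗ 1)`. -/
def fA (n : ℕ) : Matrix (Fin n) (Fin n) ℂ →ₗ[ℂ] DimDrop n where
  toFun a := ⟨⟨fun t => ((1 : ℂ) - (t : ℝ)) • toC _ (a ⊗ₖ (1 : Matrix (Fin (n+1)) (Fin (n+1)) ℂ)),
      by fun_prop⟩,
    ⟨a, by simp⟩, 0, by simp⟩
  map_add' a b := Subtype.ext (ContinuousMap.ext fun t => by
    change ((1 : ℂ) - (t : ℝ)) • toC _ ((a + b) ⊗ₖ (1 : Matrix (Fin (n+1)) (Fin (n+1)) ℂ)) = _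
    rw [Matrix.add_kronecker, map_add, smul_add]; rfl)
  map_smul' r a := Subtype.ext (ContinuousMap.ext fun t => by
    change ((1 : ℂ) - (t : ℝ)) • toC _ ((r • a) ⊗ₖ (1 : Matrix (Fin (n+1)) (Fin (n+1)) ℂ)) = _
    rw [Matrix.smul_kronecker, map_smul, smul_comm]; rfl)

/-- `t ↦ t (1 ⊗ b)`. -/
def gB (n : ℕ) : Matrix (Fin (n+1)) (Fin (n+1)) ℂ →ₗ[ℂ] DimDrop n where
  toFun b := ⟨⟨fun t => ((t : ℝ) : ℂ) • toC _ ((1 : Matrix (Fin n) (Fin n) ℂ) ⊗ₖ b), by fun_prop⟩,
    ⟨0, by simp; exact zero_smul ℂ _⟩, b, by simp; exact one_smul ℂ _⟩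
  map_add' a b := Subtype.ext (ContinuousMap.ext fun t => by
    change ((t : ℝ) : ℂ) • toC _ ((1 : Matrix (Fin n) (Fin n) ℂ) ⊗ₖ (a + b)) = _
    rw [Matrix.kronecker_add, map_add, smul_add]; rfl)
  map_smul' r a := Subtype.ext (ContinuousMap.ext fun t => by
    change ((t : ℝ) : ℂ) • toC _ ((1 : Matrix (Fin n) (Fin n) ℂ) ⊗ₖ (r • a)) = _
    rw [Matrix.kronecker_smul, map_smul, smul_comm]; rfl)

/-- `DimDrop n` has no characters for `n ≥ 2`. -/
theorem dimDrop_no_character (hn : 2 ≤ n) : IsEmpty (DimDrop n →⋆ₐ[ℂ] ℂ) := by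
  refine ⟨fun χ => ?_⟩
  haveI : Nontrivial (Fin n) := Fin.nontrivial_iff_two_le.2 hn
  haveI : Nontrivial (Fin (n + 1)) := Fin.nontrivial_iff_two_le.2 (by omega)
  have e1 : ∀ a b, fA n a * fA n b = fA n 1 * fA n (a * b) := fun a b =>
    Subtype.ext (ContinuousMap.ext fun t => by
      change ((1 : ℂ) - (t : ℝ)) • toC _ (a ⊗ₖ (1 : Matrix (Fin (n+1)) (Fin (n+1)) ℂ)) *
          (((1 : ℂ) - (t : ℝ)) • toC _ (b ⊗ₖ (1 : Matrix (Fin (n+1)) (Fin (n+1)) ℂ))) =
        ((1 : ℂ) - (t : ℝ)) • toC _ ((1 : Matrix (Fin n) (Fin n) ℂ) ⊗ₖ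
          (1 : Matrix (Fin (n+1)) (Fin (n+1)) ℂ)) *
          (((1 : ℂ) - (t : ℝ)) • toC _ ((a * b) ⊗ₖ (1 : Matrix (Fin (n+1)) (Fin (n+1)) ℂ)))
      simp only [smul_mul_smul_comm, ← map_mul, ← Matrix.mul_kronecker_mul, one_mul])
  have e2 : ∀ a b, gB n a * gB n b = gB n 1 * gB n (a * b) := fun a b =>
    Subtype.ext (ContinuousMap.ext fun t => by
      change ((t : ℝ) : ℂ) • toC _ ((1 : Matrix (Fin n) (Fin n) ℂ) ⊗ₖ a) *
          (((t : ℝ) : ℂ) • toC _ ((1 : Matrix (Fin n) (Fin n) ℂ) ⊗ₖ b)) =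
        ((t : ℝ) : ℂ) • toC _ ((1 : Matrix (Fin n) (Fin n) ℂ) ⊗ₖ
          (1 : Matrix (Fin (n+1)) (Fin (n+1)) ℂ)) *
          (((t : ℝ) : ℂ) • toC _ ((1 : Matrix (Fin n) (Fin n) ℂ) ⊗ₖ (a * b)))
      simp only [smul_mul_smul_comm, ← map_mul, ← Matrix.mul_kronecker_mul, one_mul])
  have a0 := order_zero_eq_zero (χ.toAlgHom.toLinearMap ∘ₗ fA n) fun a b => by
    change χ _ * χ _ = χ _ * χ _
    rw [← map_mul χ, ← map_mul χ, e1]
  have b0 := order_zero_eq_zero (χ.toAlgHom.toLinearMap ∘ₗ gB n) fun a b => by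
    change χ _ * χ _ = χ _ * χ _
    rw [← map_mul χ, ← map_mul χ, e2]
  have hsum : fA n 1 + gB n 1 = 1 := Subtype.ext (ContinuousMap.ext fun t => by
    change ((1 : ℂ) - (t : ℝ)) • toC _ ((1 : Matrix (Fin n) (Fin n) ℂ) ⊗ₖ
        (1 : Matrix (Fin (n+1)) (Fin (n+1)) ℂ)) +
      ((t : ℝ) : ℂ) • toC _ ((1 : Matrix (Fin n) (Fin n) ℂ) ⊗ₖ
        (1 : Matrix (Fin (n+1)) (Fin (n+1)) ℂ)) = 1
    rw [Matrix.one_kronecker_one, map_one, ← add_smul, sub_add_cancel, one_smul])
  have h1 : χ (fA n 1) + χ (gB n 1) = 1 := by exact (χ.toAlgHom.map_add _ _).symm.trans ((congrArg χ hsum).trans χ.toAlgHom.map_one)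
  rw [show χ (fA n 1) = 0 from a0, show χ (gB n 1) = 0 from b0, add_zero] at h1
  exact zero_ne_one h1

end

end Vale.Agent.P101
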