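import Mathlib
import Vale.Agent.P101.Block
import Vale.Agent.P101.Absorb
import Vale.Agent.P101.ModelStd

/-!
Gluing: commuting copies of one full square-zero block give the coordinates needed by the
absorption theorem, hence unital homomorphisms out of every dimension drop algebra.
-/

namespace VAgent.P101

open scoped CStarAlgebra
open Vale.Agent.P101 (OZ Coord DimDrop DDRel)

section Algebraic

variable {F : Type*} [CStarAlgebra F]

/-- The sum of the diagonal pieces, as a square root. -/
noncomputable def rootSum (x : F) : F := cfc Real.sqrt (diagSum x)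

/-- Matrix units of the scaled order zero map of a block. -/
noncomputable def unitTwo (x : F) : Fin 2 → Fin 2 → F :=
  ![![star x * x, rootSum x * star x], ![x * rootSum x, x * star x]]

variable [PartialOrder F] [StarOrderedRing F] {x : F}

theorem unitTwo_star (i j : Fin 2) : star (unitTwo x i j) = unitTwo x j i := by
  have hs : star (rootSum x) = rootSum x := (cfc_predicate _ _ : IsSelfAdjoint _).star_eq
  fin_cases i <;> fin_cases j <;> simp [unitTwo, star_mul, hs]

theorem rootSum_sq (x : F) : rootSum x * rootSum x = diagSum x := by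
  have hp : 0 ≤ diagSum x := add_nonneg (star_mul_self_nonneg x) (mul_star_self_nonneg x)
  rw [rootSum, ← cfc_mul Real.sqrt Real.sqrt _ Real.continuous_sqrt.continuousOn
    Real.continuous_sqrt.continuousOn]
  conv_rhs => rw [← cfc_id' ℝ (diagSum x) (IsSelfAdjoint.of_nonneg hp)]
  exact cfc_congr fun t ht => Real.mul_self_sqrt (spectrum_nonneg_of_nonneg hp ht)

theorem unitTwo_mul (hx : x * x = 0) (i j k l : Fin 2) :
    unitTwo x i j * unitTwo x k l =
      if j = k then unitTwo x i l * ∑ m, unitTwo x m m else 0 := by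
  have hxs : star x * star x = 0 := by rw [← star_mul, hx, star_zero]
  have hsx : Commute (rootSum x) x := (commute_diagSum hx).cfc_real _
  have hsx' : Commute (rootSum x) (star x) := (commute_diagSum_star hx).cfc_real _
  have hss := rootSum_sq x
  have px : ∀ X : F, x * (x * X) = 0 := fun X => by rw [← mul_assoc, hx, zero_mul]
  have pxs : ∀ X : F, star x * (star x * X) = 0 := fun X => by rw [← mul_assoc, hxs, zero_mul]
  have ax : ∀ X : F, x * (rootSum x * X) = rootSum x * (x * X) := fun X => by
    rw [← mul_assoc, ← hsx.eq, mul_assoc]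
  have axs : ∀ X : F, star x * (rootSum x * X) = rootSum x * (star x * X) := fun X => by
    rw [← mul_assoc, ← hsx'.eq, mul_assoc]
  have sq : ∀ X : F, rootSum x * (rootSum x * X) =
      star x * (x * X) + x * (star x * X) := fun X => by
    rw [← mul_assoc, hss, diagSum, add_mul, mul_assoc, mul_assoc]
  have hs2 : rootSum x * rootSum x = star x * x + x * star x := hss
  fin_cases i <;> fin_cases j <;> fin_cases k <;> fin_cases l <;>
    simp [unitTwo, mul_assoc, mul_add, hsx.symm.eq, hsx'.symm.eq, ax, axs, px, pxs, hx, hxs, sq,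
      hs2]

/-- Order zero map on the `n`-fold product of two point sets. -/
noncomputable def unitPi {n : ℕ} (xs : Fin n → F) (I J : Fin n → Fin 2) : F :=
  oprod fun i => unitTwo (xs i) (I i) (J i)

omit [PartialOrder F] [StarOrderedRing F] in
theorem commute_unitTwo {z : F} (h : Commute z x) (h' : Commute z (star x)) (i j : Fin 2) :
    Commute z (unitTwo x i j) := by
  have hs : Commute z (rootSum x) :=
    ((h'.mul_right h).add_right (h.mul_right h')).symm.cfc_real _ |>.symm
  fin_cases i <;> fin_cases j
  · exact h'.mul_right h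
  · exact hs.mul_right h'
  · exact h.mul_right hs
  · exact h.mul_right h'

omit [PartialOrder F] [StarOrderedRing F] in
theorem oprod_star : ∀ {n : ℕ} (f : Fin n → F), (∀ i j, i ≠ j → Commute (f i) (f j)) →
    star (oprod f) = oprod fun i => star (f i)
  | 0, _, _ => star_one F
  | n + 1, f, h => by
    rw [oprod_succ, oprod_succ, star_mul, ← oprod_star _ fun i j hij => h _ _ (by simpa using hij)]
    have : Commute (f 0) (oprod fun i => f i.succ) :=
      commute_oprod _ _ fun i => h 0 i.succ (Fin.succ_ne_zero i).symm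
    rw [← star_mul, this.eq, star_mul]

/-- Pairwise commuting blocks. -/
def CommBlocks {n : ℕ} (xs : Fin n → F) : Prop :=
  ∀ i j, i ≠ j → Commute (xs i) (xs j) ∧ Commute (xs i) (star (xs j)) ∧
    Commute (star (xs i)) (xs j) ∧ Commute (star (xs i)) (star (xs j))

omit [PartialOrder F] [StarOrderedRing F] in
theorem CommBlocks.units {n : ℕ} {xs : Fin n → F} (h : CommBlocks xs) {i j : Fin n} (hij : i ≠ j)
    (a b c d : Fin 2) : Commute (unitTwo (xs i) a b) (unitTwo (xs j) c d) := by
  obtain ⟨h1, h2, h3, h4⟩ := h i j hij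
  exact commute_unitTwo (commute_unitTwo h1.symm h3.symm a b).symm
    (commute_unitTwo h2.symm h4.symm a b).symm c d

theorem unitPi_mul {n : ℕ} {xs : Fin n → F} (hx : ∀ i, xs i * xs i = 0) (hc : CommBlocks xs)
    (I J K L : Fin n → Fin 2) : unitPi xs I J * unitPi xs K L =
      if J = K then unitPi xs I L * ∑ M, unitPi xs M M else 0 := by
  have e : unitPi xs I J * unitPi xs K L =
      oprod fun i => unitTwo (xs i) (I i) (J i) * unitTwo (xs i) (K i) (L i) :=
    (oprod_mul (fun i => unitTwo (xs i) (I i) (J i)) (fun i => unitTwo (xs i) (K i) (L i))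
      fun i j hij => hc.units hij _ _ _ _).symm
  rw [e]
  split_ifs with h
  · subst h
    have e2 : unitPi xs I L * ∑ M, unitPi xs M M =
        oprod fun i => unitTwo (xs i) (I i) (L i) * ∑ m, unitTwo (xs i) m m := by
      rw [oprod_mul (fun i => unitTwo (xs i) (I i) (L i)) (fun i => ∑ m, unitTwo (xs i) m m)
        (fun i j hij => Commute.sum_left _ _ _ fun m _ => hc.units hij _ _ _ _)]
      rw [oprod_sum fun i m => unitTwo (xs i) m m]
      rfl
    rw [e2]
    congr 1
    funext i
    rw [unitTwo_mul (hx i), if_pos rfl]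
  · obtain ⟨i, hi⟩ := Function.ne_iff.1 h
    rw [oprod_update _ i fun j hj => ?_, unitTwo_mul (hx i), if_neg hi, zero_mul]
    exact ((hc.units hj.ne' _ _ _ _).mul_right (hc.units hj.ne' _ _ _ _)).mul_left
      ((hc.units hj.ne' _ _ _ _).mul_right (hc.units hj.ne' _ _ _ _))

variable {n : ℕ} [NeZero n]

/-- An injection sending `0` to the constant `0`. -/
noncomputable def enc (n : ℕ) [NeZero n] (i : Fin n) : Fin n → Fin 2 :=
  Equiv.swap (finFunctionFinEquiv.symm (Fin.castLE (Nat.lt_two_pow_self (n := n)).le 0)) 0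
    (finFunctionFinEquiv.symm (Fin.castLE (Nat.lt_two_pow_self (n := n)).le i))

theorem enc_inj : Function.Injective (enc n) := fun i j h => by
  have := (Equiv.injective _) h
  exact Fin.castLE_injective _ (finFunctionFinEquiv.symm.injective this)

theorem enc_zero : enc n 0 = 0 := by simp [enc]

/-- The order zero map of a family of commuting blocks. -/
noncomputable def ozOf (xs : Fin n → F) (hx : ∀ i, xs i * xs i = 0) (hc : CommBlocks xs) :
    OZ n F where
  x i j := unitPi xs (enc n i) (enc n j)
  x_star i j := by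
    rw [unitPi, oprod_star _ fun a b hab => hc.units hab _ _ _ _]
    simp only [unitTwo_star]
    rfl
  x_mul i j k l := by
    rw [unitPi_mul hx hc]
    by_cases h : j = k
    · rw [if_pos (congrArg (enc n) h), if_pos h, Finset.mul_sum, Finset.mul_sum]
      rw [Finset.sum_eq_single (enc n l), Finset.sum_eq_single l]
      · intro m _ hm
        rw [unitPi_mul hx hc, if_neg fun e => hm (enc_inj e).symm]
      · simp
      · intro M _ hM
        rw [unitPi_mul hx hc, if_neg (Ne.symm hM)]
      · simp
    · rw [if_neg fun e => h (enc_inj e), if_neg h]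

/-- One copy of the data of a block. -/
structure BlockData (F : Type*) [CStarAlgebra F] (w : ℕ) where
  x : F
  g : F
  r : Fin w → F
  sq : x * x = 0
  gsa : star g = g
  fix : star x * x * g = g
  full : ∑ q, star (r q) * (g * g) * r q = 1

/-- Everything of two pieces of block data commutes. -/
def BlockData.Comm {w : ℕ} (D D' : BlockData F w) : Prop :=
  ∀ a ∈ ({D.x, star D.x, D.g} : Set F) ∪ Set.range D.r ∪ Set.range (fun q => star (D.r q)),
    ∀ b ∈ ({D'.x, star D'.x, D'.g} : Set F) ∪ Set.range D'.r ∪ Set.range (fun q => star (D'.r q)),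
      Commute a b

variable {w : ℕ}

omit [PartialOrder F] [StarOrderedRing F] in
theorem commBlocks_of (D : Fin n → BlockData F w) (hD : ∀ i j, i ≠ j → (D i).Comm (D j)) :
    CommBlocks fun i => (D i).x := fun i j h =>
  ⟨hD i j h _ (by simp) _ (by simp), hD i j h _ (by simp) _ (by simp),
    hD i j h _ (by simp) _ (by simp), hD i j h _ (by simp) _ (by simp)⟩

/-- The cut function used for the slots. -/
noncomputable def slotFun : C(ℝ, ℂ) :=
  ⟨fun s => (ramp (1 / 2) (1 / 4) s : ℂ), Complex.continuous_ofReal.comp (continuous_ramp _ _)⟩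

/-- Quotient of `slotFun - 1` by `s - 1`. -/
noncomputable def slotQuot : C(ℝ, ℂ) :=
  ⟨fun s => (((ramp (1 / 2) (1 / 4) s - 1) / min (s - 1) (-(1 / 4)) : ℝ) : ℂ),
    Complex.continuous_ofReal.comp (((continuous_ramp _ _).sub continuous_const).div (by fun_prop)
      fun s => ne_of_lt (lt_of_le_of_lt (min_le_right _ _) (by norm_num)))⟩

theorem slot_factor : slotFun - 1 = slotQuot * (OZ.idR - 1) := by
  ext s
  simp only [ContinuousMap.sub_apply, ContinuousMap.mul_apply, ContinuousMap.one_apply]
  change ((ramp (1 / 2) (1 / 4) s : ℝ) : ℂ) - 1 =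
    (((ramp (1 / 2) (1 / 4) s - 1) / min (s - 1) (-(1 / 4)) : ℝ) : ℂ) * ((s : ℂ) - 1)
  rw [← Complex.ofReal_one, ← Complex.ofReal_sub, ← Complex.ofReal_sub, ← Complex.ofReal_mul,
    Complex.ofReal_inj]
  rcases le_total (3 / 4) s with h | h
  · rw [ramp_of_ge (by norm_num) (by linarith)]; simp
  · rw [min_eq_left (by linarith), div_mul_cancel₀ _ (by linarith)]

theorem slot_low {s : ℝ} (h : s < 3 * (1 / 6)) : slotFun s = 0 := by
  change ((ramp (1 / 2) (1 / 4) s : ℝ) : ℂ) = 0
  rw [ramp_of_le (by norm_num) (by linarith), Complex.ofReal_zero]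

theorem slot_star : star slotFun = slotFun := by
  ext s
  simp [slotFun]

/-- The coordinate of a family of commuting block data. -/
noncomputable def coordOf (D : Fin n → BlockData F w) (hD : ∀ i j, i ≠ j → (D i).Comm (D j)) :
    Coord n (Fintype.card (Fin n → Fin w)) F where
  A := ozOf (fun i => (D i).x) (fun i => (D i).sq) (commBlocks_of D hD)
  r t := oprod (fun i => (D i).g) *
    oprod fun i => (D i).r ((Fintype.equivFin (Fin n → Fin w)).symm t i)

theorem coordOf_rel (D : Fin n → BlockData F w) (hD : ∀ i j, i ≠ j → (D i).Comm (D j)) :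
    ∑ t, star ((coordOf D hD).r t) * (coordOf D hD).z slotFun * (coordOf D hD).r t = 1 := by
  set C := coordOf D hD
  set xs := fun i => (D i).x
  set G := oprod fun i => (D i).g with hG
  have hc := commBlocks_of D hD
  have hgg : ∀ i j, i ≠ j → Commute (D i).g (D j).g := fun i j h =>
    hD i j h _ (by simp) _ (by simp)
  have hgx : ∀ i j, i ≠ j → ∀ a b, Commute (D i).g (unitTwo (xs j) a b) := fun i j h =>
    commute_unitTwo (hD i j h _ (by simp) _ (by simp [xs])) (hD i j h _ (by simp) _ (by simp [xs]))
  have hunit : ∀ I, unitPi xs I I * G = if I = 0 then G else 0 := by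
    intro I
    rw [hG, unitPi, ← oprod_mul _ _ fun i j h => hgx i j h _ _]
    have h0 : ∀ i, unitTwo (xs i) 0 0 * (D i).g = (D i).g := fun i => (D i).fix
    have h1 : ∀ i, unitTwo (xs i) 1 1 * (D i).g = 0 := fun i => by
      change (D i).x * star (D i).x * (D i).g = 0
      rw [← (D i).fix, ← mul_assoc, mul_assoc (D i).x, ← mul_assoc (star (D i).x) (star (D i).x),
        show star (D i).x * star (D i).x = 0 by rw [← star_mul, (D i).sq, star_zero]]
      simp
    split_ifs with h
    · subst h; simp [h0]
    · obtain ⟨i, hi⟩ := Function.ne_iff.1 h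
      have hi1 : I i = 1 := Fin.eq_one_of_ne_zero _ hi
      rw [oprod_update _ i fun j hj => ?_]
      · simp [hi1, h1 i]
      · exact ((hc.units hj.ne' _ _ _ _).mul_right (hgx j i hj.ne _ _).symm |>.mul_left
          ((hgx i j hj.ne' _ _).mul_right (hgg i j hj.ne')))
  have hA0 : C.A.x 0 0 * G = G := by
    change unitPi xs (enc n 0) (enc n 0) * G = G
    rw [hunit, if_pos enc_zero]
  have hA1 : C.A.one' * G = G := by
    rw [OZ.one', Finset.sum_mul, Finset.sum_eq_single 0 (fun m _ hm => ?_) (by simp), hA0]
    change unitPi xs (enc n m) (enc n m) * G = 0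
    rw [hunit, if_neg fun e => hm (enc_inj (e.trans enc_zero.symm))]
  have hev : C.A.ev slotFun * G = G := by
    have : C.A.ev (slotFun - 1) * G = 0 := by
      rw [slot_factor, map_mul, map_sub, map_one, OZ.ev_idR, mul_assoc, sub_mul, one_mul, hA1,
        sub_self, mul_zero]
    rwa [map_sub, map_one, sub_mul, one_mul, sub_eq_zero] at this
  have hy : C.y slotFun 0 * G = G := by rw [Coord.y, mul_assoc, hA0, hev]
  have hz : C.z slotFun * G = G := by
    rw [Coord.z, mul_assoc, hy, Coord.y, star_mul, C.A.x_star, ← map_star, slot_star, mul_assoc,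
      hev, hA0]
  have hGsa : star G = G := by
    rw [hG, oprod_star _ hgg]
    simp [fun i => (D i).gsa]
  have hGG : G * G = oprod fun i => (D i).g * (D i).g := (oprod_mul _ _ hgg).symm
  calc ∑ t, star (C.r t) * C.z slotFun * C.r t
      = ∑ t, star (oprod fun i => (D i).r ((Fintype.equivFin (Fin n → Fin w)).symm t i)) *
          (G * G) * oprod fun i => (D i).r ((Fintype.equivFin (Fin n → Fin w)).symm t i) := by
        refine Finset.sum_congr rfl fun t _ => ?_
        change star (G * _) * _ * (G * _) = _
        rw [star_mul, hGsa]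
        set R := oprod fun i => (D i).r ((Fintype.equivFin (Fin n → Fin w)).symm t i)
        calc star R * G * C.z slotFun * (G * R) = star R * (G * (C.z slotFun * G)) * R := by
              noncomm_ring
          _ = _ := by rw [hz]
    _ = ∑ J : Fin n → Fin w, oprod fun i => star ((D i).r (J i)) * ((D i).g * (D i).g) *
          (D i).r (J i) := by
        rw [← Equiv.sum_comp (Fintype.equivFin (Fin n → Fin w)).symm]
        refine Finset.sum_congr rfl fun t _ => ?_
        set J := (Fintype.equivFin (Fin n → Fin w)).symm t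
        rw [hGG, oprod_mul (fun i => star ((D i).r (J i)) * ((D i).g * (D i).g))
            (fun i => (D i).r (J i)) (fun i j h => ?_),
          oprod_mul (fun i => star ((D i).r (J i))) (fun i => (D i).g * (D i).g) (fun i j h => ?_),
          oprod_star _ fun i j h => hD i j h _ (by simp) _ (by simp)]
        · exact (hD i j h _ (by simp) _ (by simp)).mul_left (hD i j h _ (by simp) _ (by simp))
        · exact (hD i j h _ (by simp) _ (by simp)).mul_right
            ((hD i j h _ (by simp) _ (by simp)).mul_right (hD i j h _ (by simp) _ (by simp)))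
    _ = 1 := by
        rw [← oprod_sum fun i q => star ((D i).r q) * ((D i).g * (D i).g) * (D i).r q]
        simp only [fun i => (D i).full]
        clear hy hz hev hA1 hA0 hunit hgx hgg hGsa hGG hG hc
        exact oprod_one n

theorem commE_coordOf (D : Fin n → BlockData F w) (hD : ∀ i j, i ≠ j → (D i).Comm (D j)) {z : F}
    (hz : ∀ i, ∀ b ∈ ({(D i).x, star (D i).x, (D i).g} : Set F) ∪ Set.range (D i).r ∪
      Set.range (fun q => star ((D i).r q)), Commute z b) :
    Coord.CommE z (coordOf D hD) := by
  refine ⟨fun a b => commute_oprod _ _ fun i =>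
      commute_unitTwo (hz i _ (by simp)) (hz i _ (by simp)) _ _, fun t => ?_, fun t => ?_⟩
  · exact (commute_oprod _ _ fun i => hz i _ (by simp)).mul_right
      (commute_oprod _ _ fun i => hz i _ (by simp))
  · change Commute z (star (oprod _ * oprod _))
    rw [star_mul, oprod_star _ fun i j h => hD i j h _ (by simp) _ (by simp),
      oprod_star _ fun i j h => hD i j h _ (by simp) _ (by simp)]
    refine (commute_oprod _ _ fun i => hz i _ (by simp)).mul_right
      (commute_oprod _ _ fun i => ?_)
    rw [(D i).gsa]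
    exact hz i _ (by simp)

theorem comm_coordOf (D D' : Fin n → BlockData F w) (hD : ∀ i j, i ≠ j → (D i).Comm (D j))
    (hD' : ∀ i j, i ≠ j → (D' i).Comm (D' j)) (h : ∀ i j, (D i).Comm (D' j)) :
    Coord.Comm (coordOf D hD) (coordOf D' hD') := by
  have key : ∀ i, ∀ a ∈ ({(D i).x, star (D i).x, (D i).g} : Set F) ∪ Set.range (D i).r ∪
      Set.range (fun q => star ((D i).r q)), Coord.CommE a (coordOf D' hD') :=
    fun i a ha => commE_coordOf D' hD' fun j b hb => h i j a ha b hb
  have hr : ∀ t, Coord.CommE ((coordOf D hD).r t) (coordOf D' hD') := fun t => by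
    refine ⟨fun a b => ?_, fun t' => ?_, fun t' => ?_⟩
    all_goals refine ((commute_oprod _ _ fun i => ?_).mul_right (commute_oprod _ _ fun i => ?_)).symm
    · exact ((key i _ (by simp)).1 a b).symm
    · exact ((key i _ (by simp)).1 a b).symm
    · exact ((key i _ (by simp)).2.1 t').symm
    · exact ((key i _ (by simp)).2.1 t').symm
    · exact ((key i _ (by simp)).2.2 t').symm
    · exact ((key i _ (by simp)).2.2 t').symm
  have hA : ∀ a b, Coord.CommE ((coordOf D hD).A.x a b) (coordOf D' hD') := fun a b => by
    refine ⟨fun c d => ?_, fun t => ?_, fun t => ?_⟩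
    all_goals refine (commute_oprod _ _ fun i => commute_unitTwo ?_ ?_ _ _).symm
    · exact ((key i _ (by simp)).1 c d).symm
    · exact ((key i _ (by simp)).1 c d).symm
    · exact ((key i _ (by simp)).2.1 t).symm
    · exact ((key i _ (by simp)).2.1 t).symm
    · exact ((key i _ (by simp)).2.2 t).symm
    · exact ((key i _ (by simp)).2.2 t).symm
  exact ⟨fun a b c d => (hA a b).1 c d, fun a b t => (hA a b).2.1 t, fun t c d => (hr t).1 c d,
    fun t t' => (hr t).2.1 t', fun t t' => (hr t).2.2 t'⟩

end Algebraic

section Main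

variable {F : Type*} [CStarAlgebra F] [PartialOrder F] [StarOrderedRing F] [Nontrivial F]

/-- Without characters, an algebra with commuting copies contains the relations of every
dimension drop algebra. -/
theorem exists_ddRel_of_copies (hF : HasCopies F) (hchar : ∀ χ : F →⋆ₙₐ[ℂ] ℂ, χ = 0) {n : ℕ}
    [NeZero n] (hn : 2 ≤ n) : Nonempty (DDRel n F) := by
  classical
  obtain ⟨w₀, g₀, hg₀, hfull₀⟩ := exists_commFull hchar
  obtain ⟨H, hH, hHfull⟩ := exists_nonscalar hF g₀ hg₀ hfull₀
  obtain ⟨a, b, -, -, hab, hfa, hfb⟩ := exists_pair hF H hH hHfull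
  obtain ⟨X, hX, hXfull⟩ := exists_squareZero hF H a b hH hHfull hab hfa hfb
  obtain ⟨x, g, g', w, r, hb, hr⟩ := exists_block hX hXfull
  set N := Fintype.card (Fin n → Fin w) with hN
  set m := N + 1
  set Node := {p : List (Fin N) // p.length ≤ m}
  haveI : Finite Node := (List.finite_length_le (Fin N) m).to_subtype
  haveI : Fintype Node := Fintype.ofFinite Node
  set T : Finset F := insert x (insert g (Finset.univ.image r))
  obtain ⟨φ, -, hc⟩ := exists_copies hF T ∅ (Fintype.card (Node × Fin n))
  let e := Fintype.equivFin (Node × Fin n)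
  let mk : Fin (Fintype.card (Node × Fin n)) → BlockData F w := fun k =>
    { x := φ k ⟨x, mem_genAlg (by simp [T])⟩
      g := φ k ⟨g, mem_genAlg (by simp [T])⟩
      r := fun q => φ k ⟨r q, mem_genAlg (by simp [T])⟩
      sq := by
        rw [← map_mul, show (⟨x, _⟩ : GenAlg T) * ⟨x, mem_genAlg (by simp [T])⟩ = 0 from
          Subtype.ext hb.sq, map_zero]
      gsa := by rw [← map_star]; exact congrArg _ (Subtype.ext hb.gsa)
      fix := by
        rw [← map_star, ← map_mul, ← map_mul]
        exact congrArg _ (Subtype.ext hb.fix_g)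
      full := by
        simp only [← map_star, ← map_mul, ← map_sum]
        rw [← map_one (φ k)]
        refine congrArg _ (Subtype.ext ?_)
        simp only [AddSubmonoidClass.coe_finsetSum, MulMemClass.coe_mul, StarMemClass.coe_star,
          OneMemClass.coe_one]
        exact hr }
  have hmk : ∀ k l, k ≠ l → (mk k).Comm (mk l) := by
    intro k l hkl u hu v hv
    have hu' : ∃ u', φ k u' = u := by
      rcases hu with (hu | ⟨q, rfl⟩) | ⟨q, rfl⟩
      · rcases hu with rfl | rfl | rfl
        exacts [⟨_, rfl⟩, ⟨_, map_star _ _⟩, ⟨_, rfl⟩]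
      · exact ⟨_, rfl⟩
      · exact ⟨_, map_star _ _⟩
    have hv' : ∃ v', φ l v' = v := by
      rcases hv with (hv | ⟨q, rfl⟩) | ⟨q, rfl⟩
      · rcases hv with rfl | rfl | rfl
        exacts [⟨_, rfl⟩, ⟨_, map_star _ _⟩, ⟨_, rfl⟩]
      · exact ⟨_, rfl⟩
      · exact ⟨_, map_star _ _⟩
    obtain ⟨u', rfl⟩ := hu'
    obtain ⟨v', rfl⟩ := hv'
    exact hc k l hkl u' v'
  have hne : ∀ (p : Node) (i j : Fin n), i ≠ j → (mk (e (p, i))).Comm (mk (e (p, j))) :=
    fun p i j h => hmk _ _ fun he => h (Prod.ext_iff.1 (e.injective he)).2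
  let C : List (Fin N) → Coord n N F := fun p => if hp : p.length ≤ m then
    coordOf (fun i => mk (e (⟨p, hp⟩, i))) (hne ⟨p, hp⟩)
    else coordOf (fun i => mk (e (⟨[], Nat.zero_le _⟩, i))) (hne ⟨[], Nat.zero_le _⟩)
  have hC : ∀ p q : List (Fin N), p.length ≤ m → q.length ≤ m → p ≠ q →
      Coord.Comm (C p) (C q) := fun p q hp hq hpq => by
    simp only [C, dif_pos hp, dif_pos hq]
    exact comm_coordOf _ _ _ _ fun i j => hmk _ _ fun he =>
      hpq (congrArg Subtype.val (Prod.ext_iff.1 (e.injective he)).1)
  obtain ⟨R⟩ := Vale.Agent.P101.exists_ddRel (C := C) hC (a := 1 / 6) (m := m)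
    ((Nat.lt_pow_self hn).le.trans (Nat.pow_le_pow_right (by omega) (Nat.le_succ N)))
    (Nat.succ_pos _) (by norm_num) slot_star (fun s hs => slot_low hs)
    (fun p hp => by simp only [C, dif_pos hp]; exact coordOf_rel _ _)
  exact ⟨R⟩

/-- Without characters, an algebra with commuting copies receives every dimension drop algebra. -/
theorem exists_dimDrop (hF : HasCopies F) (hchar : ∀ χ : F →⋆ₙₐ[ℂ] ℂ, χ = 0) (n : ℕ) [NeZero n] :
    Nonempty (DimDrop n →⋆ₐ[ℂ] F) := by
  rcases Nat.lt_or_ge n 2 with hn | hn
  · have hn1 : n = 1 := by have := NeZero.ne n; omega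
    subst hn1
    exact Vale.Agent.P101.exists_dimDrop_hom
      { φ := fun _ _ => 1
        φ_star := fun _ _ => star_one F
        φ_mul := fun i j k l => by
          rw [if_pos (Subsingleton.elim (α := Fin 1) j k)]; simp
        φ_one_nonneg := by simp
        v := 0
        v_star_mul := by simp
        φ_mul_v := by simp }
  obtain ⟨R⟩ := exists_ddRel_of_copies hF hchar hn
  exact Vale.Agent.P101.exists_dimDrop_hom R

end Main

end VAgent.P101
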