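import Mathlib

/-!
# P101: the central sequence algebra

`UPow A ω = ℓ∞(ℕ, A) / {f | lim_ω ‖f n‖ = 0}` with the quotient norm, the constants, and
`CentralSeq A ω = UPow A ω ∩ A'`. For separable `A` and free `ω` it has commuting copies.
-/

namespace VAgent.P101

open Filter Topology BoundedContinuousFunction
open scoped CStarAlgebra BoundedContinuousFunction

noncomputable section

variable (A : Type*) [CStarAlgebra A] (ω : Ultrafilter ℕ)

/-- Sequences which tend to zero along `ω`. -/
def nullIdeal : Ideal (ℕ →ᵇ A) where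
  carrier := {f | Tendsto (fun n => ‖f n‖) (ω : Filter ℕ) (𝓝 0)}
  add_mem' {f g} hf hg := squeeze_zero (fun n => norm_nonneg _)
    (fun n => norm_add_le (f n) (g n)) (by simpa using hf.add hg)
  zero_mem' := by simpa using tendsto_const_nhds
  smul_mem' f g hg := squeeze_zero (fun n => norm_nonneg _)
    (fun n => (norm_mul_le (f n) (g n)).trans
      (mul_le_mul_of_nonneg_right (f.norm_coe_le_norm n) (norm_nonneg _)))
    (by simpa using hg.const_mul ‖f‖)

instance : (nullIdeal A ω).IsTwoSided where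
  mul_mem_of_left {f} g hf := squeeze_zero (fun n => norm_nonneg _)
    (fun n => (norm_mul_le (f n) (g n)).trans
      (mul_le_mul_of_nonneg_left (g.norm_coe_le_norm n) (norm_nonneg _)))
    (by simpa using Tendsto.mul_const ‖g‖ hf)

theorem mem_nullIdeal {f : ℕ →ᵇ A} :
    f ∈ nullIdeal A ω ↔ Tendsto (fun n => ‖f n‖) (ω : Filter ℕ) (𝓝 0) := Iff.rfl

instance nullIdeal_closed : IsClosed (nullIdeal A ω : Set (ℕ →ᵇ A)) := by
  rw [← closure_subset_iff_isClosed]
  intro f hf
  rw [SetLike.mem_coe, mem_nullIdeal, Metric.tendsto_nhds]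
  intro ε hε
  obtain ⟨g, hg, hfg⟩ := Metric.mem_closure_iff.1 hf (ε / 2) (by positivity)
  filter_upwards [Metric.tendsto_nhds.1 hg (ε / 2) (by positivity)] with n hn
  simp only [Real.dist_eq, sub_zero, abs_norm] at hn ⊢
  have h1 : ‖f n - g n‖ < ε / 2 := lt_of_le_of_lt
    (by simpa [dist_eq_norm] using (f - g).norm_coe_le_norm n) (by rwa [dist_eq_norm] at hfg)
  linarith [norm_le_norm_add_norm_sub' (f n) (g n)]

/-- The ultrapower. -/
abbrev UPow : Type _ := (ℕ →ᵇ A) ⧸ nullIdeal A ω

instance UPow.instNormedAddCommGroup : NormedAddCommGroup (UPow A ω) :=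
  Submodule.Quotient.normedAddCommGroup (nullIdeal A ω)

variable {A ω}

/-- The quotient map. -/
def UPow.mk : (ℕ →ᵇ A) →ₐ[ℂ] UPow A ω := Ideal.Quotient.mkₐ ℂ (nullIdeal A ω)

theorem UPow.mk_surjective : Function.Surjective (UPow.mk : (ℕ →ᵇ A) → UPow A ω) :=
  Ideal.Quotient.mk_surjective

theorem UPow.mk_eq_mk {f g : ℕ →ᵇ A} :
    (UPow.mk f : UPow A ω) = UPow.mk g ↔ f - g ∈ nullIdeal A ω := Ideal.Quotient.eq

theorem UPow.norm_mk_le_norm (f : ℕ →ᵇ A) : ‖(UPow.mk f : UPow A ω)‖ ≤ ‖f‖ :=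
  Submodule.Quotient.norm_mk_le (nullIdeal A ω) f

theorem UPow.continuous_mk : Continuous (UPow.mk : (ℕ →ᵇ A) → UPow A ω) :=
  AddMonoidHomClass.continuous_of_bound UPow.mk 1 fun f => by
    simpa using UPow.norm_mk_le_norm f

theorem UPow.norm_le_of_eventually {f : ℕ →ᵇ A} {r : ℝ} (hr : 0 ≤ r)
    (h : ∀ᶠ n in (ω : Filter ℕ), ‖f n‖ ≤ r) : ‖(UPow.mk f : UPow A ω)‖ ≤ r := by
  classical
  let g : ℕ →ᵇ A := ofNormedAddCommGroupDiscrete (fun n => if ‖f n‖ ≤ r then f n else 0) r
    fun n => by split_ifs with hn <;> simp [hn, hr]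
  have e : (UPow.mk f : UPow A ω) = UPow.mk g := by
    rw [UPow.mk_eq_mk, mem_nullIdeal]
    refine tendsto_const_nhds.congr' ?_
    filter_upwards [h] with n hn
    simp [g, hn]
  rw [e]
  exact (UPow.norm_mk_le_norm g).trans ((norm_le hr).2 fun n => by
    simp only [g, coe_ofNormedAddCommGroupDiscrete]; split_ifs with hn <;> simp [hn, hr])

theorem UPow.eventually_of_norm_lt {f : ℕ →ᵇ A} {r : ℝ} (h : ‖(UPow.mk f : UPow A ω)‖ < r) :
    ∀ᶠ n in (ω : Filter ℕ), ‖f n‖ < r := by
  obtain ⟨g, hg, hgn⟩ : ∃ g, (UPow.mk g : UPow A ω) = UPow.mk f ∧ ‖g‖ < r := by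
    have h' : ‖(Submodule.Quotient.mk f : (ℕ →ᵇ A) ⧸ nullIdeal A ω)‖ < r := h
    obtain ⟨g, hg, hgn⟩ := QuotientAddGroup.norm_lt_iff.1 h'
    exact ⟨g, hg, hgn⟩
  rw [UPow.mk_eq_mk, mem_nullIdeal] at hg
  filter_upwards [Metric.tendsto_nhds.1 hg (r - ‖g‖) (by linarith)] with n hn
  simp only [BoundedContinuousFunction.sub_apply, Real.dist_eq, sub_zero, abs_norm] at hn
  have := norm_le_norm_add_norm_sub (g n) (f n)
  linarith [g.norm_coe_le_norm n]

theorem UPow.norm_mul_le' (x y : UPow A ω) : ‖x * y‖ ≤ ‖x‖ * ‖y‖ := by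
  obtain ⟨f, rfl⟩ := UPow.mk_surjective x
  obtain ⟨g, rfl⟩ := UPow.mk_surjective y
  set a := ‖(UPow.mk f : UPow A ω)‖
  set b := ‖(UPow.mk g : UPow A ω)‖
  refine le_of_forall_pos_le_add fun ε hε => ?_
  have ha : 0 ≤ a := norm_nonneg _
  have hb : 0 ≤ b := norm_nonneg _
  obtain ⟨δ, hδ, hδε⟩ : ∃ δ > 0, (a + δ) * (b + δ) ≤ a * b + ε := by
    refine ⟨min 1 (ε / (a + b + 1)), lt_min one_pos (by positivity), ?_⟩
    set δ := min 1 (ε / (a + b + 1))
    have h0 : 0 ≤ δ := le_min zero_le_one (by positivity)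
    have h1 : δ ≤ 1 := min_le_left _ _
    have h2 : δ * (a + b + 1) ≤ ε := (le_div_iff₀ (by positivity)).1 (min_le_right _ _)
    nlinarith
  rw [← map_mul]
  refine le_trans ?_ hδε
  refine UPow.norm_le_of_eventually (by positivity) ?_
  filter_upwards [UPow.eventually_of_norm_lt (lt_add_of_pos_right a hδ),
    UPow.eventually_of_norm_lt (lt_add_of_pos_right b hδ)] with n h1 h2
  exact (norm_mul_le _ _).trans (mul_le_mul h1.le h2.le (norm_nonneg _) (by positivity))

theorem UPow.dist_eq' (x y : UPow A ω) : dist x y = ‖-x + y‖ := NormedAddGroup.dist_eq x y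

instance UPow.instNormedRing : NormedRing (UPow A ω) where
  toNorm := (UPow.instNormedAddCommGroup A ω).toNorm
  toRing := Ideal.Quotient.ring (nullIdeal A ω)
  toMetricSpace := (UPow.instNormedAddCommGroup A ω).toMetricSpace
  dist_eq := UPow.dist_eq'
  norm_mul_le := UPow.norm_mul_le'

theorem nullIdeal_star {f : ℕ →ᵇ A} (h : f ∈ nullIdeal A ω) : star f ∈ nullIdeal A ω := by
  simpa [mem_nullIdeal] using h

instance UPow.instStar : Star (UPow A ω) where
  star := Quotient.map' star fun f g h => by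
    rw [Submodule.quotientRel_def] at h ⊢
    simpa using nullIdeal_star h

theorem UPow.mk_star (f : ℕ →ᵇ A) : (UPow.mk (star f) : UPow A ω) = star (UPow.mk f) := rfl

instance UPow.instStarRing : StarRing (UPow A ω) where
  star_involutive x := by
    obtain ⟨f, rfl⟩ := UPow.mk_surjective x
    rw [← UPow.mk_star, ← UPow.mk_star, star_star]
  star_mul x y := by
    obtain ⟨f, rfl⟩ := UPow.mk_surjective x
    obtain ⟨g, rfl⟩ := UPow.mk_surjective y
    rw [← map_mul, ← UPow.mk_star, ← UPow.mk_star, ← UPow.mk_star, ← map_mul, star_mul]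
  star_add x y := by
    obtain ⟨f, rfl⟩ := UPow.mk_surjective x
    obtain ⟨g, rfl⟩ := UPow.mk_surjective y
    rw [← map_add, ← UPow.mk_star, ← UPow.mk_star, ← UPow.mk_star, ← map_add, star_add]

instance UPow.instNormedAlgebra : NormedAlgebra ℂ (UPow A ω) where
  __ := (inferInstance : Algebra ℂ (UPow A ω))
  norm_smul_le r x := by
    obtain ⟨f, rfl⟩ := UPow.mk_surjective x
    refine le_of_forall_pos_le_add fun ε hε => ?_
    have h1 : 0 < ε / (‖r‖ + 1) := by positivity
    rw [← map_smul]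
    refine le_trans (UPow.norm_le_of_eventually (r := ‖r‖ * (‖(UPow.mk f : UPow A ω)‖ +
      ε / (‖r‖ + 1))) (by positivity) ?_) ?_
    · filter_upwards [UPow.eventually_of_norm_lt
        (lt_add_of_pos_right ‖(UPow.mk f : UPow A ω)‖ h1)] with n hn
      simp only [BoundedContinuousFunction.coe_smul, norm_smul]
      exact mul_le_mul_of_nonneg_left hn.le (norm_nonneg _)
    · have : ‖r‖ * (ε / (‖r‖ + 1)) ≤ ε := by
        rw [mul_div_assoc', div_le_iff₀ (by positivity)]; nlinarith [norm_nonneg r]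
      linarith

instance UPow.instStarModule : StarModule ℂ (UPow A ω) where
  star_smul r x := by
    obtain ⟨f, rfl⟩ := UPow.mk_surjective x
    rw [← map_smul, ← UPow.mk_star, ← UPow.mk_star, ← map_smul, star_smul]

instance UPow.instCStarRing : CStarRing (UPow A ω) where
  norm_mul_self_le x := by
    obtain ⟨f, rfl⟩ := UPow.mk_surjective x
    rw [← UPow.mk_star, ← map_mul]
    set c := ‖(UPow.mk (star f * f) : UPow A ω)‖
    refine le_of_forall_pos_le_add fun ε hε => ?_
    have hc : 0 ≤ c := norm_nonneg _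
    have h : ‖(UPow.mk f : UPow A ω)‖ ≤ Real.sqrt (c + ε) := by
      refine UPow.norm_le_of_eventually (Real.sqrt_nonneg _) ?_
      filter_upwards [UPow.eventually_of_norm_lt (lt_add_of_pos_right c hε)] with n hn
      refine Real.le_sqrt_of_sq_le ?_
      rw [sq]
      have : ‖star (f n) * f n‖ < c + ε := by simpa using hn
      rw [CStarRing.norm_star_mul_self] at this
      exact this.le
    calc _ ≤ Real.sqrt (c + ε) * Real.sqrt (c + ε) :=
          mul_le_mul h h (norm_nonneg _) (Real.sqrt_nonneg _)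
      _ = _ := Real.mul_self_sqrt (by positivity)

instance UPow.instCompleteSpace : CompleteSpace (UPow A ω) :=
  inferInstanceAs (CompleteSpace ((ℕ →ᵇ A) ⧸ nullIdeal A ω))

instance UPow.instCStarAlgebra : CStarAlgebra (UPow A ω) where

/-- The quotient map as a *-homomorphism. -/
def UPow.mkHom : (ℕ →ᵇ A) →⋆ₐ[ℂ] UPow A ω :=
  { UPow.mk with map_star' := UPow.mk_star }

/-- Constant sequences. -/
def UPow.const (a : A) : UPow A ω := UPow.mk (BoundedContinuousFunction.const ℕ a)

theorem UPow.continuous_const' : Continuous (UPow.const : A → UPow A ω) := by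
  refine UPow.continuous_mk.comp (LipschitzWith.continuous (K := 1) ?_)
  refine LipschitzWith.of_dist_le_mul fun a b => ?_
  simpa using (BoundedContinuousFunction.dist_le dist_nonneg).2 fun n => le_refl (dist a b)

theorem UPow.const_star (a : A) : (UPow.const (star a) : UPow A ω) = star (UPow.const a) := by
  rw [UPow.const, UPow.const, ← UPow.mk_star]; rfl

variable (A ω) in
/-- The central sequence algebra `A_ω ∩ A'`. -/
def CentralSeq : StarSubalgebra ℂ (UPow A ω) :=
  StarSubalgebra.centralizer ℂ (Set.range (UPow.const : A → UPow A ω))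

instance centralSeq_closed : IsClosed (CentralSeq A ω : Set (UPow A ω)) :=
  Set.isClosed_centralizer _

instance centralSeqCStar : CStarAlgebra (CentralSeq A ω) :=
  StarSubalgebra.cstarAlgebra (CentralSeq A ω)

end

end VAgent.P101
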