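import Mathlib
import Vale.Agent.P101.Basic
import Vale.Agent.P101.UltraDefs

/-!
# P101: the central sequence algebra

`UPow A ω = ℓ∞(ℕ, A) / {f | lim_ω ‖f n‖ = 0}` with the quotient norm, the constants, and
`CentralSeq A ω = UPow A ω ∩ A'`. For separable `A` and free `ω` it has commuting copies.
-/

namespace VAgent.P101

open Filter Topology BoundedContinuousFunction
open scoped CStarAlgebra BoundedContinuousFunction

noncomputable section

variable (A : Type*) [CStarAlgebra A] (ω : Ultrafilter ℕ)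

variable {A ω}

theorem mem_centralSeq {x : UPow A ω} :
    x ∈ CentralSeq A ω ↔ ∀ a : A, Commute (UPow.const a) x := by
  rw [CentralSeq, StarSubalgebra.mem_centralizer_iff]
  constructor
  · intro h a; exact (h _ ⟨a, rfl⟩).1
  · rintro h _ ⟨a, rfl⟩
    exact ⟨(h a).eq, by rw [← UPow.const_star]; exact (h _).eq⟩

theorem UPow.nontrivial [Nontrivial A] : Nontrivial (UPow A ω) := by
  refine ⟨⟨1, 0, fun h => ?_⟩⟩
  have h1 : ∀ᶠ n in (ω : Filter ℕ), ‖(1 : ℕ →ᵇ A) n‖ < 1 :=
    UPow.eventually_of_norm_lt (ω := ω) (by rw [map_one, h, norm_zero]; exact one_pos)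
  obtain ⟨n, hn⟩ := h1.exists
  simp at hn

instance centralSeq_nontrivial [Nontrivial A] : Nontrivial (CentralSeq A ω) := by
  have := UPow.nontrivial (A := A) (ω := ω)
  exact ⟨⟨1, 0, fun h => one_ne_zero (congrArg Subtype.val h)⟩⟩

theorem isSeparable_adjoin_finset {E : Type*} [CStarAlgebra E] (T : Finset E) :
    TopologicalSpace.IsSeparable (StarAlgebra.adjoin ℂ (T : Set E) : Set E) := by
  have hc : ((T : Set E) ∪ star (T : Set E)).Countable :=
    (T.finite_toSet.union T.finite_toSet.star).countable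
  set s := (T : Set E) ∪ star (T : Set E)
  have : Countable s := hc.to_subtype
  have hm : (Submonoid.closure s : Set E).Countable := by
    refine Set.Countable.mono ?_ (Set.countable_range fun l : List s => (l.map Subtype.val).prod)
    intro x hx
    induction hx using Submonoid.closure_induction with
    | mem y hy => exact ⟨[⟨y, hy⟩], by simp⟩
    | one => exact ⟨[], by simp⟩
    | mul y z _ _ hy hz =>
      obtain ⟨l, rfl⟩ := hy
      obtain ⟨l', rfl⟩ := hz
      exact ⟨l ++ l', by simp⟩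
  have e : (StarAlgebra.adjoin ℂ (T : Set E) : Set E) =
      (Submodule.span ℂ (Submonoid.closure s : Set E) : Set E) := by
    rw [← Algebra.adjoin_eq_span]; rfl
  rw [e]
  exact hm.isSeparable.span

theorem hasCopies [Nontrivial A] [TopologicalSpace.SeparableSpace A]
    (hω : (ω : Filter ℕ) ≤ cofinite) : HasCopies (CentralSeq A ω) := by
  intro T S
  classical
  choose lift hlift using fun x : CentralSeq A ω => UPow.mk_surjective (x : UPow A ω)
  let 𝓛 := StarAlgebra.adjoin ℂ (T.image lift : Set (ℕ →ᵇ A))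
  obtain ⟨D, hD, hcl⟩ := isSeparable_adjoin_finset (T.image lift)
  obtain ⟨d, hd⟩ := (hD.insert (0 : ℕ →ᵇ A)).exists_eq_range (Set.insert_nonempty _ _)
  let a := TopologicalSpace.denseSeq A
  -- the conditions at stage `n`
  let W : ℕ → Finset A := fun n =>
    (Finset.range (n + 1)).image a ∪ (Finset.range (n + 1)).image (fun i => star (a i)) ∪
      S.image (fun s => lift s n) ∪ S.image (fun s => star (lift s n))
  let P : ℕ → ℕ → Prop := fun n k =>
    (∀ t ∈ T, ∀ w ∈ S.image (fun s => lift s n) ∪ S.image (fun s => star (lift s n)),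
      ‖lift t k * w - w * lift t k‖ ≤ 1 / (n + 1)) ∧
    (∀ t ∈ T, ∀ i ∈ Finset.range (n + 1),
      ‖lift t k * a i - a i * lift t k‖ ≤ 1 / (n + 1) ∧
      ‖lift t k * star (a i) - star (a i) * lift t k‖ ≤ 1 / (n + 1)) ∧
    ∀ i ∈ Finset.range (n + 1), ‖d i k‖ ≤ ‖(UPow.mk (d i) : UPow A ω)‖ + 1 / (n + 1)
  have hcomm : ∀ (t : CentralSeq A ω) (w : A) (δ : ℝ), 0 < δ →
      ∀ᶠ k in (ω : Filter ℕ), ‖lift t k * w - w * lift t k‖ ≤ δ := by
    intro t w δ hδ
    have h := (mem_centralSeq.1 t.2 w).eq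
    rw [UPow.const, ← hlift t, ← map_mul, ← map_mul] at h
    have h0 : (UPow.mk (lift t * BoundedContinuousFunction.const ℕ w -
        BoundedContinuousFunction.const ℕ w * lift t) : UPow A ω) = 0 := by
      rw [map_sub, h, sub_self]
    filter_upwards [UPow.eventually_of_norm_lt (ω := ω) (r := δ) (by rw [h0, norm_zero]; exact hδ)]
      with k hk
    exact le_of_lt (by simpa using hk)
  have hP : ∀ n, ∃ k, P n k := by
    intro n
    have hδ : (0 : ℝ) < 1 / (n + 1) := by positivity
    refine (Eventually.and ?_ (Eventually.and ?_ ?_)).exists (f := (ω : Filter ℕ))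
    · exact (eventually_all_finset T).2 fun t _ =>
        (eventually_all_finset _).2 fun w _ => hcomm t w _ hδ
    · exact (eventually_all_finset T).2 fun t _ =>
        (eventually_all_finset _).2 fun i _ => (hcomm t _ _ hδ).and (hcomm t _ _ hδ)
    · exact (eventually_all_finset _).2 fun i _ =>
        (UPow.eventually_of_norm_lt (lt_add_of_pos_right _ hδ)).mono fun k hk => hk.le
  choose σ hσ using hP
  let re : (ℕ →ᵇ A) →⋆ₐ[ℂ] UPow A ω :=
    UPow.mkHom.comp
      { toFun := fun f => f.compContinuous ⟨σ, continuous_of_discreteTopology⟩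
        map_one' := rfl
        map_mul' := fun _ _ => rfl
        map_zero' := rfl
        map_add' := fun _ _ => rfl
        commutes' := fun _ => rfl
        map_star' := fun _ => rfl }
  have hre : ∀ f, re f = UPow.mk (f.compContinuous ⟨σ, continuous_of_discreteTopology⟩) :=
    fun f => rfl
  have htop : (ω : Filter ℕ) ≤ atTop := Nat.cofinite_eq_atTop ▸ hω
  have hsmall : ∀ δ : ℝ, 0 < δ → ∀ᶠ n : ℕ in (ω : Filter ℕ), 1 / ((n : ℝ) + 1) < δ :=
    fun δ hδ => htop (tendsto_one_div_add_atTop_nhds_zero_nat.eventually_lt_const hδ)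
  have hnorm : ∀ f ∈ 𝓛, ‖re f‖ ≤ ‖(UPow.mk f : UPow A ω)‖ := by
    intro f hf
    have hclosed : IsClosed {g : ℕ →ᵇ A | ‖re g‖ ≤ ‖(UPow.mk g : UPow A ω)‖} :=
      isClosed_le (map_continuous re).norm UPow.continuous_mk.norm
    refine (closure_minimal ?_ hclosed) (hcl hf)
    intro g hg
    obtain ⟨i, rfl⟩ : g ∈ Set.range d := hd ▸ Set.mem_insert_of_mem _ hg
    change ‖re (d i)‖ ≤ ‖(UPow.mk (d i) : UPow A ω)‖
    refine le_of_forall_pos_le_add fun δ hδ => ?_
    rw [hre]
    refine UPow.norm_le_of_eventually (by positivity) ?_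
    filter_upwards [hsmall δ hδ, htop (eventually_ge_atTop i)] with n hn hin
    linarith [(hσ n).2.2 i (Finset.mem_range.2 (by omega)), show ‖(d i).compContinuous ⟨σ, continuous_of_discreteTopology⟩ n‖ = ‖d i (σ n)‖ from rfl]
  have hcom : ∀ t ∈ T, ∀ g : ℕ →ᵇ A,
      (∀ δ : ℝ, 0 < δ → ∀ᶠ n in (ω : Filter ℕ), ‖lift t (σ n) * g n - g n * lift t (σ n)‖ ≤ δ) →
      Commute (UPow.mk g : UPow A ω) (re (lift t)) := by
    intro t _ g h
    refine (sub_eq_zero.1 (norm_le_zero_iff.1 (le_of_forall_pos_le_add fun δ hδ => ?_))).symm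
    rw [zero_add, hre, ← map_mul, ← map_mul, ← map_sub]
    exact UPow.norm_le_of_eventually hδ.le ((h δ hδ).mono fun n hn => by simpa using hn)
  have hA : ∀ t ∈ T, ∀ b : A, Commute (UPow.const b : UPow A ω) (re (lift t)) := by
    intro t ht b
    have hclosed : IsClosed {b : A | Commute (UPow.const b : UPow A ω) (re (lift t))} :=
      isClosed_eq (Continuous.mul (UPow.continuous_const' (A := A) (ω := ω)) continuous_const)
        (Continuous.mul continuous_const (UPow.continuous_const' (A := A) (ω := ω)))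
    refine closure_minimal ?_ hclosed (TopologicalSpace.denseRange_denseSeq A b)
    rintro _ ⟨i, rfl⟩
    refine hcom t ht _ fun δ hδ => ?_
    filter_upwards [hsmall δ hδ, htop (eventually_ge_atTop i)] with n hn hin
    exact le_trans (((hσ n).2.1 t ht i (Finset.mem_range.2 (by omega))).1) hn.le
  -- the graph
  let pair : (ℕ →ᵇ A) →⋆ₐ[ℂ] UPow A ω × UPow A ω := UPow.mkHom.prod re
  let G : StarSubalgebra ℂ (UPow A ω × UPow A ω) := (𝓛.map pair).topologicalClosure
  have hGc : IsClosed (G : Set (UPow A ω × UPow A ω)) :=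
    StarSubalgebra.isClosed_topologicalClosure _
  have hGle : ∀ p ∈ G, ‖p.2‖ ≤ ‖p.1‖ := by
    intro p hp
    refine closure_minimal ?_ (isClosed_le continuous_snd.norm continuous_fst.norm) hp
    rintro _ ⟨f, hf, rfl⟩
    exact hnorm f hf
  have huniq : ∀ p ∈ G, ∀ p' ∈ G, p.1 = p'.1 → p.2 = p'.2 := by
    intro p hp p' hp' h
    have h1 := hGle _ (sub_mem hp hp')
    rw [Prod.fst_sub, h, sub_self, norm_zero] at h1
    exact sub_eq_zero.1 (norm_le_zero_iff.1 h1)
  letI : CStarAlgebra G := StarSubalgebra.cstarAlgebra G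
  let pr : G →⋆ₐ[ℂ] UPow A ω := (StarAlgHom.fst ℂ _ _).comp G.subtype
  have hpr : Function.Injective pr := fun p p' h =>
    Subtype.ext (Prod.ext h (huniq _ p.2 _ p'.2 h))
  have hrange : IsClosed (Set.range pr) :=
    (NonUnitalStarAlgHom.isometry pr hpr).isClosedEmbedding.isClosed_range
  have hgen : ∀ t ∈ T, ((t : UPow A ω), re (lift t)) ∈ G := by
    intro t ht
    refine StarSubalgebra.le_topologicalClosure _ ⟨lift t,
      StarAlgebra.subset_adjoin ℂ _ (Finset.mem_image_of_mem lift ht), ?_⟩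
    exact Prod.ext (hlift t) rfl
  have hex : ∀ x : GenAlg T, ∃ p ∈ G, p.1 = ((x : CentralSeq A ω) : UPow A ω) := by
    let K : StarSubalgebra ℂ (CentralSeq A ω) :=
      (StarAlgHom.range pr).comap (CentralSeq A ω).subtype
    have hKc : IsClosed (K : Set (CentralSeq A ω)) := by
      exact hrange.preimage (continuous_subtype_val : Continuous (Subtype.val : CentralSeq A ω → UPow A ω))
    have hle : GenAlg T ≤ K := by
      refine StarSubalgebra.topologicalClosure_minimal (StarAlgebra.adjoin_le fun t ht => ?_) hKc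
      exact ⟨⟨_, hgen t ht⟩, rfl⟩
    intro x
    obtain ⟨⟨p, hp⟩, hpx⟩ := hle x.2
    exact ⟨p, hp, hpx⟩
  choose ψ hψG hψ using hex
  -- everything in the second coordinate commutes with `A` and `S`
  have hcent : ∀ g : UPow A ω, (∀ t ∈ T, Commute g (re (lift t))) →
      (∀ t ∈ T, Commute (star g) (re (lift t))) → ∀ p ∈ G, Commute g p.2 := by
    intro g hg hg' p hp
    refine closure_minimal ?_ (isClosed_eq (continuous_const.mul continuous_snd)
      (continuous_snd.mul continuous_const)) hp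
    rintro _ ⟨f, hf, rfl⟩
    have hle : 𝓛 ≤ (StarSubalgebra.centralizer ℂ ({g} : Set (UPow A ω))).comap re := by
      refine StarAlgebra.adjoin_le fun f hf => ?_
      obtain ⟨t, ht, rfl⟩ := Finset.mem_image.1 hf
      rw [SetLike.mem_coe, StarSubalgebra.mem_comap, StarSubalgebra.mem_centralizer_iff]
      rintro _ rfl
      exact ⟨(hg t ht).eq, (hg' t ht).eq⟩
    exact (StarSubalgebra.mem_centralizer_iff ℂ).1 (hle hf) g rfl |>.1
  have hmem : ∀ x : GenAlg T, (ψ x).2 ∈ CentralSeq A ω := fun x => mem_centralSeq.2 fun b =>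
    hcent _ (fun t ht => hA t ht b) (fun t ht => by rw [← UPow.const_star]; exact hA t ht _) _
      (hψG x)
  have huni : ∀ (x : GenAlg T) p, p ∈ G → p.1 = ((x : CentralSeq A ω) : UPow A ω) → (ψ x).2 = p.2 :=
    fun x p hp h => huniq _ (hψG x) _ hp ((hψ x).trans h.symm)
  refine ⟨{
    toFun := fun x => ⟨(ψ x).2, hmem x⟩
    map_one' := Subtype.ext (huni 1 1 (one_mem G) rfl)
    map_mul' := fun x y => Subtype.ext (huni (x * y) _ (mul_mem (hψG x) (hψG y))
      (by rw [Prod.fst_mul, hψ, hψ]; rfl))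
    map_zero' := Subtype.ext (huni 0 0 (zero_mem G) rfl)
    map_add' := fun x y => Subtype.ext (huni (x + y) _ (add_mem (hψG x) (hψG y))
      (by rw [Prod.fst_add, hψ, hψ]; rfl))
    commutes' := fun r => Subtype.ext (huni (algebraMap ℂ (GenAlg T) r) (algebraMap ℂ _ r) (G.algebraMap_mem r) rfl)
    map_star' := fun x => Subtype.ext (huni (star x) _ (star_mem (hψG x))
      (by rw [Prod.fst_star, hψ]; rfl)) }, fun z hz x => Subtype.ext ?_⟩
  have hz' : ∀ t ∈ T, Commute ((z : UPow A ω)) (re (lift t)) ∧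
      Commute (star (z : UPow A ω)) (re (lift t)) := by
    intro t ht
    rw [← hlift z, ← UPow.mk_star]
    constructor <;> refine hcom t ht _ fun δ hδ => ?_
    · filter_upwards [hsmall δ hδ] with n hn
      exact le_trans ((hσ n).1 t ht _ (Finset.mem_union_left _
        (Finset.mem_image_of_mem (fun s => lift s n) hz))) hn.le
    · filter_upwards [hsmall δ hδ] with n hn
      exact le_trans ((hσ n).1 t ht _ (Finset.mem_union_right _
        (Finset.mem_image_of_mem (fun s => star (lift s n)) hz))) hn.le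
  exact (hcent _ (fun t ht => (hz' t ht).1) (fun t ht => (hz' t ht).2) _ (hψG x)).eq

end

end VAgent.P101
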