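import Mathlib

/-!
# P101: joining commuting order zero maps

`OZ n F` is an order zero map `M_n → F` given on matrix units. For commuting `A`, `B` and a
threshold `a > 0` we build `join A B` with `1 - join(1) = q(A 1)^2 (1 - B 1)` exactly, where
`q = 1` on `(-∞, 2a]` and `0` on `[3a, ∞)`; the join is `A` on the part where `A 1 ≥ 3a`.
-/

namespace Vale.Agent.P101

open scoped Kronecker

noncomputable section

/-- Order zero map on matrix units. -/
structure OZ (n : ℕ) (F : Type*) [CStarAlgebra F] where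
  x : Fin n → Fin n → F
  x_star : ∀ i j, star (x i j) = x j i
  x_mul : ∀ i j k l, x i j * x k l = if j = k then x i l * ∑ m, x m m else 0

namespace OZ

variable {n : ℕ} {F : Type*} [CStarAlgebra F] (A B : OZ n F)

/-- The image of the unit. -/
def one' : F := ∑ m, A.x m m

theorem x_mul' (i j k l) : A.x i j * A.x k l = if j = k then A.x i l * A.one' else 0 :=
  A.x_mul i j k l

theorem one'_sa : IsSelfAdjoint A.one' := by
  simp [IsSelfAdjoint, one', star_sum, A.x_star]

theorem one'_comm (i j) : Commute A.one' (A.x i j) := by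
  unfold Commute SemiconjBy
  simp only [one', Finset.sum_mul, Finset.mul_sum]
  rw [Finset.sum_eq_single i (fun b _ hb => by rw [A.x_mul', if_neg hb]) (by simp),
    Finset.sum_eq_single j (fun b _ hb => by rw [A.x_mul', if_neg (Ne.symm hb)]) (by simp),
    A.x_mul', A.x_mul', if_pos rfl, if_pos rfl]

/-- Commuting maps. -/
def Comm : Prop := ∀ i j k l, Commute (A.x i j) (B.x k l)

/-- The zero map. -/
protected def zero : OZ n F where
  x := fun _ _ => 0
  x_star := by simp
  x_mul := by simp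

theorem zero_one' : (OZ.zero : OZ n F).one' = 0 := by simp [one', OZ.zero]

theorem h_normal : IsStarNormal A.one' := A.one'_sa.isStarNormal

/-- The spectrum inside `ℝ`. -/
def spec : C(spectrum ℂ A.one', ℝ) := ⟨fun s => (s : ℂ).re, by fun_prop⟩

/-- Functions of the image of the unit. -/
def ev : C(ℝ, ℂ) →⋆ₐ[ℂ] F :=
  (cfcHom (R := ℂ) A.h_normal).comp (ContinuousMap.compStarAlgHom' ℂ ℂ A.spec)

/-- The coordinate on `ℝ`. -/
def idR : C(ℝ, ℂ) := ⟨fun s => (s : ℂ), by fun_prop⟩

theorem ev_idR : A.ev idR = A.one' := by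
  have e : idR.comp A.spec = ContinuousMap.restrict (spectrum ℂ A.one') (ContinuousMap.id ℂ) := by
    ext ⟨s, hs⟩
    simp [idR, spec, ← A.one'_sa.mem_spectrum_eq_re hs]
  simp only [ev, StarAlgHom.comp_apply, ContinuousMap.compStarAlgHom'_apply, e]
  exact cfcHom_id A.h_normal

theorem ev_comm {y : F} (hy : Commute A.one' y) (f : C(ℝ, ℂ)) : Commute (A.ev f) y :=
  Commute.cfcHom A.h_normal hy (by rwa [A.one'_sa.star_eq]) _

theorem ev_comm_x (f : C(ℝ, ℂ)) (i j) : Commute (A.ev f) (A.x i j) :=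
  A.ev_comm (A.one'_comm i j) f

theorem one'_comm_of {y : F} (hy : ∀ i, Commute (A.x i i) y) : Commute A.one' y :=
  Commute.sum_left _ _ _ fun i _ => hy i

/-! ### Functions -/

variable (a : ℝ)

/-- `1` on `(-∞, 2a]`, `0` on `[3a, ∞)`. -/
def qR (s : ℝ) : ℝ := max 0 (min 1 (3 - s / a))

/-- `1` on `(-∞, a]`, `0` on `[2a, ∞)`. -/
def ρR (s : ℝ) : ℝ := max 0 (min 1 (2 - s / a))

theorem qR_eq_one {a : ℝ} (ha : 0 < a) {s : ℝ} (hs : s ≤ 2 * a) : qR a s = 1 := by
  have : s / a ≤ 2 := (div_le_iff₀ ha).2 hs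
  unfold qR; rw [min_eq_left (by linarith), max_eq_right zero_le_one]

theorem qR_eq_zero {a : ℝ} (ha : 0 < a) {s : ℝ} (hs : 3 * a ≤ s) : qR a s = 0 := by
  have : 3 ≤ s / a := (le_div_iff₀ ha).2 hs
  unfold qR; rw [max_eq_left]; exact le_trans (min_le_right _ _) (by linarith)

theorem ρR_eq_one {a : ℝ} (ha : 0 < a) {s : ℝ} (hs : s ≤ a) : ρR a s = 1 := by
  have : s / a ≤ 1 := (div_le_one ha).2 hs
  unfold ρR; rw [min_eq_left (by linarith), max_eq_right zero_le_one]

theorem ρR_eq_zero {a : ℝ} (ha : 0 < a) {s : ℝ} (hs : 2 * a ≤ s) : ρR a s = 0 := by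
  have : 2 ≤ s / a := (le_div_iff₀ ha).2 hs
  unfold ρR; rw [max_eq_left]; exact le_trans (min_le_right _ _) (by linarith)

/-- `q` as a complex function. -/
def qC : C(ℝ, ℂ) := ⟨fun s => (qR a s : ℂ), by unfold qR; fun_prop⟩

/-- `q^2`. -/
def GC : C(ℝ, ℂ) := qC a * qC a

variable {a} (ha : 0 < a)

/-- `(1 - q^2)/s`. -/
def PC : C(ℝ, ℂ) :=
  ⟨fun s => ((1 : ℂ) - GC a s) / ((max s a : ℝ) : ℂ),
    (continuous_const.sub (GC a).continuous).div (by fun_prop) fun s => by
      simp only [ne_eq, Complex.ofReal_eq_zero]; exact (lt_max_of_lt_right ha).ne'⟩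

theorem PC_mul (s : ℝ) : PC ha s * (s : ℂ) = 1 - GC a s := by
  change ((1 : ℂ) - GC a s) / ((max s a : ℝ) : ℂ) * (s : ℂ) = _
  rcases le_total a s with h | h
  · rw [max_eq_left h, div_mul_cancel₀]
    simp only [ne_eq, Complex.ofReal_eq_zero]; linarith
  · have : qR a s = 1 := qR_eq_one ha (by linarith)
    simp [GC, qC, this]

theorem PC_eq_zero {s : ℝ} (hs : s ≤ 2 * a) : PC ha s = 0 := by
  simp [PC, GC, qC, qR_eq_one ha hs]

variable (n)

/-- Index of `M_n ⊗ M_n`. -/
abbrev JIx : Type := Fin n × Fin n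

variable {n}

/-- The flip. -/
def swapM : Matrix (JIx n) (JIx n) ℂ := Matrix.of fun c c' => if (c.2, c.1) = c' then 1 else 0

theorem swapM_mul (M : Matrix (JIx n) (JIx n) ℂ) (c c' : JIx n) :
    ((swapM : Matrix (JIx n) (JIx n) ℂ) * M) c c' = M (c.2, c.1) c' := by
  simp [Matrix.mul_apply, swapM, ite_mul]

theorem mul_swapM (M : Matrix (JIx n) (JIx n) ℂ) (c c' : JIx n) :
    (M * (swapM : Matrix (JIx n) (JIx n) ℂ)) c c' = M c (c'.2, c'.1) := by
  rw [Matrix.mul_apply, Finset.sum_eq_single (c'.2, c'.1)]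
  · simp [swapM]
  · intro b _ hb
    simp only [swapM, Matrix.of_apply]
    rw [if_neg fun h => hb (by rw [← h]), mul_zero]
  · simp

theorem swapM_sq : (swapM : Matrix (JIx n) (JIx n) ℂ) * swapM = 1 := by
  ext c c'
  rw [swapM_mul]
  simp [swapM, Matrix.one_apply]

theorem swapM_star : star (swapM : Matrix (JIx n) (JIx n) ℂ) = swapM := by
  ext c c'
  simp only [Matrix.star_apply, swapM, Matrix.of_apply]
  by_cases h : (c.2, c.1) = c'
  · rw [if_pos h, if_pos (by rw [← h])]; simp
  · rw [if_neg h, if_neg fun h' => h (by rw [← h'])]; simp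

variable (a) in
/-- The rotation. -/
def rotJ (s : ℝ) : Matrix (JIx n) (JIx n) ℂ :=
  ((1 + Complex.exp (Real.pi * (ρR a s : ℂ) * Complex.I)) / 2) • (1 : Matrix (JIx n) (JIx n) ℂ)
    + ((1 - Complex.exp (Real.pi * (ρR a s : ℂ) * Complex.I)) / 2) • swapM

theorem continuous_rotJ : Continuous (rotJ a : ℝ → Matrix (JIx n) (JIx n) ℂ) := by
  unfold rotJ ρR; fun_prop

theorem rotJ_unitary (s : ℝ) :
    star (rotJ a s : Matrix (JIx n) (JIx n) ℂ) * rotJ a s = 1 ∧
      (rotJ a s : Matrix (JIx n) (JIx n) ℂ) * star (rotJ a s) = 1 := by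
  set z := Complex.exp (Real.pi * (ρR a s : ℂ) * Complex.I) with hz
  have hzz : (starRingEnd ℂ) z * z = 1 := by
    rw [hz, ← Complex.exp_conj, ← Complex.exp_add]; simp
  have h1 : (starRingEnd ℂ) ((1 + z) / 2) * ((1 + z) / 2) +
      (starRingEnd ℂ) ((1 - z) / 2) * ((1 - z) / 2) = 1 := by
    simp only [map_div₀, map_add, map_sub, map_one, map_ofNat]
    linear_combination (1 / 2 : ℂ) * hzz
  have h2 : (starRingEnd ℂ) ((1 + z) / 2) * ((1 - z) / 2) +
      (starRingEnd ℂ) ((1 - z) / 2) * ((1 + z) / 2) = 0 := by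
    simp only [map_div₀, map_add, map_sub, map_one, map_ofNat]
    linear_combination (-1 / 2 : ℂ) * hzz
  have e : star (rotJ a s : Matrix (JIx n) (JIx n) ℂ) * rotJ a s = 1 := by
    simp only [rotJ, ← hz, star_add, star_smul, star_one, swapM_star, add_mul, mul_add,
      smul_mul_smul_comm, one_mul, mul_one, swapM_sq, Complex.star_def]
    calc _ = ((starRingEnd ℂ) ((1 + z) / 2) * ((1 + z) / 2) +
          (starRingEnd ℂ) ((1 - z) / 2) * ((1 - z) / 2)) • (1 : Matrix (JIx n) (JIx n) ℂ) +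
        ((starRingEnd ℂ) ((1 + z) / 2) * ((1 - z) / 2) +
          (starRingEnd ℂ) ((1 - z) / 2) * ((1 + z) / 2)) • swapM := by
            simp only [add_smul]; abel
      _ = 1 := by rw [h1, h2, one_smul, zero_smul, add_zero]
  exact ⟨e, mul_eq_one_comm.1 e⟩

/-- `e_ij ⊗ 1`. -/
def E1 (i j : Fin n) : Matrix (JIx n) (JIx n) ℂ :=
  Matrix.single i j (1 : ℂ) ⊗ₖ (1 : Matrix (Fin n) (Fin n) ℂ)

/-- `1 ⊗ e_ij`. -/
def E2 (i j : Fin n) : Matrix (JIx n) (JIx n) ℂ :=
  (1 : Matrix (Fin n) (Fin n) ℂ) ⊗ₖ Matrix.single i j (1 : ℂ)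

theorem E1_mul (i j k l : Fin n) : E1 i j * E1 k l = if j = k then E1 i l else 0 := by
  rw [E1, E1, ← Matrix.mul_kronecker_mul, one_mul]
  split_ifs with h
  · subst h; rw [Matrix.single_mul_single_same, one_mul]; rfl
  · rw [Matrix.single_mul_single_of_ne _ _ _ _ h, Matrix.zero_kronecker]

theorem E2_mul (i j k l : Fin n) : E2 i j * E2 k l = if j = k then E2 i l else 0 := by
  rw [E2, E2, ← Matrix.mul_kronecker_mul, one_mul]
  split_ifs with h
  · subst h; rw [Matrix.single_mul_single_same, one_mul]; rfl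
  · rw [Matrix.single_mul_single_of_ne _ _ _ _ h, Matrix.kronecker_zero]

theorem E1_star (i j : Fin n) : star (E1 i j) = E1 j i := by
  simp [E1, Matrix.star_eq_conjTranspose, Matrix.conjTranspose_kronecker]

theorem E2_star (i j : Fin n) : star (E2 i j) = E2 j i := by
  simp [E2, Matrix.star_eq_conjTranspose, Matrix.conjTranspose_kronecker]

theorem swap_E1 (i j : Fin n) : swapM * E1 i j * swapM = E2 i j := by
  ext c c'
  rw [mul_swapM, swapM_mul]
  simp [E1, E2, Matrix.one_apply, Matrix.single_apply]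
  by_cases h1 : c.1 = c'.1 <;> simp [h1]

theorem E1_sum : ∑ i, E1 i i = (1 : Matrix (JIx n) (JIx n) ℂ) := by
  ext c c'
  rw [Matrix.sum_apply]
  simp [E1, Matrix.one_apply, Matrix.single_apply, ite_and]
  by_cases h1 : c.1 = c'.1 <;> by_cases h2 : c.2 = c'.2 <;> simp_all [Prod.ext_iff, eq_comm]

theorem E2_sum : ∑ i, E2 i i = (1 : Matrix (JIx n) (JIx n) ℂ) := by
  ext c c'
  rw [Matrix.sum_apply]
  simp [E2, Matrix.one_apply, Matrix.single_apply, ite_and]
  by_cases h1 : c.1 = c'.1 <;> by_cases h2 : c.2 = c'.2 <;> simp_all [Prod.ext_iff, eq_comm]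

variable (a) in
/-- `q^2 U E1 U*`. -/
def KJ (i j : Fin n) (s : ℝ) : Matrix (JIx n) (JIx n) ℂ :=
  GC a s • (rotJ a s * E1 i j * star (rotJ a s))

theorem KJ_mul (i j k l : Fin n) (s : ℝ) :
    KJ a i j s * KJ a k l s = if j = k then GC a s • KJ a i l s else 0 := by
  have e : rotJ a s * E1 i j * star (rotJ a s) * (rotJ a s * E1 k l * star (rotJ a s)) =
      rotJ a s * (E1 i j * E1 k l) * star (rotJ a s) := by
    simp only [mul_assoc]
    rw [← mul_assoc (star (rotJ a s)) (rotJ a s), (rotJ_unitary s).1, one_mul]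
  rw [KJ, KJ, smul_mul_smul_comm, e, E1_mul]
  split_ifs
  · rw [KJ, smul_smul]
  · simp

theorem KJ_low {s : ℝ} (hs : s ≤ a) (ha : 0 < a) (i j : Fin n) :
    KJ a i j s = GC a s • E2 i j := by
  have : rotJ a s = (swapM : Matrix (JIx n) (JIx n) ℂ) := by
    simp [rotJ, ρR_eq_one ha hs, Complex.exp_pi_mul_I]
  rw [KJ, this, swapM_star, swap_E1]

theorem PC_KJ (s : ℝ) (i j : Fin n) : PC ha s • KJ a i j s = (PC ha s * GC a s) • E1 i j := by
  rcases le_total s (2 * a) with h | h
  · rw [PC_eq_zero ha h]; simp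
  · have : rotJ a s = (1 : Matrix (JIx n) (JIx n) ℂ) := by simp [rotJ, ρR_eq_zero ha h]
    rw [KJ, this]; simp [smul_smul]

theorem KJ_sum (s : ℝ) : ∑ i, KJ a i i s = GC a s • (1 : Matrix (JIx n) (JIx n) ℂ) := by
  simp only [KJ, ← Finset.smul_sum, ← Finset.mul_sum, ← Finset.sum_mul, E1_sum, mul_one,
    (rotJ_unitary s).2]

theorem KJ_star (i j : Fin n) (s : ℝ) : star (KJ a i j s) = KJ a j i s := by
  have hg : star (GC a s) = GC a s := by simp [GC, qC]
  simp [KJ, star_smul, hg, E1_star, mul_assoc]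

/-- `(q^2 U E1 U* - q^2 E2)/s`. -/
def DJ {a : ℝ} (ha : 0 < a) (i j : Fin n) : C(ℝ, Matrix (JIx n) (JIx n) ℂ) :=
  ⟨fun s => ((max s a : ℝ) : ℂ)⁻¹ • (KJ a i j s - GC a s • E2 i j), by
    have hK : Continuous fun s => KJ a i j s :=
      (GC a).continuous.smul ((continuous_rotJ.mul continuous_const).mul continuous_rotJ.star)
    have hm : Continuous fun s : ℝ => ((max s a : ℝ) : ℂ)⁻¹ :=
      Continuous.inv₀ (by fun_prop) fun s => by
        simp only [ne_eq, Complex.ofReal_eq_zero]; exact (lt_max_of_lt_right ha).ne'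
    exact hm.smul (hK.sub ((GC a).continuous.smul continuous_const))⟩

theorem DJ_mul_id (i j : Fin n) (s : ℝ) :
    (s : ℂ) • DJ ha i j s = KJ a i j s - GC a s • E2 i j := by
  change (s : ℂ) • (((max s a : ℝ) : ℂ)⁻¹ • (KJ a i j s - GC a s • E2 i j)) = _
  rcases le_total a s with h | h
  · rw [max_eq_left h, smul_smul, mul_inv_cancel₀, one_smul]
    simp only [ne_eq, Complex.ofReal_eq_zero]; linarith
  · rw [KJ_low h ha]; simp

theorem DJ_low {s : ℝ} (hs : s ≤ a) (i j : Fin n) : DJ ha i j s = 0 := by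
  change ((max s a : ℝ) : ℂ)⁻¹ • (KJ a i j s - GC a s • E2 i j) = 0
  rw [KJ_low hs ha]; simp

theorem eq_of_id_smul {Y Z : Matrix (JIx n) (JIx n) ℂ} {s : ℝ}
    (h : (s : ℂ) • Y = (s : ℂ) • Z) (h0 : s = 0 → Y = Z) : Y = Z := by
  by_cases hs : s = 0
  · exact h0 hs
  · exact smul_right_injective _ (Complex.ofReal_ne_zero.2 hs) h

/-! ### The `M_n ⊗ M_n` part -/

/-- Scaled units. -/
def w (c c' : JIx n) : F := A.x c.1 c'.1 * B.x c.2 c'.2

/-- Functions with values in `M_n ⊗ M_n`. -/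
def X (D : C(ℝ, Matrix (JIx n) (JIx n) ℂ)) : F :=
  ∑ c, ∑ c', A.ev ⟨fun s => D s c c', D.continuous.matrix_elem c c'⟩ * A.w B c c'

theorem X_add (D D' : C(ℝ, Matrix (JIx n) (JIx n) ℂ)) :
    A.X B (D + D') = A.X B D + A.X B D' := by
  simp only [X, ← Finset.sum_add_distrib, ← add_mul, ← map_add]; rfl

theorem X_zero : A.X B 0 = 0 := by
  have e : ∀ c c' : JIx n, (⟨fun s => (0 : C(ℝ, Matrix (JIx n) (JIx n) ℂ)) s c c',
      (0 : C(ℝ, Matrix (JIx n) (JIx n) ℂ)).continuous.matrix_elem c c'⟩ : C(ℝ, ℂ)) = 0 :=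
    fun c c' => rfl
  simp only [X, e, map_zero, zero_mul, Finset.sum_const_zero]

/-- Scalar function times a matrix function. -/
def fmul (f : C(ℝ, ℂ)) (D : C(ℝ, Matrix (JIx n) (JIx n) ℂ)) :
    C(ℝ, Matrix (JIx n) (JIx n) ℂ) := ⟨fun s => f s • D s, f.continuous.smul D.continuous⟩

theorem X_fmul (f : C(ℝ, ℂ)) (D) : A.X B (fmul f D) = A.ev f * A.X B D := by
  simp only [X, Finset.mul_sum, ← mul_assoc, ← map_mul]; rfl

variable {A B} (hAB : A.Comm B)
include hAB

theorem h_comm_B (i j) : Commute A.one' (B.x i j) := A.one'_comm_of fun m => hAB m m i j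

theorem A_comm_T (i j) : Commute (A.x i j) B.one' :=
  Commute.sum_right _ _ _ fun m _ => hAB i j m m

theorem h_comm_T : Commute A.one' B.one' := A.one'_comm_of fun m => A_comm_T hAB m m

theorem h_comm_w (c c') : Commute A.one' (A.w B c c') :=
  (A.one'_comm _ _).mul_right (h_comm_B hAB _ _)

theorem T_comm_w (c c') : Commute B.one' (A.w B c c') :=
  (A_comm_T hAB _ _).symm.mul_right (B.one'_comm _ _)

theorem T_comm_ev (f) : Commute B.one' (A.ev f) :=
  (A.ev_comm (h_comm_T hAB) f).symm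

theorem w_mul (a b c e : JIx n) : A.w B a b * A.w B c e =
    if b = c then A.one' * B.one' * A.w B a e else 0 := by
  have h : A.w B a b * A.w B c e = A.x a.1 b.1 * A.x c.1 e.1 * (B.x a.2 b.2 * B.x c.2 e.2) := by
    simp only [w, mul_assoc]
    rw [← mul_assoc (B.x a.2 b.2), ← (hAB c.1 e.1 a.2 b.2).eq, mul_assoc]
  rw [h, A.x_mul', B.x_mul']
  by_cases h1 : b.1 = c.1
  · by_cases h2 : b.2 = c.2
    · rw [if_pos h1, if_pos h2, if_pos (Prod.ext h1 h2), ← (A.one'_comm _ _).eq,
        ← (B.one'_comm a.2 e.2).eq, w]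
      simp only [mul_assoc]
      rw [← mul_assoc (A.x a.1 e.1), (A_comm_T hAB _ _).eq, mul_assoc]
    · rw [if_neg h2, if_neg fun h : b = c => h2 (h ▸ rfl), mul_zero]
  · rw [if_neg h1, if_neg fun h : b = c => h1 (h ▸ rfl), zero_mul]

theorem X_mul (D D' : C(ℝ, Matrix (JIx n) (JIx n) ℂ)) :
    A.X B D * A.X B D' = B.one' * A.X B (fmul idR (D * D')) := by
  rw [X_fmul, ev_idR, ← mul_assoc, (h_comm_T hAB).symm.eq]
  simp only [X]
  rw [Finset.sum_mul, Finset.mul_sum]
  refine Finset.sum_congr rfl fun a _ => ?_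
  have key : ∀ b c e, A.ev ⟨fun s => D s a b, D.continuous.matrix_elem a b⟩ * A.w B a b *
      (A.ev ⟨fun s => D' s c e, D'.continuous.matrix_elem c e⟩ * A.w B c e) =
      if b = c then A.one' * B.one' * (A.ev (⟨fun s => D s a b, D.continuous.matrix_elem a b⟩ *
        ⟨fun s => D' s c e, D'.continuous.matrix_elem c e⟩) * A.w B a e) else 0 := by
    intro b c e
    rw [mul_assoc, ← mul_assoc (A.w B a b), ← (A.ev_comm (h_comm_w hAB a b) _).eq, mul_assoc,
      w_mul hAB, ← mul_assoc, ← map_mul]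
    split_ifs
    · rw [← mul_assoc, ← mul_assoc (A.one' * B.one'),
        (((A.ev_comm (Commute.refl _) _).mul_right (T_comm_ev hAB _).symm)).eq]
    · simp
  rw [Finset.sum_mul, Finset.mul_sum]
  calc _ = ∑ b, ∑ e, A.one' * B.one' *
      (A.ev (⟨fun s => D s a b, D.continuous.matrix_elem a b⟩ *
        ⟨fun s => D' s b e, D'.continuous.matrix_elem b e⟩) * A.w B a e) := by
        refine Finset.sum_congr rfl fun b _ => ?_
        rw [Finset.mul_sum, Finset.sum_eq_single b]
        · rw [Finset.mul_sum]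
          exact Finset.sum_congr rfl fun e _ => by rw [key, if_pos rfl]
        · intro c _ hc
          rw [Finset.mul_sum]
          exact Finset.sum_eq_zero fun e _ => by rw [key, if_neg (Ne.symm hc)]
        · simp
    _ = _ := by
        rw [Finset.sum_comm]
        refine Finset.sum_congr rfl fun e _ => ?_
        rw [← Finset.mul_sum, ← Finset.sum_mul, ← map_sum]
        congr 3
        ext s
        simp [Matrix.mul_apply]

theorem A_X (i j : Fin n) (D) :
    A.x i j * A.X B D = A.X B (fmul idR (ContinuousMap.const ℝ (E1 i j) * D)) := by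
  rw [X_fmul, ev_idR]
  simp only [X, Finset.mul_sum]
  have key : ∀ c c', A.x i j * (A.ev ⟨fun s => D s c c', D.continuous.matrix_elem c c'⟩ *
      A.w B c c') = if j = c.1 then A.one' * (A.ev ⟨fun s => D s c c', D.continuous.matrix_elem c c'⟩ *
        A.w B (i, c.2) c') else 0 := by
    intro c c'
    rw [← mul_assoc, ← (A.ev_comm_x _ i j).eq, mul_assoc, w, ← mul_assoc (A.x i j), A.x_mul']
    split_ifs
    · rw [← (A.one'_comm i c'.1).eq, w]
      simp only [← mul_assoc]
      rw [(A.ev_comm (Commute.refl _) _).eq]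
    · simp
  have hR : ∀ c c', (⟨fun s => (ContinuousMap.const ℝ (E1 i j) * D) s c c',
      (ContinuousMap.const ℝ (E1 i j) * D).continuous.matrix_elem c c'⟩ : C(ℝ, ℂ)) =
      if i = c.1 then ⟨fun s => D s (j, c.2) c', D.continuous.matrix_elem _ c'⟩ else 0 := by
    intro c c'
    split_ifs with h
    · ext s; simp [E1, Matrix.mul_apply, Fintype.sum_prod_type, Matrix.single_apply, Matrix.one_apply,
        ite_and, h]
    · ext s; simp [E1, Matrix.mul_apply, Matrix.single_apply, h]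
  simp only [key, hR, apply_ite A.ev, map_zero, ite_mul, zero_mul, mul_ite, mul_zero,
    Fintype.sum_prod_type, Finset.sum_ite_irrel, Finset.sum_const_zero, Finset.sum_ite_eq,
    Finset.mem_univ, if_true]

theorem T_X (i j : Fin n) (D) :
    B.x i j * A.X B D = B.one' * A.X B (ContinuousMap.const ℝ (E2 i j) * D) := by
  simp only [X, Finset.mul_sum]
  have key : ∀ c c', B.x i j * (A.ev ⟨fun s => D s c c', D.continuous.matrix_elem c c'⟩ *
      A.w B c c') = if j = c.2 then B.one' * (A.ev ⟨fun s => D s c c', D.continuous.matrix_elem c c'⟩ *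
        A.w B (c.1, i) c') else 0 := by
    intro c c'
    rw [← mul_assoc, ← (A.ev_comm (h_comm_B hAB i j) _).eq, mul_assoc, w, ← mul_assoc (B.x i j),
      ← (hAB c.1 c'.1 i j).eq, mul_assoc (A.x c.1 c'.1), B.x_mul']
    split_ifs
    · rw [← (B.one'_comm i c'.2).eq, w, ← mul_assoc (A.x c.1 c'.1), (A_comm_T hAB _ _).eq,
        mul_assoc B.one', ← mul_assoc, ← (T_comm_ev hAB _).eq, mul_assoc]
    · simp
  have hR : ∀ c c', (⟨fun s => (ContinuousMap.const ℝ (E2 i j) * D) s c c',
      (ContinuousMap.const ℝ (E2 i j) * D).continuous.matrix_elem c c'⟩ : C(ℝ, ℂ)) =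
      if i = c.2 then ⟨fun s => D s (c.1, j) c', D.continuous.matrix_elem _ c'⟩ else 0 := by
    intro c c'
    split_ifs with h
    · ext s; simp [E2, Matrix.mul_apply, Fintype.sum_prod_type, Matrix.single_apply, Matrix.one_apply,
        ite_and, h]
    · ext s; simp [E2, Matrix.mul_apply, Matrix.single_apply, h]
  simp only [key, hR, apply_ite A.ev, map_zero, ite_mul, zero_mul, mul_ite, mul_zero,
    Fintype.sum_prod_type, Finset.sum_ite_irrel, Finset.sum_const_zero, Finset.sum_ite_eq,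
    Finset.mem_univ, if_true]

theorem X_star (D) : star (A.X B D) = A.X B (star D) := by
  simp only [X, star_sum, star_mul]
  rw [Finset.sum_comm]
  refine Finset.sum_congr rfl fun c _ => Finset.sum_congr rfl fun c' _ => ?_
  have hw : star (A.w B c' c) = A.w B c c' := by
    simp [w, A.x_star, B.x_star, (hAB c.1 c'.1 c.2 c'.2).eq]
  rw [hw, ← map_star, ← (A.ev_comm (h_comm_w hAB c c') _).eq]
  rfl

theorem A_T (i j k l : Fin n) :
    A.x i j * B.x k l = A.X B (ContinuousMap.const ℝ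
      (Matrix.single i j (1 : ℂ) ⊗ₖ Matrix.single k l (1 : ℂ))) := by
  simp only [X, ContinuousMap.const_apply]
  rw [Finset.sum_eq_single (i, k), Finset.sum_eq_single (j, l)]
  · rw [show (⟨fun _ => (Matrix.single i j (1 : ℂ) ⊗ₖ Matrix.single k l (1 : ℂ)) (i, k) (j, l),
      continuous_const⟩ : C(ℝ, ℂ)) = 1 by ext; simp, map_one, one_mul, w]
  · intro b _ hb
    rw [show (⟨fun _ => (Matrix.single i j (1 : ℂ) ⊗ₖ Matrix.single k l (1 : ℂ)) (i, k) b,
      continuous_const⟩ : C(ℝ, ℂ)) = 0 by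
        ext; rcases b with ⟨b1, b2⟩
        simp [Matrix.single_apply]
        rintro rfl rfl; exact hb rfl, map_zero, zero_mul]
  · simp
  · intro b _ hb
    refine Finset.sum_eq_zero fun c _ => ?_
    rw [show (⟨fun _ => (Matrix.single i j (1 : ℂ) ⊗ₖ Matrix.single k l (1 : ℂ)) b c,
      continuous_const⟩ : C(ℝ, ℂ)) = 0 by
        ext; rcases b with ⟨b1, b2⟩
        simp [Matrix.single_apply]
        intro h1 _ h2 _; exact hb (by rw [h1, h2]), map_zero, zero_mul]
  · simp

/-- The matrix units of the join. -/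
def jx {a : ℝ} (ha : 0 < a) (_hAB : A.Comm B) (i j : Fin n) : F :=
  A.ev (PC ha) * A.x i j + A.ev (GC a) * B.x i j + A.X B (DJ ha i j)

theorem jx_sum : ∑ i, jx ha hAB i i = A.ev (PC ha) * A.one' + A.ev (GC a) * B.one' := by
  have hD : ∑ i, DJ ha i i = (0 : C(ℝ, Matrix (JIx n) (JIx n) ℂ)) := by
    refine ContinuousMap.ext fun s => ?_
    rw [ContinuousMap.sum_apply]
    change ∑ i, ((max s a : ℝ) : ℂ)⁻¹ • (KJ a i i s - GC a s • E2 i i) = 0
    rw [← Finset.smul_sum, Finset.sum_sub_distrib, KJ_sum, ← Finset.smul_sum, E2_sum, sub_self,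
      smul_zero]
  have hX : ∀ S : Finset (Fin n), ∑ i ∈ S, A.X B (DJ ha i i) = A.X B (∑ i ∈ S, DJ ha i i) := by
    intro S
    induction S using Finset.cons_induction with
    | empty => simp [X_zero]
    | cons b S hb ih => rw [Finset.sum_cons, Finset.sum_cons, ih, X_add]
  simp only [jx, Finset.sum_add_distrib, ← Finset.mul_sum, hX, hD, X_zero, add_zero]
  rfl

theorem jx_star (i j : Fin n) :
    star (jx ha hAB i j) = jx ha hAB j i := by
  have hG : star (GC a) = GC a := by ext s; simp [GC, qC]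
  have hP : star (PC ha) = PC ha := by ext s; simp [PC, GC, qC]
  have hD : star (DJ ha i j) = DJ ha j i := by
    ext1 s
    change star (((max s a : ℝ) : ℂ)⁻¹ • (KJ a i j s - GC a s • E2 i j)) = _
    rw [star_smul, star_sub, star_smul, KJ_star, E2_star]
    simp [DJ, GC, qC]
  simp only [jx, star_add, star_mul, A.x_star, B.x_star, ← map_star, hG, hP, X_star hAB, hD,
    ← (A.ev_comm_x _ j i).eq, ← (A.ev_comm (h_comm_B hAB j i) _).eq]

theorem h_T (i l : Fin n) :
    A.one' * B.x i l = A.X B (ContinuousMap.const ℝ (E2 i l)) := by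
  simp only [one', Finset.sum_mul, A_T hAB]
  have hX : ∀ S : Finset (Fin n), ∑ m ∈ S, A.X B (ContinuousMap.const ℝ
      (Matrix.single m m (1 : ℂ) ⊗ₖ Matrix.single i l (1 : ℂ))) = A.X B (ContinuousMap.const ℝ
      ((∑ m ∈ S, Matrix.single m m (1 : ℂ)) ⊗ₖ Matrix.single i l (1 : ℂ))) := by
    intro S
    induction S using Finset.cons_induction with
    | empty =>
      rw [Finset.sum_empty, Finset.sum_empty, Matrix.zero_kronecker]
      exact (X_zero A B).symm
    | cons b S hb ih =>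
      rw [Finset.sum_cons, Finset.sum_cons, ih, ← X_add, Matrix.add_kronecker]; rfl
  rw [hX]
  congr 3
  ext p q
  simp [Matrix.sum_apply, Matrix.single_apply, Matrix.one_apply, ite_and]

theorem A_Tone (i l : Fin n) :
    A.x i l * B.one' = A.X B (ContinuousMap.const ℝ (E1 i l)) := by
  simp only [one', Finset.mul_sum, A_T hAB]
  have hX : ∀ S : Finset (Fin n), ∑ m ∈ S, A.X B (ContinuousMap.const ℝ
      (Matrix.single i l (1 : ℂ) ⊗ₖ Matrix.single m m (1 : ℂ))) = A.X B (ContinuousMap.const ℝ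
      (Matrix.single i l (1 : ℂ) ⊗ₖ (∑ m ∈ S, Matrix.single m m (1 : ℂ)))) := by
    intro S
    induction S using Finset.cons_induction with
    | empty =>
      rw [Finset.sum_empty, Finset.sum_empty, Matrix.kronecker_zero]
      exact (X_zero A B).symm
    | cons b S hb ih =>
      rw [Finset.sum_cons, Finset.sum_cons, ih, ← X_add, Matrix.kronecker_add]; rfl
  rw [hX]
  congr 3
  ext p q
  simp [Matrix.sum_apply, Matrix.single_apply, Matrix.one_apply, ite_and]

theorem jx_mul (i j k l : Fin n) :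
    jx ha hAB i j * jx ha hAB k l =
      if j = k then jx ha hAB i l * ∑ m, jx ha hAB m m
      else 0 := by
  set P := PC ha
  set G := GC a
  set Dij := DJ ha i j
  set Dkl := DJ ha k l
  -- the two `M_n ⊗ M_n` valued coefficients
  let Y1 : C(ℝ, Matrix (JIx n) (JIx n) ℂ) :=
    fmul (P * G) (ContinuousMap.const ℝ (Matrix.single i j (1 : ℂ) ⊗ₖ Matrix.single k l (1 : ℂ))) +
    fmul (G * P) (ContinuousMap.const ℝ (Matrix.single k l (1 : ℂ) ⊗ₖ Matrix.single i j (1 : ℂ))) +
    fmul (P * idR) (ContinuousMap.const ℝ (E1 i j) * Dkl + Dij * ContinuousMap.const ℝ (E1 k l))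
  let Y2 : C(ℝ, Matrix (JIx n) (JIx n) ℂ) :=
    fmul G (ContinuousMap.const ℝ (E2 i j) * Dkl + Dij * ContinuousMap.const ℝ (E2 k l)) +
    fmul idR (Dij * Dkl)
  have X_A : A.X B Dij * A.x k l = A.X B (fmul idR (Dij * ContinuousMap.const ℝ (E1 k l))) := by
    have h := congrArg star (A_X hAB l k (star Dij))
    rw [star_mul, X_star hAB, X_star hAB, star_star, A.x_star] at h
    rw [h]; congr 1
    ext1 s
    simp [fmul, idR, star_smul, E1_star]
  have X_T : A.X B Dij * B.x k l = B.one' * A.X B (Dij * ContinuousMap.const ℝ (E2 k l)) := by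
    have h := congrArg star (T_X hAB l k (star Dij))
    rw [star_mul, star_mul, X_star hAB, X_star hAB, star_star, B.x_star, B.one'_sa.star_eq] at h
    rw [h]
    have hc : ∀ D, Commute B.one' (A.X B D) := fun D => by
      rw [X]; exact Commute.sum_right _ _ _ fun c _ => Commute.sum_right _ _ _ fun c' _ =>
        (T_comm_ev hAB _).mul_right (T_comm_w hAB c c')
    rw [(hc _).eq]; congr 2
    ext1 s
    simp [E2_star]
  have cT : ∀ f, B.one' * A.ev f = A.ev f * B.one' := fun f => (T_comm_ev hAB f).eq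
  have cA : ∀ f p q, A.x p q * A.ev f = A.ev f * A.x p q := fun f p q => (A.ev_comm_x f p q).eq.symm
  have cB : ∀ f p q, B.x p q * A.ev f = A.ev f * B.x p q :=
    fun f p q => (A.ev_comm (h_comm_B hAB p q) f).eq.symm
  have cX : ∀ f D, A.X B D * A.ev f = A.X B (fmul f D) := fun f D => by
    rw [X_fmul]
    refine (Commute.symm ?_).eq
    rw [X]; exact Commute.sum_right _ _ _ fun c _ => Commute.sum_right _ _ _ fun c' _ =>
      (A.ev_comm (A.ev_comm (Commute.refl _) _).symm f).mul_right (A.ev_comm (h_comm_w hAB c c') f)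
  have L : jx ha hAB i j * jx ha hAB k l =
      A.ev (P * P) * (A.x i j * A.x k l) + A.ev (G * G) * (B.x i j * B.x k l) +
        A.X B Y1 + B.one' * A.X B Y2 := by
    have t1 : A.ev P * A.x i j * (A.ev P * A.x k l) = A.ev (P * P) * (A.x i j * A.x k l) := by
      rw [map_mul, mul_assoc, ← mul_assoc (A.x i j), cA]; simp only [mul_assoc]
    have t2 : A.ev G * B.x i j * (A.ev G * B.x k l) = A.ev (G * G) * (B.x i j * B.x k l) := by
      rw [map_mul, mul_assoc, ← mul_assoc (B.x i j), cB]; simp only [mul_assoc]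
    have t3 : A.ev P * A.x i j * (A.ev G * B.x k l) = A.X B (fmul (P * G) (ContinuousMap.const ℝ
        (Matrix.single i j (1 : ℂ) ⊗ₖ Matrix.single k l (1 : ℂ)))) := by
      rw [X_fmul, ← A_T hAB, map_mul, mul_assoc, ← mul_assoc (A.x i j), cA]
      simp only [mul_assoc]
    have t4 : A.ev G * B.x i j * (A.ev P * A.x k l) = A.X B (fmul (G * P) (ContinuousMap.const ℝ
        (Matrix.single k l (1 : ℂ) ⊗ₖ Matrix.single i j (1 : ℂ)))) := by
      rw [X_fmul, ← A_T hAB, map_mul, mul_assoc, ← mul_assoc (B.x i j), cB, mul_assoc (A.ev P),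
        ← (hAB k l i j).eq]
      simp only [mul_assoc]
    have t5 : A.ev P * A.x i j * A.X B Dkl =
        A.X B (fmul (P * idR) (ContinuousMap.const ℝ (E1 i j) * Dkl)) := by
      rw [mul_assoc, A_X hAB, ← X_fmul]; congr 1; ext1 s; simp [fmul, smul_smul]
    have t6 : A.X B Dij * (A.ev P * A.x k l) =
        A.X B (fmul (P * idR) (Dij * ContinuousMap.const ℝ (E1 k l))) := by
      rw [← mul_assoc, cX, X_fmul, mul_assoc, X_A, ← X_fmul]
      congr 1; ext1 s; simp [fmul, smul_smul]
    have t7 : A.ev G * B.x i j * A.X B Dkl =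
        B.one' * A.X B (fmul G (ContinuousMap.const ℝ (E2 i j) * Dkl)) := by
      rw [mul_assoc, T_X hAB, ← mul_assoc, ← cT, mul_assoc, ← X_fmul]
    have t8 : A.X B Dij * (A.ev G * B.x k l) =
        B.one' * A.X B (fmul G (Dij * ContinuousMap.const ℝ (E2 k l))) := by
      rw [← mul_assoc, cX, X_fmul, mul_assoc, X_T, ← mul_assoc, ← cT, mul_assoc, ← X_fmul]
    have e1 : ∀ (f : C(ℝ, ℂ)) (D D' : C(ℝ, Matrix (JIx n) (JIx n) ℂ)),
        fmul f (D + D') = fmul f D + fmul f D' := fun f D D' => by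
      ext1 s; simp [fmul, smul_add]
    change (A.ev P * A.x i j + A.ev G * B.x i j + A.X B Dij) *
      (A.ev P * A.x k l + A.ev G * B.x k l + A.X B Dkl) = _
    simp only [Y1, Y2, X_add, e1, mul_add, add_mul, t1, t2, t3, t4, t5, t6, t7, t8, X_mul hAB]
    abel
  have hY1 : Y1 = if j = k then fmul (P * G + P * G) (ContinuousMap.const ℝ (E1 i l)) else 0 := by
    have key : ∀ s, Y1 s = if j = k then (P s * G s + P s * G s) • E1 i l else 0 := by
      intro s
      have h1 : Matrix.single i j (1 : ℂ) ⊗ₖ Matrix.single k l (1 : ℂ) = E1 i j * E2 k l := by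
        rw [E1, E2, ← Matrix.mul_kronecker_mul, mul_one, one_mul]
      have h2 : Matrix.single k l (1 : ℂ) ⊗ₖ Matrix.single i j (1 : ℂ) = E2 i j * E1 k l := by
        rw [E1, E2, ← Matrix.mul_kronecker_mul, mul_one, one_mul]
      have h3 : Y1 s = (P s * G s) • (Matrix.single i j (1 : ℂ) ⊗ₖ Matrix.single k l (1 : ℂ)) +
          (G s * P s) • (Matrix.single k l (1 : ℂ) ⊗ₖ Matrix.single i j (1 : ℂ)) +
          (P s * (s : ℂ)) • (E1 i j * Dkl s + Dij s * E1 k l) := rfl
      have h4 : (P s * (s : ℂ)) • (E1 i j * Dkl s + Dij s * E1 k l) =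
          E1 i j * ((P s * G s) • E1 k l - (P s * G s) • E2 k l) +
          ((P s * G s) • E1 i j - (P s * G s) • E2 i j) * E1 k l := by
        rw [smul_add, ← mul_smul_comm, ← smul_mul_assoc, ← smul_smul, ← smul_smul, DJ_mul_id,
          DJ_mul_id, smul_sub, smul_sub, PC_KJ, PC_KJ, smul_smul, smul_smul]
      rw [h3, h4, h1, h2, mul_comm (G s), mul_sub, sub_mul, mul_smul_comm, mul_smul_comm,
        smul_mul_assoc, smul_mul_assoc, E1_mul]
      split_ifs
      · rw [add_smul]; abel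
      · simp; abel
    refine ContinuousMap.ext fun s => ?_
    rw [key]; split_ifs <;> simp [fmul]
  have hY2 : Y2 = if j = k then fmul G (DJ ha i l) else 0 := by
    have key : ∀ s, Y2 s = if j = k then G s • DJ ha i l s else 0 := by
      intro s
      refine eq_of_id_smul (s := s) ?_ (fun h0 => ?_)
      · have h3 : (s : ℂ) • Y2 s = G s • (E2 i j * ((s : ℂ) • Dkl s) + ((s : ℂ) • Dij s) * E2 k l)
            + ((s : ℂ) • Dij s) * ((s : ℂ) • Dkl s) := by
          change (s : ℂ) • (G s • (E2 i j * Dkl s + Dij s * E2 k l) + (s : ℂ) • (Dij s * Dkl s)) = _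
          simp only [smul_add, mul_smul_comm, smul_mul_assoc, smul_smul, mul_comm (G s)]
        rw [h3, DJ_mul_id, DJ_mul_id]
        simp only [mul_sub, sub_mul, KJ_mul, E2_mul, smul_add, smul_sub, mul_smul_comm,
          smul_mul_assoc]
        split_ifs
        · rw [smul_comm (s : ℂ) (G s) (DJ ha i l s), DJ_mul_id, smul_sub]
          simp only [show G s = GC a s from rfl, smul_smul]
          abel
        · simp only [show G s = GC a s from rfl, smul_zero, sub_zero]
          abel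
      · subst h0
        simp [Y2, fmul, idR, Dij, Dkl, DJ_low ha ha.le]
    refine ContinuousMap.ext fun s => ?_
    rw [key]; split_ifs <;> simp [fmul]
  rw [L, hY1, hY2, A.x_mul', B.x_mul']
  split_ifs with hjk
  · rw [jx_sum ha hAB]
    have hPD : fmul (P * idR) (DJ ha i l) + fmul (P * G) (ContinuousMap.const ℝ (E2 i l)) =
        fmul (P * G) (ContinuousMap.const ℝ (E1 i l)) := by
      refine ContinuousMap.ext fun s => ?_
      change (P s * (s : ℂ)) • DJ ha i l s + (P s * G s) • E2 i l = (P s * G s) • E1 i l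
      rw [← smul_smul, DJ_mul_id, smul_sub, PC_KJ, smul_smul, sub_add_cancel]
    have u1 : A.ev P * A.x i l * (A.ev P * A.one') = A.ev (P * P) * (A.x i l * A.one') := by
      rw [map_mul, mul_assoc, ← mul_assoc (A.x i l), cA]; simp only [mul_assoc]
    have u2 : A.ev G * B.x i l * (A.ev G * B.one') = A.ev (G * G) * (B.x i l * B.one') := by
      rw [map_mul, mul_assoc, ← mul_assoc (B.x i l), cB]; simp only [mul_assoc]
    have u3 : A.ev P * A.x i l * (A.ev G * B.one') =
        A.X B (fmul (P * G) (ContinuousMap.const ℝ (E1 i l))) := by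
      rw [X_fmul, ← A_Tone hAB, map_mul, mul_assoc, ← mul_assoc (A.x i l), cA]
      simp only [mul_assoc]
    have u4 : A.ev G * B.x i l * (A.ev P * A.one') =
        A.X B (fmul (P * G) (ContinuousMap.const ℝ (E2 i l))) := by
      rw [X_fmul, ← h_T hAB, map_mul, mul_assoc, ← mul_assoc (B.x i l), cB, mul_assoc (A.ev P),
        ← (h_comm_B hAB i l).eq, ← mul_assoc, ← map_mul, ← map_mul, mul_comm G]
    have u5 : A.X B (DJ ha i l) * (A.ev P * A.one') = A.X B (fmul (P * idR) (DJ ha i l)) := by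
      rw [← A.ev_idR, ← map_mul, cX]
    have u6 : A.X B (DJ ha i l) * (A.ev G * B.one') = B.one' * A.X B (fmul G (DJ ha i l)) := by
      rw [← mul_assoc, cX]
      refine (Commute.symm ?_).eq
      rw [X]; exact Commute.sum_right _ _ _ fun c _ => Commute.sum_right _ _ _ fun c' _ =>
        (T_comm_ev hAB _).mul_right (T_comm_w hAB c c')
    have hPG : fmul (P * G + P * G) (ContinuousMap.const ℝ (E1 i l)) =
        fmul (P * G) (ContinuousMap.const ℝ (E1 i l)) +
          (fmul (P * idR) (DJ ha i l) + fmul (P * G) (ContinuousMap.const ℝ (E2 i l))) := by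
      rw [hPD]; ext1 s; simp [fmul, add_smul]
    simp only [jx, add_mul, mul_add]
    change _ = A.ev P * A.x i l * (A.ev P * A.one') +
      A.ev G * B.x i l * (A.ev P * A.one') + A.X B (DJ ha i l) * (A.ev P * A.one') +
      (A.ev P * A.x i l * (A.ev G * B.one') + A.ev G * B.x i l * (A.ev G * B.one') +
        A.X B (DJ ha i l) * (A.ev G * B.one'))
    rw [u1, u2, u3, u4, u5, u6, hPG, X_add, X_add]
    abel
  · simp [X_zero]

/-- The join. -/
def join {a : ℝ} (ha : 0 < a) (hAB : A.Comm B) : OZ n F where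
  x := jx ha hAB
  x_star := jx_star ha hAB
  x_mul := jx_mul ha hAB

theorem join_defect : 1 - (join ha hAB).one' = A.ev (qC a) * A.ev (qC a) * (1 - B.one') := by
  rw [show (join ha hAB).one' = A.ev (PC ha) * A.one' + A.ev (GC a) * B.one' from jx_sum ha hAB]
  have hP : A.ev (PC ha) * A.one' = 1 - A.ev (GC a) := by
    rw [← A.ev_idR, ← map_mul, ← map_one A.ev, ← map_sub]
    congr 1; ext s
    exact PC_mul ha s
  rw [hP, ← map_mul, show qC a * qC a = GC a from rfl]
  noncomm_ring

theorem join_comm {y : F} (hA : ∀ i j, Commute (A.x i j) y) (hB : ∀ i j, Commute (B.x i j) y)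
    (i j : Fin n) : Commute ((join ha hAB).x i j) y := by
  have he : ∀ f, Commute (A.ev f) y := A.ev_comm (A.one'_comm_of fun m => hA m m)
  refine Commute.add_left (Commute.add_left ((he _).mul_left (hA i j)) ((he _).mul_left (hB i j))) ?_
  exact Commute.sum_left _ _ _ fun c _ => Commute.sum_left _ _ _ fun c' _ =>
    (he _).mul_left ((hA _ _).mul_left (hB _ _))

/-- Where `A 1 ≥ 3a` the join equals `A`. -/
theorem join_top (f : C(ℝ, ℂ)) (hf : ∀ s, s < 3 * a → f s = 0) (i j : Fin n) :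
    (join ha hAB).x i j * A.ev f = A.ev (PC ha * f) * A.x i j := by
  have hG : GC a * f = 0 := by
    ext s
    rcases lt_or_ge s (3 * a) with h | h
    · simp [hf s h]
    · simp [GC, qC, qR_eq_zero ha h]
  have hD : fmul f (DJ ha i j) = 0 := by
    refine ContinuousMap.ext fun s => ?_
    rcases lt_or_ge s (3 * a) with h | h
    · simp [fmul, hf s h]
    · have : GC a s = 0 := by simp [GC, qC, qR_eq_zero ha h]
      simp [fmul, DJ, KJ, this]
  have hX : A.X B (DJ ha i j) * A.ev f = 0 := by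
    have hc : Commute (A.ev f) (A.X B (DJ ha i j)) := by
      rw [X]; exact Commute.sum_right _ _ _ fun c _ => Commute.sum_right _ _ _ fun c' _ =>
        (A.ev_comm (A.ev_comm (Commute.refl _) _).symm f).mul_right (A.ev_comm (h_comm_w hAB c c') f)
    rw [← hc.eq, ← X_fmul, hD, X_zero]
  change (A.ev (PC ha) * A.x i j + A.ev (GC a) * B.x i j + A.X B (DJ ha i j)) * A.ev f = _
  rw [add_mul, add_mul, hX, add_zero, mul_assoc, ← (A.ev_comm_x f i j).eq, ← mul_assoc, ← map_mul,
    mul_assoc, ← (A.ev_comm (h_comm_B hAB i j) f).eq, ← mul_assoc, ← map_mul, hG, map_zero,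
    zero_mul, add_zero]

end OZ

end

end Vale.Agent.P101
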