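import Vale.Agent.P101.Model
import Vale.Agent.P101.DimDropDef

/-!
# P101: the homomorphism out of the concrete dimension drop algebra
-/

namespace Vale.Agent.P101

open scoped ComplexOrder CStarAlgebra Topology Kronecker

noncomputable section

set_option linter.unusedSectionVars false

variable {n : ℕ}

instance instCStarDDPath (N : Type) [Fintype N] [DecidableEq N] : CStarAlgebra (DDPath N) :=
  inferInstanceAs (CStarAlgebra C(unitInterval, CStarMatrix N N ℂ))

/-- Entry `a c` of a matrix valued path. -/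
def entry {N : Type} [Fintype N] [DecidableEq N] (a c : N) : DDPath N →ₗ[ℂ] C(unitInterval, ℂ) where
  toFun g := ⟨fun t => g t a c,
    ((CStarMatrix.ofMatrixL.symm.continuous.comp g.continuous).matrix_elem a c)⟩
  map_add' _ _ := rfl
  map_smul' _ _ := rfl

theorem entry_apply {N : Type} [Fintype N] [DecidableEq N] (a c : N) (g : DDPath N)
    (t : unitInterval) : entry a c g t = g t a c := rfl

theorem continuous_entry {N : Type} [Fintype N] [DecidableEq N] (a c : N) :
    Continuous (entry a c : DDPath N → C(unitInterval, ℂ)) := by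
  refine AddMonoidHomClass.continuous_of_bound (entry a c) 1 fun g => ?_
  refine (ContinuousMap.norm_le _ (by positivity)).2 fun t => ?_
  rw [one_mul]
  exact (CStarMatrix.norm_entry_le_norm (M := g t) (i := a) (j := c)).trans (g.norm_coe_le_norm t)

/-- A matrix valued path from its entries. -/
def mkPath {N : Type} [Fintype N] [DecidableEq N] (f : N → N → C(unitInterval, ℂ)) : DDPath N :=
  ⟨fun t => CStarMatrix.ofMatrix (Matrix.of fun a c => f a c t),
    CStarMatrix.ofMatrixL.continuous.comp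
      (continuous_matrix fun a c => (f a c).continuous)⟩

theorem mkPath_apply {N : Type} [Fintype N] [DecidableEq N] (f : N → N → C(unitInterval, ℂ))
    (t : unitInterval) (a c : N) : mkPath f t a c = f a c t := rfl

theorem path_ext {N : Type} [Fintype N] [DecidableEq N] {g g' : DDPath N}
    (h : ∀ a c, entry a c g = entry a c g') : g = g' :=
  ContinuousMap.ext fun t => CStarMatrix.ext fun a c => DFunLike.congr_fun (h a c) t

theorem entry_mkPath {N : Type} [Fintype N] [DecidableEq N] (f : N → N → C(unitInterval, ℂ))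
    (a c : N) : entry a c (mkPath f) = f a c := rfl

/-- The coordinate function. -/
def tC : C(unitInterval, ℂ) := ⟨fun t => ((t : ℝ) : ℂ), by fun_prop⟩

/-- `t (1 - t)^2`. -/
def ηC : C(unitInterval, ℂ) := tC * ((1 - tC) * (1 - tC))

namespace DDRel

/-- `a ⊗ 1`. -/
def Mα (a : Matrix (Fin n) (Fin n) ℂ) : CStarMatrix (DDIx n) (DDIx n) ℂ :=
  CStarMatrix.ofMatrix (Matrix.of fun c c' => if c.2 = c'.2 then a c.1 c'.1 else 0)

/-- `P (1 ⊗ b) P`. -/
def Mψ (b : Matrix (Option (Fin n)) (Option (Fin n)) ℂ) : CStarMatrix (DDIx n) (DDIx n) ℂ :=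
  CStarMatrix.ofMatrix (Matrix.of fun c c' => if D2 c = D2 c' then b (D1 c) (D1 c') else 0)

theorem Mα_apply (a : Matrix (Fin n) (Fin n) ℂ) (c c' : DDIx n) :
    Mα a c c' = if c.2 = c'.2 then a c.1 c'.1 else 0 := rfl

theorem Mψ_apply (b : Matrix (Option (Fin n)) (Option (Fin n)) ℂ) (c c' : DDIx n) :
    Mψ b c c' = if D2 c = D2 c' then b (D1 c) (D1 c') else 0 := rfl

variable [NeZero n]

theorem Mα_mul (a a' : Matrix (Fin n) (Fin n) ℂ) : Mα a * Mα a' = Mα (a * a') := by
  refine CStarMatrix.ext fun c c' => ?_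
  simp only [CStarMatrix.mul_apply, Mα_apply, Fintype.sum_prod_type, Matrix.mul_apply]
  by_cases h : c.2 = c'.2 <;> simp [h, ite_mul, mul_ite]

theorem Mψ_mul (b b' : Matrix (Option (Fin n)) (Option (Fin n)) ℂ) :
    Mψ b * Mψ b' = Mψ (b * b') := by
  refine CStarMatrix.ext fun c c' => ?_
  simp only [CStarMatrix.mul_apply, Mψ_apply, sum_D, D1_Dinv, D2_Dinv, Matrix.mul_apply]
  by_cases h : D2 c = D2 c' <;> simp [h, ite_mul, mul_ite]

theorem Mα_star (a : Matrix (Fin n) (Fin n) ℂ) : star (Mα a) = Mα a.conjTranspose := by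
  refine CStarMatrix.ext fun c c' => ?_
  rw [CStarMatrix.star_apply, Mα_apply, Mα_apply]
  by_cases h : c.2 = c'.2 <;> simp [h, eq_comm]

theorem Mψ_star (b : Matrix (Option (Fin n)) (Option (Fin n)) ℂ) :
    star (Mψ b) = Mψ b.conjTranspose := by
  refine CStarMatrix.ext fun c c' => ?_
  rw [CStarMatrix.star_apply, Mψ_apply, Mψ_apply]
  by_cases h : D2 c = D2 c' <;> simp [h, eq_comm]

theorem Mα_one : Mα (1 : Matrix (Fin n) (Fin n) ℂ) = 1 := by
  refine CStarMatrix.ext fun c c' => ?_
  rw [Mα_apply, CStarMatrix.one_apply, Matrix.one_apply]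
  rcases c with ⟨i, o⟩; rcases c' with ⟨j, o'⟩
  by_cases h1 : i = j <;> by_cases h2 : o = o' <;> simp [h1, h2]

theorem Mψ_one : Mψ (1 : Matrix (Option (Fin n)) (Option (Fin n)) ℂ) = 1 := by
  refine CStarMatrix.ext fun c c' => ?_
  rw [Mψ_apply, CStarMatrix.one_apply, Matrix.one_apply]
  by_cases h : c = c'
  · simp [h]
  · by_cases h2 : D2 c = D2 c'
    · rw [if_neg h, if_pos h2, if_neg fun h1 => h (D_inj h1 h2)]
    · simp [h, h2]

theorem Mα_add (a a' : Matrix (Fin n) (Fin n) ℂ) : Mα (a + a') = Mα a + Mα a' := by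
  refine CStarMatrix.ext fun c c' => ?_
  rw [CStarMatrix.add_apply, Mα_apply, Mα_apply, Mα_apply]; split_ifs <;> simp

theorem Mψ_add (b b' : Matrix (Option (Fin n)) (Option (Fin n)) ℂ) :
    Mψ (b + b') = Mψ b + Mψ b' := by
  refine CStarMatrix.ext fun c c' => ?_
  rw [CStarMatrix.add_apply, Mψ_apply, Mψ_apply, Mψ_apply]; split_ifs <;> simp

theorem Mα_smul (r : ℂ) (a : Matrix (Fin n) (Fin n) ℂ) : Mα (r • a) = r • Mα a := by
  refine CStarMatrix.ext fun c c' => ?_
  rw [CStarMatrix.smul_apply, Mα_apply, Mα_apply]; split_ifs <;> simp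

theorem Mψ_smul (r : ℂ) (b : Matrix (Option (Fin n)) (Option (Fin n)) ℂ) :
    Mψ (r • b) = r • Mψ b := by
  refine CStarMatrix.ext fun c c' => ?_
  rw [CStarMatrix.smul_apply, Mψ_apply, Mψ_apply]; split_ifs <;> simp

/-- The `M_n` component at `0`. -/
def Ag : DDPath (DDIx n) →ₗ[ℂ] Matrix (Fin n) (Fin n) ℂ where
  toFun g := Matrix.of fun i j => g 0 (i, none) (j, none)
  map_add' _ _ := rfl
  map_smul' _ _ := rfl

/-- The `M_(n+1)` component at `1`. -/
def Bg : DDPath (DDIx n) →ₗ[ℂ] Matrix (Option (Fin n)) (Option (Fin n)) ℂ where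
  toFun g := Matrix.of fun o o' => g 1 (Dinv o 0) (Dinv o' 0)
  map_add' _ _ := rfl
  map_smul' _ _ := rfl

theorem Ag_of {g : DDPath (DDIx n)} {a} (h : g 0 = Mα a) : Ag g = a := by
  ext i j
  change g 0 (i, none) (j, none) = a i j
  rw [h, Mα_apply, if_pos rfl]

theorem Bg_of {g : DDPath (DDIx n)} {b} (h : g 1 = Mψ b) : Bg g = b := by
  ext o o'
  change g 1 (Dinv o 0) (Dinv o' 0) = b o o'
  rw [h, Mψ_apply]; simp [D1_Dinv, D2_Dinv]

/-- Twisted dimension drop boundary conditions. -/
def twisted : StarSubalgebra ℂ (DDPath (DDIx n)) where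
  carrier := {g | g 0 = Mα (Ag g) ∧ g 1 = Mψ (Bg g)}
  mul_mem' {g g'} hg hg' := by
    have h0 : (g * g') 0 = Mα (Ag g * Ag g') := by
      rw [ContinuousMap.mul_apply, hg.1, hg'.1, Mα_mul]
    have h1 : (g * g') 1 = Mψ (Bg g * Bg g') := by
      rw [ContinuousMap.mul_apply, hg.2, hg'.2, Mψ_mul]
    exact ⟨by rw [Ag_of h0, h0], by rw [Bg_of h1, h1]⟩
  add_mem' {g g'} hg hg' :=
    ⟨by rw [ContinuousMap.add_apply, hg.1, hg'.1, map_add, Mα_add],
     by rw [ContinuousMap.add_apply, hg.2, hg'.2, map_add, Mψ_add]⟩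
  algebraMap_mem' r := by
    rw [Algebra.algebraMap_eq_smul_one]
    have h0 : (r • (1 : DDPath (DDIx n))) 0 = Mα (r • 1) := by
      rw [Mα_smul, Mα_one]; rfl
    have h1 : (r • (1 : DDPath (DDIx n))) 1 = Mψ (r • 1) := by
      rw [Mψ_smul, Mψ_one]; rfl
    exact ⟨by rw [Ag_of h0, h0], by rw [Bg_of h1, h1]⟩
  star_mem' {g} hg := by
    have h0 : (star g) 0 = Mα (Ag g).conjTranspose := by
      rw [ContinuousMap.star_apply, hg.1, Ag_of hg.1, Mα_star]
    have h1 : (star g) 1 = Mψ (Bg g).conjTranspose := by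
      rw [ContinuousMap.star_apply, hg.2, Bg_of hg.2, Mψ_star]
    exact ⟨by rw [Ag_of h0, h0], by rw [Bg_of h1, h1]⟩

theorem mem_twisted {g : DDPath (DDIx n)} :
    g ∈ twisted (n := n) ↔ g 0 = Mα (Ag g) ∧ g 1 = Mψ (Bg g) := Iff.rfl

variable {F : Type*} [CStarAlgebra F] [PartialOrder F] [StarOrderedRing F] (R : DDRel n F)

theorem h_isSA : IsSelfAdjoint R.h := R.h_sa

theorem h_normal : IsStarNormal R.h := R.h_isSA.isStarNormal

theorem mem_spec {s : ℂ} (hs : s ∈ spectrum ℂ R.h) : s = (s.re : ℂ) ∧ s.re ∈ Set.Icc (0:ℝ) 1 := by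
  have e := R.h_isSA.mem_spectrum_eq_re hs
  refine ⟨e, ?_⟩
  have hre : s.re ∈ spectrum ℝ R.h := by
    rw [← spectrum.algebraMap_mem_iff ℂ]; simpa using e ▸ hs
  exact ⟨spectrum_nonneg_of_nonneg R.h_nonneg hre,
    (le_algebraMap_iff_spectrum_le (r := (1:ℝ)) R.h_isSA).1 (by simpa using R.h_le_one) _ hre⟩

/-- The spectrum of `h` inside `[0,1]`. -/
noncomputable def spec : C(spectrum ℂ R.h, unitInterval) :=
  ⟨fun s => Set.projIcc 0 1 zero_le_one (s : ℂ).re, by fun_prop⟩

/-- Functions of `h`. -/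
noncomputable def ev : C(unitInterval, ℂ) →⋆ₐ[ℂ] F :=
  (cfcHom (R := ℂ) R.h_normal).comp (ContinuousMap.compStarAlgHom' ℂ ℂ R.spec)

theorem ev_tC : R.ev tC = R.h := by
  have e : tC.comp R.spec = ContinuousMap.restrict (spectrum ℂ R.h) (ContinuousMap.id ℂ) := by
    ext ⟨s, hs⟩
    obtain ⟨e1, e2⟩ := R.mem_spec hs
    simp [tC, spec, Set.projIcc_of_mem zero_le_one e2, ← e1]
  simp only [ev, StarAlgHom.comp_apply, ContinuousMap.compStarAlgHom'_apply, e]
  exact cfcHom_id R.h_normal

theorem ev_ηC : R.ev ηC = R.η := by simp [ηC, η, R.ev_tC]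

theorem continuous_ev : Continuous R.ev :=
  (cfcHom_continuous R.h_normal).comp (ContinuousMap.continuous_precomp R.spec)

theorem ev_comm {y : F} (hy : Commute R.h y) (f) : Commute (R.ev f) y :=
  Commute.cfcHom R.h_normal hy (by rwa [R.h_sa]) _

theorem h_comm_η : Commute R.h R.η := by
  have c : Commute R.h (1 - R.h) := (Commute.one_right _).sub_right (Commute.refl _)
  exact (Commute.refl R.h).mul_right (c.mul_right c)

theorem h_comm_ev (f) : Commute R.h (R.ev f) := (R.ev_comm (Commute.refl _) f).symm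

/-- `g ↦ Σ g_ac(h) x_ac`. -/
noncomputable def S : DDPath (DDIx n) →ₗ[ℂ] F :=
  ∑ a, ∑ c, (LinearMap.mulRight ℂ (R.x a c)) ∘ₗ R.ev.toAlgHom.toLinearMap ∘ₗ entry a c

theorem S_apply (g) : R.S g = ∑ a, ∑ c, R.ev (entry a c g) * R.x a c := by
  simp [S]

theorem continuous_S : Continuous R.S := by
  have : (R.S : DDPath (DDIx n) → F) = fun g => ∑ a, ∑ c, R.ev (entry a c g) * R.x a c :=
    funext R.S_apply
  rw [this]
  exact continuous_finsetSum _ fun a _ => continuous_finsetSum _ fun c _ =>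
    ((R.continuous_ev.comp (continuous_entry a c)).mul continuous_const)

theorem h_comm_S (g) : Commute R.h (R.S g) := by
  rw [R.S_apply]
  exact Commute.sum_right _ _ _ fun a _ => Commute.sum_right _ _ _ fun c _ =>
    (R.h_comm_ev _).mul_right (R.h_comm_x a c)

theorem S_mem_J (g) : R.S g ∈ R.J := by
  rw [R.S_apply]
  exact Submodule.sum_mem _ fun a _ => Submodule.sum_mem _ fun c _ =>
    R.J_mul_left _ (R.x_mem_J a c)

theorem η_comm_S (g) : Commute R.η (R.S g) := by
  have c : Commute (1 - R.h) (R.S g) := (Commute.one_left _).sub_left (R.h_comm_S g)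
  exact (R.h_comm_S g).mul_left (c.mul_left c)

theorem S_mul (g g') : R.S g * R.S g' = R.η * R.S (g * g') := by
  have hg : ∀ a e, entry a e (g * g') = ∑ b, entry a b g * entry b e g' := by
    intro a e; ext t
    simp [entry_apply, CStarMatrix.mul_apply]
  have key : ∀ a b c e, R.ev (entry a b g) * R.x a b * (R.ev (entry c e g') * R.x c e) =
      if b = c then R.η * (R.ev (entry a b g * entry c e g') * R.x a e) else 0 := by
    intro a b c e
    rw [mul_assoc, ← mul_assoc (R.x a b), ← (R.ev_comm (R.h_comm_x a b) _).eq, mul_assoc,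
      R.x_mul, ← mul_assoc, ← map_mul]
    split_ifs
    · rw [← mul_assoc, ← mul_assoc R.η, ← R.ev_ηC, ← map_mul, ← map_mul, mul_comm ηC]
    · simp
  rw [R.S_apply, R.S_apply, R.S_apply, Finset.sum_mul, Finset.mul_sum]
  refine Finset.sum_congr rfl fun a _ => ?_
  rw [Finset.sum_mul, Finset.mul_sum]
  calc _ = ∑ b, ∑ e, R.η * (R.ev (entry a b g * entry b e g') * R.x a e) := by
        refine Finset.sum_congr rfl fun b _ => ?_
        rw [Finset.mul_sum, Finset.sum_eq_single b]
        · rw [Finset.mul_sum]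
          exact Finset.sum_congr rfl fun e _ => by rw [key, if_pos rfl]
        · intro c _ hc
          rw [Finset.mul_sum]
          exact Finset.sum_eq_zero fun e _ => by rw [key, if_neg (Ne.symm hc)]
        · simp
    _ = _ := by
        rw [Finset.sum_comm]
        refine Finset.sum_congr rfl fun e _ => ?_
        rw [hg, map_sum, Finset.sum_mul, Finset.mul_sum]

theorem S_star (g) : star (R.S g) = R.S (star g) := by
  have hs : ∀ a c, entry a c (star g) = star (entry c a g) := fun a c => by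
    ext t; simp [entry_apply, CStarMatrix.star_apply]
  simp only [R.S_apply, star_sum, star_mul, R.x_star, hs, map_star]
  rw [Finset.sum_comm]
  refine Finset.sum_congr rfl fun a _ => Finset.sum_congr rfl fun c _ => ?_
  rw [← map_star, (R.ev_comm (R.h_comm_x a c) _).eq]

theorem S_one : R.S 1 = R.η := by
  have e : ∀ a c, entry a c (1 : DDPath (DDIx n)) = if a = c then 1 else 0 := fun a c => by
    ext t
    simp only [entry_apply, ContinuousMap.one_apply, CStarMatrix.one_apply]
    split_ifs <;> rfl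
  simp [R.S_apply, e, apply_ite R.ev, ite_mul, R.x_one]

/-- `a ↦ Σ a_ij α_ij`. -/
noncomputable def αL : Matrix (Fin n) (Fin n) ℂ →ₗ[ℂ] F :=
  ∑ i, ∑ j, (Matrix.entryLinearMap ℂ ℂ i j).smulRight (R.α i j)

/-- `b ↦ Σ b_oo' ψ_oo'`. -/
noncomputable def ψL : Matrix (Option (Fin n)) (Option (Fin n)) ℂ →ₗ[ℂ] F :=
  ∑ o, ∑ o', (Matrix.entryLinearMap ℂ ℂ o o').smulRight (R.ψ o o')

theorem αL_apply (a) : R.αL a = ∑ i, ∑ j, a i j • R.α i j := by simp [αL]

theorem ψL_apply (b) : R.ψL b = ∑ o, ∑ o', b o o' • R.ψ o o' := by simp [ψL]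

theorem h_comm_αL (a) : Commute R.h (R.αL a) := by
  rw [R.αL_apply]
  exact Commute.sum_right _ _ _ fun i _ => Commute.sum_right _ _ _ fun j _ =>
    (R.h_comm_α i j).smul_right _

theorem h_comm_ψL (b) : Commute R.h (R.ψL b) := by
  rw [R.ψL_apply]
  exact Commute.sum_right _ _ _ fun i _ => Commute.sum_right _ _ _ fun j _ =>
    (R.h_comm_ψ i j).smul_right _

theorem αL_star (a) : star (R.αL a) = R.αL a.conjTranspose := by
  simp only [R.αL_apply, star_sum, star_smul, R.α_star, Matrix.conjTranspose_apply]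
  exact Finset.sum_comm

theorem ψL_star (b) : star (R.ψL b) = R.ψL b.conjTranspose := by
  simp only [R.ψL_apply, star_sum, star_smul, R.ψ_star, Matrix.conjTranspose_apply]
  exact Finset.sum_comm

theorem αL_one : R.αL 1 = 1 - R.h := by
  simp [R.αL_apply, Matrix.one_apply, ite_smul, R.α_one]

theorem ψL_one : R.ψL 1 = R.h := by
  simp only [R.ψL_apply, Matrix.one_apply, ite_smul, one_smul, zero_smul, Finset.sum_ite_eq,
    Finset.mem_univ, if_true]
  exact R.ψ_one

theorem units_mul {ι : Type} [Fintype ι] [DecidableEq ι] (E : ι → ι → F) (u : F)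
    (hE : ∀ i j k l, E i j * E k l = if j = k then u * E i l else 0) (a b : Matrix ι ι ℂ) :
    (∑ i, ∑ j, a i j • E i j) * (∑ k, ∑ l, b k l • E k l)
      = u * ∑ i, ∑ l, (a * b) i l • E i l := by
  rw [Finset.sum_mul, Finset.mul_sum]
  refine Finset.sum_congr rfl fun i _ => ?_
  rw [Finset.sum_mul, Finset.mul_sum]
  calc _ = ∑ j, ∑ l, (a i j * b j l) • (u * E i l) := by
        refine Finset.sum_congr rfl fun j _ => ?_
        rw [Finset.mul_sum, Finset.sum_eq_single j]
        · rw [Finset.mul_sum]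
          exact Finset.sum_congr rfl fun l _ => by rw [smul_mul_smul_comm, hE, if_pos rfl]
        · intro c _ hc
          rw [Finset.mul_sum]
          exact Finset.sum_eq_zero fun e _ => by
            rw [smul_mul_smul_comm, hE, if_neg (Ne.symm hc), smul_zero]
        · simp
    _ = _ := by
        rw [Finset.sum_comm]
        refine Finset.sum_congr rfl fun l _ => ?_
        rw [Matrix.mul_apply, Finset.sum_smul, Finset.mul_sum]
        simp only [mul_smul_comm]

theorem αL_mul (a a') : R.αL a * R.αL a' = (1 - R.h) * R.αL (a * a') := by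
  simp only [R.αL_apply]; exact units_mul R.α _ R.α_mul a a'

theorem ψL_mul (b b') : R.ψL b * R.ψL b' = R.h * R.ψL (b * b') := by
  simp only [R.ψL_apply]; exact units_mul R.ψ _ R.ψ_mul b b'

theorem αLψL_mem_J (a b) : R.αL a * R.ψL b ∈ R.J := by
  simp only [R.αL_apply, R.ψL_apply, Finset.sum_mul, Finset.mul_sum, smul_mul_smul_comm]
  exact Submodule.sum_mem _ fun _ _ => Submodule.sum_mem _ fun _ _ => Submodule.sum_mem _ fun _ _ =>
    Submodule.sum_mem _ fun _ _ => Submodule.smul_mem _ _ (R.αψ_mem_J _ _ _ _)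

theorem ψLαL_mem_J (a b) : R.ψL b * R.αL a ∈ R.J := by
  simp only [R.αL_apply, R.ψL_apply, Finset.sum_mul, Finset.mul_sum, smul_mul_smul_comm]
  exact Submodule.sum_mem _ fun _ _ => Submodule.sum_mem _ fun _ _ => Submodule.sum_mem _ fun _ _ =>
    Submodule.sum_mem _ fun _ _ => Submodule.smul_mem _ _ (R.ψα_mem_J _ _ _ _)

theorem star_mem_J {j : F} (hj : j ∈ R.J) (hc : Commute R.h j) : star j ∈ R.J := fun q hq => by
  have hs : Commute R.h (star j) := by simpa [R.h_sa] using hc.star_star
  refine eq_zero_of_star_mul ?_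
  have : j * (star j * q) = 0 := by
    refine hj _ ?_
    rw [← mul_assoc (1 - R.h), ((Commute.one_left (star j)).sub_left hs).eq, mul_assoc (star j),
      ← mul_assoc R.h, hs.eq, mul_assoc, hq, mul_zero]
  rw [star_mul, star_star, mul_assoc, this, mul_zero]

/-- The defect of a pair at the two endpoints. -/
noncomputable def bdry (g : DDPath (DDIx n)) (y : F) : F := y - R.αL (Ag g) - R.ψL (Bg g)

theorem h_comm_bdry {g y} (hy : Commute R.h y) : Commute R.h (R.bdry g y) :=
  (hy.sub_right (R.h_comm_αL _)).sub_right (R.h_comm_ψL _)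

/-- The graph of the homomorphism. -/
def Rel (p : DDPath (DDIx n) × F) : Prop :=
  p.1 ∈ twisted (n := n) ∧ Commute R.h p.2 ∧ p.2 * R.η = R.S p.1 ∧ R.bdry p.1 p.2 ∈ R.J

theorem rel_mul {p p'} (hp : R.Rel p) (hp' : R.Rel p') : R.Rel (p * p') := by
  obtain ⟨hg, hc, he, hb⟩ := hp
  obtain ⟨hg', hc', he', hb'⟩ := hp'
  have hT := (twisted (n := n)).mul_mem hg hg'
  refine ⟨hT, hc.mul_right hc', ?_, ?_⟩
  · refine sub_eq_zero.1 (R.eq_zero_of_mem_J (sub_mem (R.J_mul_left _ R.η_mem_J) (R.S_mem_J _)) ?_)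
    have hcη : Commute R.η (R.S p'.1) := R.η_comm_S _
    rw [sub_mul]
    simp only [Prod.fst_mul, Prod.snd_mul, mul_assoc]
    rw [← mul_assoc p'.2, he', ← hcη.eq, ← mul_assoc, he, R.S_mul, ← (R.η_comm_S _).eq, sub_self]
  · have hA : Ag (p.1 * p'.1) = Ag p.1 * Ag p'.1 := Ag_of (by
      rw [ContinuousMap.mul_apply, hg.1, hg'.1, Mα_mul, Ag_of hg.1, Ag_of hg'.1])
    have hB : Bg (p.1 * p'.1) = Bg p.1 * Bg p'.1 := Bg_of (by
      rw [ContinuousMap.mul_apply, hg.2, hg'.2, Mψ_mul, Bg_of hg.2, Bg_of hg'.2])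
    simp only [bdry, Prod.fst_mul, Prod.snd_mul, hA, hB]
    set A := R.αL (Ag p.1); set B := R.ψL (Bg p.1)
    set A' := R.αL (Ag p'.1); set B' := R.ψL (Bg p'.1)
    have e : p.2 * p'.2 - R.αL (Ag p.1 * Ag p'.1) - R.ψL (Bg p.1 * Bg p'.1) =
        R.bdry p.1 p.2 * p'.2 + (A + B) * R.bdry p'.1 p'.2 + A * B' + B * A'
          - R.h * R.αL (Ag p.1 * Ag p'.1) - (1 - R.h) * R.ψL (Bg p.1 * Bg p'.1) := by
      simp only [bdry]
      linear_combination (norm := noncomm_ring) R.αL_mul (Ag p.1) (Ag p'.1) +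
        R.ψL_mul (Bg p.1) (Bg p'.1)
    rw [e]
    refine sub_mem (sub_mem (add_mem (add_mem (add_mem (R.J_mul_right hb hc')
      (R.J_mul_left _ hb')) (R.αLψL_mem_J _ _)) (R.ψLαL_mem_J _ _)) ?_) ?_
    · rw [← R.ψL_one]; exact R.ψLαL_mem_J _ _
    · rw [← R.αL_one]; exact R.αLψL_mem_J _ _

theorem rel_add {p p'} (hp : R.Rel p) (hp' : R.Rel p') : R.Rel (p + p') := by
  refine ⟨add_mem hp.1 hp'.1, hp.2.1.add_right hp'.2.1, ?_, ?_⟩
  · simp [add_mul, hp.2.2.1, hp'.2.2.1]
  · convert add_mem hp.2.2.2 hp'.2.2.2 using 1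
    simp only [bdry, Prod.fst_add, Prod.snd_add, map_add]; abel

theorem rel_star {p} (hp : R.Rel p) : R.Rel (star p) := by
  obtain ⟨hg, hc, he, hb⟩ := hp
  refine ⟨star_mem hg, by simpa [R.h_sa] using hc.star_star, ?_, ?_⟩
  · have hη : star R.η = R.η := by rw [← R.ev_ηC, ← map_star]; congr 1; ext t; simp [ηC, tC]
    have h1 := congrArg star he
    rw [star_mul, hη, R.S_star] at h1
    have hcη : Commute R.η (star p.2) := by
      have hs : Commute R.h (star p.2) := by simpa [R.h_sa] using hc.star_star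
      rw [← R.ev_ηC]; exact R.ev_comm hs _
    change star p.2 * R.η = R.S (star p.1)
    rw [← h1]; exact hcη.eq.symm
  · have hA : Ag (star p.1) = (Ag p.1).conjTranspose := Ag_of (by
      rw [ContinuousMap.star_apply, hg.1, Mα_star, Ag_of hg.1])
    have hB : Bg (star p.1) = (Bg p.1).conjTranspose := Bg_of (by
      rw [ContinuousMap.star_apply, hg.2, Mψ_star, Bg_of hg.2])
    convert R.star_mem_J hb (R.h_comm_bdry hc) using 1
    simp [bdry, hA, hB, R.αL_star, R.ψL_star]

theorem rel_smul_one (r : ℂ) : R.Rel (r • (1 : DDPath (DDIx n) × F)) := by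
  have hT : (r • 1 : DDPath (DDIx n)) ∈ twisted (n := n) :=
    (twisted (n := n)).smul_mem (one_mem _) r
  refine ⟨hT, (Commute.one_right _).smul_right r, ?_, ?_⟩
  · simp [R.S_one]
  · have hA : Ag (r • 1 : DDPath (DDIx n)) = r • 1 := by
      rw [map_smul, Ag_of (a := 1) (by rw [Mα_one]; rfl)]
    have hB : Bg (r • 1 : DDPath (DDIx n)) = r • 1 := by
      rw [map_smul, Bg_of (b := 1) (by rw [Mψ_one]; rfl)]
    have : R.bdry (r • 1 : DDPath (DDIx n)) (r • 1) = 0 := by
      simp [bdry, hA, hB, R.αL_one, R.ψL_one, smul_sub]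
    simp [this]

/-- The graph as a closed star subalgebra. -/
def graph : StarSubalgebra ℂ (DDPath (DDIx n) × F) where
  carrier := {p | R.Rel p}
  mul_mem' := R.rel_mul
  add_mem' := R.rel_add
  algebraMap_mem' r := by rw [Algebra.algebraMap_eq_smul_one]; exact R.rel_smul_one r
  star_mem' := R.rel_star

theorem graph_closed : IsClosed (R.graph : Set (DDPath (DDIx n) × F)) := by
  change IsClosed {p : DDPath (DDIx n) × F | R.Rel p}
  have c1 : Continuous fun g : DDPath (DDIx n) => (Ag g : Matrix (Fin n) (Fin n) ℂ) :=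
    continuous_matrix fun i j =>
      ((continuous_eval_const (0 : unitInterval)).comp (continuous_entry _ _))
  have c2 : Continuous fun g : DDPath (DDIx n) =>
      (Bg g : Matrix (Option (Fin n)) (Option (Fin n)) ℂ) :=
    continuous_matrix fun i j =>
      ((continuous_eval_const (1 : unitInterval)).comp (continuous_entry _ _))
  have e0 : Continuous fun g : DDPath (DDIx n) => Mα (Ag g) :=
    CStarMatrix.ofMatrixL.continuous.comp (continuous_matrix fun c c' => by
      change Continuous fun g => if c.2 = c'.2 then Ag g c.1 c'.1 else (0 : ℂ)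
      split_ifs
      · exact c1.matrix_elem _ _
      · exact continuous_const)
  have e1 : Continuous fun g : DDPath (DDIx n) => Mψ (Bg g) :=
    CStarMatrix.ofMatrixL.continuous.comp (continuous_matrix fun c c' => by
      change Continuous fun g => if D2 c = D2 c' then Bg g (D1 c) (D1 c') else (0 : ℂ)
      split_ifs
      · exact c2.matrix_elem _ _
      · exact continuous_const)
  simp only [Rel, mem_twisted, Set.setOf_and]
  refine ((isClosed_eq ?_ ?_).inter (isClosed_eq ?_ ?_)).inter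
    ((isClosed_eq ?_ ?_).inter ((isClosed_eq ?_ ?_).inter ?_))
  · exact (continuous_eval_const _).comp continuous_fst
  · exact e0.comp continuous_fst
  · exact (continuous_eval_const _).comp continuous_fst
  · exact e1.comp continuous_fst
  · exact continuous_const.mul continuous_snd
  · exact continuous_snd.mul continuous_const
  · exact continuous_snd.mul continuous_const
  · exact R.continuous_S.comp continuous_fst
  · refine R.J_closed.preimage ?_
    have a1 : Continuous fun p : DDPath (DDIx n) × F => R.αL (Ag p.1) :=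
      R.αL.continuous_of_finiteDimensional.comp (c1.comp continuous_fst)
    have a2 : Continuous fun p : DDPath (DDIx n) × F => R.ψL (Bg p.1) :=
      R.ψL.continuous_of_finiteDimensional.comp (c2.comp continuous_fst)
    exact (continuous_snd.sub a1).sub a2

instance : IsClosed (R.graph : Set (DDPath (DDIx n) × F)) := R.graph_closed

/-- The projection of the graph to paths. -/
noncomputable def pr : R.graph →⋆ₐ[ℂ] DDPath (DDIx n) :=
  (StarAlgHom.fst ℂ _ _).comp R.graph.subtype

theorem pr_injective : Function.Injective R.pr := by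
  intro u u' hu
  obtain ⟨hg, hc, he, hb⟩ := sub_mem u.2 u'.2
  have h0 : (u.1 - u'.1).1 = 0 := sub_eq_zero.2 hu
  simp only [bdry, h0, map_zero, sub_zero] at hb he
  exact Subtype.ext (Prod.ext hu (sub_eq_zero.1 (R.eq_zero_of_mem_J hb he)))

theorem pr_range_closed : IsClosed (Set.range R.pr) :=
  letI : CStarAlgebra R.graph := StarSubalgebra.cstarAlgebra R.graph (h_closed := R.graph_closed)
  (NonUnitalStarAlgHom.isometry R.pr R.pr_injective).isClosedEmbedding.isClosed_range

theorem mem_range_α (i j : Fin n) :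
    mkPath (fun c c' => (1 - tC) * ContinuousMap.const _ (Mα (Matrix.single i j 1) c c'))
      ∈ Set.range R.pr := by
  set g := mkPath (fun c c' : DDIx n =>
    (1 - tC) * ContinuousMap.const _ (Mα (Matrix.single i j 1) c c')) with hg
  have h0 : g 0 = Mα (Matrix.single i j 1) := by
    refine CStarMatrix.ext fun a c => ?_
    simp [hg, mkPath_apply, tC]
  have h1 : g 1 = Mψ 0 := by
    refine CStarMatrix.ext fun a c => ?_
    simp [hg, mkPath_apply, tC, Mψ_apply]
  refine ⟨⟨(g, R.α i j), ⟨⟨by rw [Ag_of h0, h0], by rw [Bg_of h1, h1]⟩, R.h_comm_α i j, ?_, ?_⟩⟩, rfl⟩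
  · rw [R.S_apply, ← R.x_one, Finset.mul_sum]
    simp only [hg, entry_mkPath, map_mul, map_sub, map_one, R.ev_tC, Fintype.sum_prod_type,
      Mα_apply, Matrix.single_apply]
    have hev : ∀ r : ℂ, R.ev (ContinuousMap.const _ r) = r • 1 := fun r => by
      rw [← Algebra.algebraMap_eq_smul_one, ← AlgHomClass.commutes R.ev r]
      congr 1
    simp only [hev, mul_smul_comm, smul_mul_assoc, mul_one]
    simp only [x, ← mul_assoc, R.α_z]
    simp [ite_mul, ite_smul, ite_and]
  · simp [bdry, Ag_of h0, Bg_of h1, R.αL_apply, Matrix.single_apply, ite_smul, ite_and]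

theorem mem_range_ψ (o o' : Option (Fin n)) :
    mkPath (fun c c' => tC * ContinuousMap.const _ (Mψ (Matrix.single o o' 1) c c'))
      ∈ Set.range R.pr := by
  set g := mkPath (fun c c' : DDIx n =>
    tC * ContinuousMap.const _ (Mψ (Matrix.single o o' 1) c c')) with hg
  have h0 : g 0 = Mα 0 := by
    refine CStarMatrix.ext fun a c => ?_
    simp [hg, mkPath_apply, tC, Mα_apply]
  have h1 : g 1 = Mψ (Matrix.single o o' 1) := by
    refine CStarMatrix.ext fun a c => ?_
    simp [hg, mkPath_apply, tC]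
  refine ⟨⟨(g, R.ψ o o'), ⟨⟨by rw [Ag_of h0, h0], by rw [Bg_of h1, h1]⟩, R.h_comm_ψ o o', ?_, ?_⟩⟩, rfl⟩
  · rw [R.S_apply, ← R.x_one, Finset.mul_sum]
    simp only [hg, entry_mkPath, map_mul, R.ev_tC, Mψ_apply, Matrix.single_apply]
    have hev : ∀ r : ℂ, R.ev (ContinuousMap.const _ r) = r • 1 := fun r => by
      rw [← Algebra.algebraMap_eq_smul_one, ← AlgHomClass.commutes R.ev r]
      congr 1
    simp only [hev, mul_smul_comm, smul_mul_assoc, mul_one]
    simp only [x, ← mul_assoc, R.ψ_z, sum_D, D1_Dinv, D2_Dinv]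
    simp [ite_mul, ite_smul, ite_and]
  · simp [bdry, Ag_of h0, Bg_of h1, R.ψL_apply, Matrix.single_apply, ite_smul, ite_and]

theorem mem_range_open (a c : DDIx n) (f : C(unitInterval, ℂ)) :
    mkPath (fun a' c' => if a = a' ∧ c = c' then ηC * f else 0) ∈ Set.range R.pr := by
  set g := mkPath (fun a' c' : DDIx n => if a = a' ∧ c = c' then ηC * f else 0) with hg
  have h0 : g 0 = Mα 0 := by
    refine CStarMatrix.ext fun a' c' => ?_
    rw [hg, mkPath_apply, Mα_apply]
    split_ifs <;> simp [ηC, tC]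
  have h1 : g 1 = Mψ 0 := by
    refine CStarMatrix.ext fun a' c' => ?_
    rw [hg, mkPath_apply, Mψ_apply]
    split_ifs <;> simp [ηC, tC]
  refine ⟨⟨(g, R.ev f * R.x a c), ⟨⟨by rw [Ag_of h0, h0], by rw [Bg_of h1, h1]⟩,
    (R.h_comm_ev f).mul_right (R.h_comm_x a c), ?_, ?_⟩⟩, rfl⟩
  · rw [R.S_apply]
    simp only [hg, entry_mkPath, apply_ite R.ev, map_zero, ite_mul, zero_mul, ite_and]
    simp only [Finset.sum_ite_irrel, Finset.sum_const_zero, Finset.sum_ite_eq, Finset.mem_univ,
      if_true, map_mul, R.ev_ηC]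
    have hc : Commute R.η (R.ev f * R.x a c) := by
      rw [← R.ev_ηC]; exact R.ev_comm ((R.h_comm_ev f).mul_right (R.h_comm_x a c)) _
    rw [← hc.eq, mul_assoc]
  · simp [bdry, Ag_of h0, Bg_of h1, R.J_mul_left _ (R.x_mem_J a c)]

theorem mem_closure_ηC {r : C(unitInterval, ℂ)} (h0 : r 0 = 0) (h1 : r 1 = 0) :
    r ∈ closure (Set.range fun f => ηC * f) := by
  rw [Metric.mem_closure_iff]
  intro ε hε
  let e : unitInterval → ℝ := fun t => (t : ℝ) * ((1 - t) * (1 - t))
  have he : Continuous e := by fun_prop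
  have he0 : ∀ t, 0 ≤ e t := fun t => mul_nonneg t.2.1 (mul_self_nonneg _)
  let K : Set unitInterval := {t | ε / 2 ≤ ‖r t‖}
  have hK : IsCompact K := (isClosed_le continuous_const (by fun_prop)).isCompact
  obtain ⟨m, hm, hmK⟩ : ∃ m, 0 < m ∧ ∀ t ∈ K, m ≤ e t := by
    rcases K.eq_empty_or_nonempty with hKe | hKn
    · exact ⟨1, one_pos, fun t ht => by simp [hKe] at ht⟩
    · obtain ⟨t0, ht0, hmin⟩ := hK.exists_isMinOn hKn he.continuousOn
      refine ⟨e t0, lt_of_le_of_ne (he0 t0) fun hh => ?_, fun t ht => hmin ht⟩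
      have hne : ε / 2 ≤ ‖r t0‖ := ht0
      rcases mul_eq_zero.1 hh.symm with h | h
      · have : t0 = 0 := Subtype.ext h
        rw [this, h0, norm_zero] at hne; linarith
      · have : t0 = 1 := Subtype.ext (by
          rcases mul_eq_zero.1 h with h | h <;> (change (t0 : ℝ) = 1; linarith))
        rw [this, h1, norm_zero] at hne; linarith
  let f : C(unitInterval, ℂ) := ⟨fun t => r t / ((max (e t) m : ℝ) : ℂ),
    r.continuous.div (by fun_prop) fun t => by
      simp only [ne_eq, Complex.ofReal_eq_zero]; exact (lt_max_of_lt_right hm).ne'⟩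
  refine ⟨_, ⟨f, rfl⟩, ?_⟩
  rw [dist_eq_norm]
  refine lt_of_le_of_lt ((ContinuousMap.norm_le _ (by linarith)).2 fun t => ?_) (half_lt_self hε)
  have hη : ηC t = (e t : ℂ) := by simp [ηC, tC, e]
  simp only [ContinuousMap.sub_apply, ContinuousMap.mul_apply, hη, f, ContinuousMap.coe_mk]
  have hM : (0:ℝ) < max (e t) m := lt_max_of_lt_right hm
  have : r t - (e t : ℂ) * (r t / ((max (e t) m : ℝ) : ℂ))
      = ((1 - e t / max (e t) m : ℝ) : ℂ) * r t := by push_cast; ring
  rw [this, norm_mul, Complex.norm_real, Real.norm_eq_abs]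
  rcases le_or_gt m (e t) with hle | hlt
  · rw [max_eq_left hle, div_self (by linarith), sub_self, abs_zero, zero_mul]; linarith
  · have hr : ‖r t‖ < ε / 2 := not_le.1 fun hh => (not_le.2 hlt) (hmK t hh)
    have hq : |1 - e t / max (e t) m| ≤ 1 := by
      rw [max_eq_right hlt.le, abs_le]
      have := (div_le_one hm).2 hlt.le
      constructor <;> linarith [div_nonneg (he0 t) hm.le]
    calc _ ≤ 1 * ‖r t‖ := mul_le_mul_of_nonneg_right hq (norm_nonneg _)
      _ ≤ ε / 2 := by linarith

theorem twisted_le_range {g : DDPath (DDIx n)} (hg : g ∈ twisted (n := n)) :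
    g ∈ Set.range R.pr := by
  let K : Submodule ℂ (DDPath (DDIx n)) := LinearMap.range R.pr.toAlgHom.toLinearMap
  have hK : ∀ y, y ∈ K ↔ y ∈ Set.range R.pr := fun y => Iff.rfl
  let gα : Fin n → Fin n → DDPath (DDIx n) := fun i j =>
    mkPath (fun c c' => (1 - tC) * ContinuousMap.const _ (Mα (Matrix.single i j 1) c c'))
  let gψ : Option (Fin n) → Option (Fin n) → DDPath (DDIx n) := fun o o' =>
    mkPath (fun c c' => tC * ContinuousMap.const _ (Mψ (Matrix.single o o' 1) c c'))
  let L : DDPath (DDIx n) :=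
    (∑ i, ∑ j, Ag g i j • gα i j) + ∑ o, ∑ o', Bg g o o' • gψ o o'
  have hL : L ∈ K := add_mem
    (Submodule.sum_mem _ fun i _ => Submodule.sum_mem _ fun j _ =>
      Submodule.smul_mem _ _ ((hK _).2 (R.mem_range_α i j)))
    (Submodule.sum_mem _ fun i _ => Submodule.sum_mem _ fun j _ =>
      Submodule.smul_mem _ _ ((hK _).2 (R.mem_range_ψ i j)))
  have hr : ∀ a c, entry a c (g - L) 0 = 0 ∧ entry a c (g - L) 1 = 0 := by
    intro a c
    constructor
    · simp only [map_sub, ContinuousMap.sub_apply, sub_eq_zero]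
      rw [entry_apply, hg.1]
      simp [L, map_sum, map_add, entry_mkPath, ite_smul, gα, gψ, mkPath_apply, tC, Mα_apply, Matrix.single_apply, ite_and,
        sub_eq_zero]
    · simp only [map_sub, ContinuousMap.sub_apply, sub_eq_zero]
      rw [entry_apply, hg.2]
      simp [L, map_sum, map_add, entry_mkPath, ite_smul, gα, gψ, mkPath_apply, tC, Mψ_apply, Matrix.single_apply, ite_and,
        sub_eq_zero]
      rcases D1 a <;> rcases D1 c <;> simp
  let sgl : DDIx n → DDIx n → C(unitInterval, ℂ) → DDPath (DDIx n) := fun a c r =>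
    mkPath (fun a' c' => if a = a' ∧ c = c' then r else 0)
  have hsum : g - L = ∑ a, ∑ c, sgl a c (entry a c (g - L)) := by
    refine path_ext fun a c => ?_
    simp [map_sum, sgl, entry_mkPath, ite_and]
  have hsgl : ∀ a c, sgl a c (entry a c (g - L)) ∈ Set.range R.pr := by
    intro a c
    have hcont : Continuous (sgl a c) := by
      refine AddMonoidHomClass.continuous_of_bound
        (AddMonoidHom.mk' (sgl a c) fun r r' => path_ext fun a' c' => by
          simp only [map_add, sgl, entry_mkPath]; split_ifs <;> simp) 1 fun r => ?_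
      rw [one_mul]
      refine (ContinuousMap.norm_le _ (norm_nonneg _)).2 fun t => ?_
      refine le_trans ?_ (r.norm_coe_le_norm t)
      change ‖mkPath (fun a' c' => if a = a' ∧ c = c' then r else 0) t‖ ≤ _
      have e : mkPath (fun a' c' => if a = a' ∧ c = c' then r else 0) t =
          r t • CStarMatrix.ofMatrix (Matrix.single a c (1:ℂ)) := by
        refine CStarMatrix.ext fun a' c' => ?_
        rw [mkPath_apply, CStarMatrix.smul_apply, CStarMatrix.ofMatrix_apply, Matrix.single_apply]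
        split_ifs <;> simp
      rw [e, norm_smul]
      refine mul_le_of_le_one_right (norm_nonneg _) ?_
      set u := CStarMatrix.ofMatrix (Matrix.single a c (1:ℂ)) with hu
      have huu : star u * u = CStarMatrix.ofMatrix (Matrix.single c c (1:ℂ)) := by
        rw [hu]
        change CStarMatrix.ofMatrix ((Matrix.single a c (1:ℂ)).conjTranspose *
          Matrix.single a c (1:ℂ)) = _
        simp
      have hp : IsStarProjection (CStarMatrix.ofMatrix (Matrix.single c c (1:ℂ))) := by
        constructor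
        · change CStarMatrix.ofMatrix (Matrix.single c c (1:ℂ) * Matrix.single c c (1:ℂ)) = _
          simp
        · change CStarMatrix.ofMatrix ((Matrix.single c c (1:ℂ)).conjTranspose) = _
          simp
      have h2 : ‖u‖ * ‖u‖ ≤ 1 := by
        rw [← CStarRing.norm_star_mul_self, huu]; exact hp.norm_le _
      nlinarith [norm_nonneg u]
    exact (closure_minimal (s := Set.range fun f => ηC * f)
      (Set.range_subset_iff.2 fun f => R.mem_range_open a c f)
      (R.pr_range_closed.preimage hcont)) (mem_closure_ηC (hr a c).1 (hr a c).2)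
  have : g - L ∈ K := by
    rw [hsum]
    exact Submodule.sum_mem _ fun a _ => Submodule.sum_mem _ fun c _ => (hK _).2 (hsgl a c)
  simpa using (hK _).1 (by simpa using add_mem this hL : g ∈ K)

/-- The homomorphism out of the twisted dimension drop algebra. -/
theorem exists_hom (R : DDRel n F) : Nonempty ((twisted (n := n)) →⋆ₐ[ℂ] F) := by
  let p : R.graph →⋆ₐ[ℂ] (twisted (n := n)) := StarAlgHom.codRestrict R.pr _ fun y => y.2.1
  have hp : Function.Bijective p :=
    ⟨fun y y' h => R.pr_injective (congrArg Subtype.val h),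
     fun g => by
      obtain ⟨y, hy⟩ := R.twisted_le_range g.2
      exact ⟨y, Subtype.ext hy⟩⟩
  exact ⟨((StarAlgHom.snd ℂ _ _).comp R.graph.subtype).comp
    (StarAlgEquiv.ofBijective p hp).symm.toStarAlgHom⟩

end DDRel

end

end Vale.Agent.P101
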